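import Mathlib.Analysis.Complex.Schwarz
import Mathlib.Analysis.Complex.AbsMax
import Mathlib.Analysis.Complex.CauchyIntegral
import Mathlib.Analysis.Calculus.UniformLimitsDeriv
import Mathlib.Analysis.Analytic.IsolatedZeros
import Mathlib.Analysis.Normed.Module.FiniteDimension
import Mathlib.Analysis.Calculus.FDeriv.Pi
import Mathlib.Analysis.Complex.RemovableSingularity

/-!
Normal families, limits and zeros of holomorphic functions on finite dimensional spaces.
-/

open Filter Metric Set Function Topology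

namespace Vale.Agent.P274

variable {X Y : Type*} [NormedAddCommGroup X] [NormedSpace ℂ X] [FiniteDimensional ℂ X]
  [NormedAddCommGroup Y] [NormedSpace ℂ Y] [FiniteDimensional ℂ Y]

/-- A locally uniform limit of eventually holomorphic maps is holomorphic. -/
theorem differentiableOn_of_tendsto {U : Set X} (hU : IsOpen U) {F : ℕ → X → Y} {g : X → Y}
    (hlim : TendstoLocallyUniformlyOn F g atTop U)
    (hd : ∀ z ∈ U, ∃ r > 0, ∀ᶠ m in atTop, DifferentiableOn ℂ (F m) (ball z r)) :
    DifferentiableOn ℂ g U := by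
  have : ProperSpace X := FiniteDimensional.proper ℂ X
  intro x hx
  obtain ⟨r₁, hr₁, hd₁⟩ := hd x hx
  obtain ⟨r₂, hr₂, hball⟩ := Metric.isOpen_iff.1 hU x hx
  obtain ⟨ρ, hρ, hρ₁, hρ₂⟩ : ∃ ρ > 0, ρ < r₁ ∧ ρ < r₂ :=
    ⟨min r₁ r₂ / 2, by positivity, by linarith [min_le_left r₁ r₂],
      by linarith [min_le_right r₁ r₂]⟩
  have hsub : closedBall x ρ ⊆ U := (closedBall_subset_ball hρ₂).trans hball
  have hu : TendstoUniformlyOn F g atTop (closedBall x ρ) :=
    (tendstoLocallyUniformlyOn_iff_tendstoUniformlyOn_of_compact (isCompact_closedBall x ρ)).1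
      (hlim.mono hsub)
  obtain ⟨N, hN⟩ := eventually_atTop.1 hd₁
  -- the derivatives form a uniformly Cauchy sequence on the ball of half radius
  have hcs : UniformCauchySeqOn (fun m => fderiv ℂ (F m)) atTop (ball x (ρ / 2)) := by
    rw [Metric.uniformCauchySeqOn_iff]
    intro ε hε
    set η := ε * ρ / 16 with hη
    obtain ⟨M, hM⟩ :=
      (Metric.uniformCauchySeqOn_iff.1 hu.uniformCauchySeqOn) η (by positivity)
    refine ⟨max M N, fun a ha b hb y hy => ?_⟩
    have hyb : ball y (ρ / 2) ⊆ ball x ρ :=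
      ball_subset_ball' (by linarith [mem_ball.1 hy])
    have hda : DifferentiableOn ℂ (F a) (ball y (ρ / 2)) :=
      (hN a (le_of_max_le_right ha)).mono (hyb.trans (ball_subset_ball hρ₁.le))
    have hdb : DifferentiableOn ℂ (F b) (ball y (ρ / 2)) :=
      (hN b (le_of_max_le_right hb)).mono (hyb.trans (ball_subset_ball hρ₁.le))
    have hpt : ∀ w ∈ ball y (ρ / 2), ‖F a w - F b w‖ ≤ η := by
      intro w hw
      rw [← dist_eq_norm]
      exact (hM a (le_of_max_le_left ha) b (le_of_max_le_left hb) w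
        (ball_subset_closedBall (hyb hw))).le
    have hmaps : MapsTo (F a - F b) (ball y (ρ / 2)) (closedBall ((F a - F b) y) (η + η)) := by
      intro w hw
      rw [mem_closedBall, dist_eq_norm]
      simp only [Pi.sub_apply]
      exact (norm_sub_le _ _).trans
        (add_le_add (hpt w hw) (hpt y (mem_ball_self (by positivity))))
    have hb' := Complex.norm_fderiv_le_div_of_mapsTo_ball (hda.sub hdb) hmaps (by positivity)
    rw [fderiv_sub
      ((hda y (mem_ball_self (by positivity))).differentiableAt (ball_mem_nhds _ (by positivity)))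
      ((hdb y (mem_ball_self (by positivity))).differentiableAt (ball_mem_nhds _ (by positivity)))]
      at hb'
    rw [dist_eq_norm]
    calc _ ≤ (η + η) / (ρ / 2) := hb'
      _ < ε := by
        rw [hη, div_lt_iff₀ (by positivity)]
        nlinarith [mul_pos hε hρ]
  have hpt : ∀ y ∈ ball x (ρ / 2), ∃ l, Tendsto (fun m => fderiv ℂ (F m) y) atTop (𝓝 l) := by
    intro y hy
    exact cauchySeq_tendsto_of_complete ((hcs.cauchy_map hy))
  choose! g' hg' using hpt
  have hunif := hcs.tendstoUniformlyOn_of_tendsto hg'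
  have hev : ∀ᶠ m : ℕ × X in atTop ×ˢ 𝓝 x,
      HasFDerivAt (F m.1) (fderiv ℂ (F m.1) m.2) m.2 := by
    filter_upwards [prod_mem_prod (Ici_mem_atTop N) (ball_mem_nhds x hr₁)] with m hm
    exact ((hN m.1 hm.1 m.2 hm.2).differentiableAt (isOpen_ball.mem_nhds hm.2)).hasFDerivAt
  refine (hasFDerivAt_of_tendstoUniformlyOnFilter (𝕜 := ℂ) (l := atTop) (f := F)
    (f' := fun m => fderiv ℂ (F m)) (g := g) (g' := g') ?_ hev ?_).differentiableAt.differentiableWithinAt
  · exact (tendstoUniformlyOn_iff_tendstoUniformlyOnFilter.1 hunif).mono_right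
      (le_principal_iff.2 (ball_mem_nhds x (by positivity)))
  · filter_upwards [hU.mem_nhds hx] with y hy using hlim.tendsto_at hy

/-- Montel's theorem for eventually locally bounded sequences. -/
theorem montel {U : Set X} (hU : IsOpen U) (F : ℕ → X → Y)
    (hF : ∀ z ∈ U, ∃ r > 0, ∃ M : ℝ, ∀ᶠ m in atTop,
      DifferentiableOn ℂ (F m) (ball z r) ∧ ∀ y ∈ ball z r, ‖F m y‖ ≤ M) :
    ∃ φ : ℕ → ℕ, StrictMono φ ∧ ∃ g : X → Y, DifferentiableOn ℂ g U ∧
      TendstoLocallyUniformlyOn (fun m => F (φ m)) g atTop U := by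
  classical
  have : ProperSpace X := FiniteDimensional.proper ℂ X
  have : ProperSpace Y := FiniteDimensional.proper ℂ Y
  set d : ℕ → X := TopologicalSpace.denseSeq X with hd
  have hdense : DenseRange d := TopologicalSpace.denseRange_denseSeq X
  have hB : ∀ i, ∃ M : ℝ, 0 ≤ M ∧ (d i ∈ U → ∀ᶠ m in atTop, ‖F m (d i)‖ ≤ M) := by
    intro i
    by_cases h : d i ∈ U
    · obtain ⟨r, hr, M, hM⟩ := hF _ h
      exact ⟨max M 0, le_max_right _ _, fun _ => hM.mono fun m hm =>
        (hm.2 _ (mem_ball_self hr)).trans (le_max_left _ _)⟩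
    · exact ⟨0, le_rfl, fun h' => absurd h' h⟩
  choose M hM0 hM using hB
  set x : ℕ → ℕ → Y := fun m i => if ‖F m (d i)‖ ≤ M i then F m (d i) else 0 with hxdef
  have hx : ∀ m, x m ∈ Set.univ.pi fun i => closedBall (0 : Y) (M i) := by
    intro m i _
    simp only [hxdef, mem_closedBall_zero_iff]
    split
    · assumption
    · simpa using hM0 i
  obtain ⟨a, -, φ, hφ, ha⟩ :=
    (isCompact_univ_pi fun i => isCompact_closedBall (0 : Y) (M i)).tendsto_subseq hx
  have hconv : ∀ i, d i ∈ U → CauchySeq fun m => F (φ m) (d i) := by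
    intro i hi
    refine (Tendsto.congr' ?_ (tendsto_pi_nhds.1 ha i)).cauchySeq
    filter_upwards [hφ.tendsto_atTop.eventually (hM i hi)] with m hm
    simp [hxdef, comp_apply, if_pos hm]
  have hcau : ∀ z ∈ U, ∃ r > 0,
      UniformCauchySeqOn (fun m => F (φ m)) atTop (closedBall z r) := by
    intro z hz
    obtain ⟨r, hr, C, hC⟩ := hF z hz
    obtain ⟨r', hr', hzU⟩ := Metric.isOpen_iff.1 hU z hz
    obtain ⟨R, hR, hRr, hRr'⟩ : ∃ R > 0, R ≤ r ∧ R ≤ r' :=
      ⟨min r r', by positivity, min_le_left _ _, min_le_right _ _⟩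
    refine ⟨R / 4, by positivity, Metric.uniformCauchySeqOn_iff.2 fun ε hε => ?_⟩
    set C' := max C 1 with hC'
    have hC'1 : 1 ≤ C' := le_max_right _ _
    set η := min (R / 8) (ε * R / (24 * C')) with hη
    have hη0 : 0 < η := lt_min (by positivity) (by positivity)
    obtain ⟨t, ht⟩ := (isCompact_closedBall z (R / 4)).elim_finite_subcover
      (fun i : {i // d i ∈ ball z (R / 2)} => ball (d i.1) η) (fun _ => isOpen_ball)
      (fun y hy => by
        obtain ⟨i, hi⟩ := hdense.exists_dist_lt y hη0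
        have h2 : d i ∈ ball z (R / 2) := by
          rw [mem_ball]
          calc dist (d i) z ≤ dist (d i) y + dist y z := dist_triangle _ _ _
            _ < η + R / 4 + R / 16 := by
              rw [dist_comm (d i) y]; linarith [mem_closedBall.1 hy]
            _ ≤ R / 2 := by linarith [min_le_left (R / 8) (ε * R / (24 * C'))]
        exact mem_iUnion.2 ⟨⟨i, h2⟩, mem_ball.2 hi⟩)
    have hcs : ∀ᶠ N in atTop, ∀ i ∈ t, ∀ a ≥ N, ∀ b ≥ N,
        dist (F (φ a) (d i.1)) (F (φ b) (d i.1)) < ε / 3 := by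
      rw [eventually_all_finset]
      intro i _
      have hiU : d i.1 ∈ U := hzU (ball_subset_ball (by linarith) i.2)
      obtain ⟨N, hN⟩ := Metric.cauchySeq_iff.1 (hconv _ hiU) (ε / 3) (by positivity)
      filter_upwards [Ici_mem_atTop N] with K hK a ha b hb
      exact hN a (le_trans hK ha) b (le_trans hK hb)
    obtain ⟨N₁, hN₁⟩ := eventually_atTop.1 (hφ.tendsto_atTop.eventually hC)
    obtain ⟨N₂, hN₂⟩ := eventually_atTop.1 hcs
    refine ⟨max N₁ N₂, fun a ha b hb y hy => ?_⟩
    obtain ⟨i, hit, hyi⟩ := mem_iUnion₂.1 (ht hy)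
    have key : ∀ c ≥ N₁, dist (F (φ c) y) (F (φ c) (d i.1)) ≤ ε / 3 := by
      intro c hc
      obtain ⟨hdc, hbc⟩ := hN₁ c hc
      have hsub : ball (d i.1) (R / 2) ⊆ ball z r :=
        ball_subset_ball' (by linarith [mem_ball.1 i.2])
      have hmaps : MapsTo (F (φ c)) (ball (d i.1) (R / 2))
          (closedBall (F (φ c) (d i.1)) (2 * C')) := by
        intro w hw
        rw [mem_closedBall, dist_eq_norm]
        refine (norm_sub_le _ _).trans ?_
        linarith [hbc w (hsub hw), hbc _ (hsub (mem_ball_self (by positivity))),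
          le_max_left C 1]
      have hyd : dist y (d i.1) < η := mem_ball.1 hyi
      refine (Complex.dist_le_div_mul_dist_of_mapsTo_ball (hdc.mono hsub) hmaps
        (mem_ball.2 (hyd.trans_le ((min_le_left _ _).trans (by linarith))))).trans ?_
      calc 2 * C' / (R / 2) * dist y (d i.1) ≤ 2 * C' / (R / 2) * (ε * R / (24 * C')) := by
            gcongr
            exact hyd.le.trans (min_le_right _ _)
        _ = ε / 6 := by field_simp; ring
        _ ≤ ε / 3 := by linarith
    calc dist (F (φ a) y) (F (φ b) y)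
        ≤ dist (F (φ a) y) (F (φ a) (d i.1)) + dist (F (φ a) (d i.1)) (F (φ b) (d i.1))
          + dist (F (φ b) (d i.1)) (F (φ b) y) := dist_triangle4 _ _ _ _
      _ < ε := by
        have h1 := key a (le_of_max_le_left ha)
        have h3 := key b (le_of_max_le_left hb)
        rw [dist_comm] at h3
        linarith [hN₂ N₂ le_rfl i hit a (le_of_max_le_right ha) b (le_of_max_le_right hb)]
  have hlim : ∀ z ∈ U, ∃ l, Tendsto (fun m => F (φ m) z) atTop (𝓝 l) := by
    intro z hz
    obtain ⟨r, hr, h⟩ := hcau z hz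
    exact cauchySeq_tendsto_of_complete (h.cauchy_map (mem_closedBall_self hr.le))
  choose! g hg using hlim
  have hloc : TendstoLocallyUniformlyOn (fun m => F (φ m)) g atTop U := by
    intro u hu z hz
    obtain ⟨r, hr, h⟩ := hcau z hz
    refine ⟨closedBall z r ∩ U, inter_mem (mem_nhdsWithin_of_mem_nhds (closedBall_mem_nhds z hr))
      self_mem_nhdsWithin, ?_⟩
    exact (h.mono inter_subset_left).tendstoUniformlyOn_of_tendsto
      (fun y hy => hg y hy.2) u hu
  refine ⟨φ, hφ, g, differentiableOn_of_tendsto hU hloc ?_, hloc⟩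
  intro z hz
  obtain ⟨r, hr, C, hC⟩ := hF z hz
  exact ⟨r, hr, (hφ.tendsto_atTop.eventually hC).mono fun m hm => hm.1⟩

/-- Hurwitz: a limit of nowhere vanishing functions that vanishes at one point vanishes
identically on a connected open set. -/
theorem hurwitz {U : Set X} (hU : IsOpen U) (hc : IsPreconnected U) {F : ℕ → X → ℂ}
    {g : X → ℂ} (hlim : TendstoLocallyUniformlyOn F g atTop U) (hg : DifferentiableOn ℂ g U)
    (hne : ∀ z ∈ U, ∃ r > 0, ∀ᶠ m in atTop,
      DifferentiableOn ℂ (F m) (ball z r) ∧ ∀ y ∈ ball z r, F m y ≠ 0)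
    {p : X} (hp : p ∈ U) (hp0 : g p = 0) : ∀ z ∈ U, g z = 0 := by
  have : ProperSpace X := FiniteDimensional.proper ℂ X
  set Z := {z | z ∈ U ∧ ∀ᶠ y in 𝓝 z, g y = 0} with hZ
  have key : ∀ z ∈ U, g z = 0 → z ∈ Z := by
    intro z hz hz0
    obtain ⟨r₁, hr₁, hev⟩ := hne z hz
    obtain ⟨r₂, hr₂, hzU⟩ := Metric.isOpen_iff.1 hU z hz
    set r := min r₁ r₂ with hr
    have hr0 : 0 < r := by positivity
    refine ⟨hz, ?_⟩
    filter_upwards [ball_mem_nhds z (by positivity : (0:ℝ) < r / 2)] with y hy
    set σ : ℂ → X := fun t => z + t • (y - z) with hσ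
    have hσd : Differentiable ℂ σ := (differentiable_id.smul_const (y - z)).const_add z
    have hσball : MapsTo σ (ball 0 (3 / 2)) (ball z r) := by
      intro t ht
      simp only [hσ, mem_ball, dist_eq_norm, add_sub_cancel_left, norm_smul]
      have h1 : ‖t‖ < 3 / 2 := by simpa using ht
      have h2 : ‖y - z‖ < r / 2 := by simpa [dist_eq_norm] using hy
      nlinarith [norm_nonneg t, norm_nonneg (y - z)]
    have hsubU : ball z r ⊆ U := (ball_subset_ball (min_le_right _ _)).trans hzU
    have han : AnalyticOnNhd ℂ (g ∘ σ) (ball 0 (3 / 2)) :=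
      (hg.comp hσd.differentiableOn (hσball.mono_right hsubU)).analyticOnNhd isOpen_ball
    have hσ1 : σ 1 = y := by simp [hσ]
    rcases (han 0 (by simp)).eventually_eq_zero_or_eventually_ne_zero with h | h
    · have := han.eqOn_zero_of_preconnected_of_eventuallyEq_zero
        (convex_ball _ _).isPreconnected (by simp) h (mem_ball.2 (by norm_num : dist (1:ℂ) 0 < 3/2))
      simpa [hσ1] using this
    · exfalso
      rw [eventually_nhdsWithin_iff, Metric.eventually_nhds_iff] at h
      obtain ⟨ε, hε, h⟩ := h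
      set ρ := min (ε / 2) 1 with hρ
      have hρ0 : 0 < ρ := lt_min (by positivity) one_pos
      have hρsub : closedBall (0:ℂ) ρ ⊆ ball 0 (3 / 2) :=
        closedBall_subset_ball (by linarith [min_le_right (ε / 2) 1])
      have hsph : ∀ t ∈ sphere (0:ℂ) ρ, (g ∘ σ) t ≠ 0 := fun t ht =>
        h (by rw [mem_sphere.1 ht]; linarith [min_le_left (ε / 2) 1])
          (ne_of_mem_sphere ht hρ0.ne')
      have hcont : ContinuousOn (fun t => ‖(g ∘ σ) t‖) (sphere (0:ℂ) ρ) :=
        (han.continuousOn.mono (sphere_subset_closedBall.trans hρsub)).norm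
      obtain ⟨t₀, ht₀, hmin⟩ := (isCompact_sphere (0:ℂ) ρ).exists_isMinOn
        (NormedSpace.sphere_nonempty.2 hρ0.le) hcont
      set c := ‖(g ∘ σ) t₀‖ with hc
      have hc0 : 0 < c := norm_pos_iff.2 (hsph t₀ ht₀)
      have himg : IsCompact (σ '' closedBall (0:ℂ) ρ) :=
        (isCompact_closedBall _ _).image hσd.continuous
      have hu := (tendstoLocallyUniformlyOn_iff_tendstoUniformlyOn_of_compact himg).1
        (hlim.mono ((image_mono hρsub).trans (hσball.image_subset.trans hsubU)))
      have hsmall := Metric.tendstoUniformlyOn_iff.1 hu (c / 2) (by positivity)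
      obtain ⟨m, ⟨hdm, hnm⟩, hsm⟩ := (hev.and hsmall).exists
      have hin : MapsTo σ (closedBall (0:ℂ) ρ) (ball z r₁) :=
        fun t ht => ball_subset_ball (min_le_left _ _) (hσball (hρsub ht))
      have hdq : DifferentiableOn ℂ (fun t => (F m (σ t))⁻¹) (closedBall (0:ℂ) ρ) :=
        (hdm.comp hσd.differentiableOn hin).inv fun t ht => hnm _ (hin ht)
      have hdq' : DiffContOnCl ℂ (fun t => (F m (σ t))⁻¹) (ball (0:ℂ) ρ) :=
        DifferentiableOn.diffContOnCl (by rw [closure_ball _ hρ0.ne']; exact hdq)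
      have hle := Complex.norm_le_of_forall_mem_frontier_norm_le isBounded_ball hdq'
        (C := (c / 2)⁻¹) (fun t ht => by
          rw [frontier_ball _ hρ0.ne'] at ht
          rw [norm_inv]
          refine inv_anti₀ (by positivity) ?_
          have h1 := hsm (σ t) ⟨t, sphere_subset_closedBall ht, rfl⟩
          have h2 : c ≤ ‖g (σ t)‖ := hmin ht
          rw [dist_eq_norm] at h1
          linarith [norm_sub_norm_le (g (σ t)) (F m (σ t))])
        (subset_closure (mem_ball_self hρ0))
      have h1 := hsm (σ 0) ⟨0, mem_closedBall_self hρ0.le, rfl⟩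
      have hσ0 : σ 0 = z := by simp [hσ]
      simp only [hσ0, norm_inv] at hle
      rw [hσ0, hz0, dist_zero_left] at h1
      have hFz : F m z ≠ 0 := hnm z (mem_ball_self hr₁)
      have := inv_anti₀ (norm_pos_iff.2 hFz) h1.le
      have h3 : (c / 2)⁻¹ < ‖F m z‖⁻¹ := inv_strictAnti₀ (norm_pos_iff.2 hFz) h1
      linarith
  have hZo : IsOpen Z := by
    rw [hZ]
    exact hU.inter isOpen_setOfPred_eventually_nhds
  intro z hz
  by_contra hne0
  have : U ⊆ Z := by
    refine hc.subset_of_closure_inter_subset hZo ⟨p, hp, key p hp hp0⟩ ?_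
    rintro y ⟨hy, hyU⟩
    refine key y hyU ?_
    have hcy : ContinuousWithinAt g Z y :=
      ((hg y hyU).continuousWithinAt).mono fun w hw => hw.1
    have h2 := hcy.mem_closure_image hy
    have h3 : g '' Z ⊆ {0} := by
      rintro _ ⟨w, hw, rfl⟩
      exact hw.2.self_of_nhds
    exact closure_minimal h3 isClosed_singleton h2
  exact hne0 (this hz).2.self_of_nhds

/-- A holomorphic function on a polydisc vanishing on a product of sets accumulating at the
centre vanishes identically. -/
theorem eq_zero_of_eq_zero_on_prod {n : ℕ} {R : ℝ} (hR : 0 < R) {b : Fin n → ℂ}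
    {φ : (Fin n → ℂ) → ℂ} (hφ : DifferentiableOn ℂ φ (ball b R)) (A : Fin n → Set ℂ)
    (hA : ∀ i, ∃ᶠ t in 𝓝[≠] b i, t ∈ A i)
    (h0 : ∀ w ∈ ball b R, (∀ i, w i ∈ A i) → φ w = 0) : ∀ w ∈ ball b R, φ w = 0 := by
  classical
  suffices h : ∀ s : Finset (Fin n), ∀ w ∈ ball b R, (∀ i, i ∉ s → w i ∈ A i) → φ w = 0 from
    fun w hw => h Finset.univ w hw (by simp)
  intro s
  induction s using Finset.induction_on with
  | empty => exact fun w hw h => h0 w hw (fun i => h i (by simp))
  | @insert a s has ih =>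
    intro w hw hwA
    set h : ℂ → ℂ := fun t => φ (update w a t) with hh
    have hmaps : MapsTo (fun t => update w a t) (ball (b a) R) (ball b R) := by
      intro t ht
      rw [ball_pi _ hR] at hw ⊢
      intro i _
      by_cases hi : i = a
      · subst hi; simpa using ht
      · simpa [hi] using hw i trivial
    have hud : Differentiable ℂ fun t : ℂ => update w a t := by
      intro t
      exact ((hasFDerivAt_update w t).differentiableAt)
    have han : AnalyticOnNhd ℂ h (ball (b a) R) :=
      (hφ.comp hud.differentiableOn hmaps).analyticOnNhd isOpen_ball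
    have hfr : ∃ᶠ t in 𝓝[≠] b a, h t = 0 := by
      refine ((hA a).and_eventually (eventually_nhdsWithin_of_eventually_nhds
        (isOpen_ball.mem_nhds (mem_ball_self hR)))).mono ?_
      rintro t ⟨ht, htb⟩
      refine ih _ (hmaps htb) fun i hi => ?_
      by_cases hia : i = a
      · subst hia; simpa using ht
      · simpa [hia] using hwA i (by simp [hi, hia])
    have hwa : w a ∈ ball (b a) R := by
      rw [ball_pi _ hR] at hw
      exact hw a trivial
    have := han.eqOn_zero_of_preconnected_of_frequently_eq_zero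
      (convex_ball _ _).isPreconnected (mem_ball_self hR) hfr hwa
    simpa [hh] using this

end Vale.Agent.P274
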