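import Mathlib.Analysis.Calculus.Deriv.MeanValue
import Mathlib.Analysis.Calculus.ContDiff.Basic
import Mathlib.Analysis.Complex.Basic
import Mathlib.Analysis.Complex.ReImTopology

/-!
Local structure of a regular zero set of a continuously differentiable function on the plane.
-/

open Filter Metric Set Function Topology Complex

namespace Vale.Agent.P274

noncomputable section

/-- The gradient of `ρ` at `u`, as a complex number. -/
def grad (ρ : ℂ → ℝ) (u : ℂ) : ℂ := ⟨fderiv ℝ ρ u 1, fderiv ℝ ρ u I⟩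

/-- The unit normal of `ρ` at `u`. -/
def nrm (ρ : ℂ → ℝ) (u : ℂ) : ℂ := grad ρ u / (‖grad ρ u‖ : ℂ)

variable {ρ : ℂ → ℝ} {u : ℂ}

theorem fderiv_eq_re (h : ℂ) : fderiv ℝ ρ u h = (starRingEnd ℂ (grad ρ u) * h).re := by
  have : h = h.re • (1 : ℂ) + h.im • I := by
    apply Complex.ext <;> simp
  conv_lhs => rw [this, map_add, map_smul, map_smul]
  simp [grad]
  ring

theorem grad_ne_zero (h : fderiv ℝ ρ u ≠ 0) : grad ρ u ≠ 0 := by
  contrapose! h
  ext v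
  simp [fderiv_eq_re, h]

theorem norm_nrm (h : fderiv ℝ ρ u ≠ 0) : ‖nrm ρ u‖ = 1 := by
  rw [nrm, norm_div, Complex.norm_real, norm_norm, div_self]
  exact norm_ne_zero_iff.2 (grad_ne_zero h)

theorem nrm_ne_zero (h : fderiv ℝ ρ u ≠ 0) : nrm ρ u ≠ 0 := by
  intro h0
  simpa [h0] using norm_nrm h

theorem fderiv_nrm_mul (ζ : ℂ) :
    fderiv ℝ ρ u (nrm ρ u * ζ) = ‖grad ρ u‖ * ζ.re := by
  rcases eq_or_ne (grad ρ u) 0 with h | h
  · simp [fderiv_eq_re, h]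
  rw [fderiv_eq_re, nrm, ← mul_assoc, mul_div_assoc', ← Complex.normSq_eq_conj_mul_self,
    Complex.normSq_eq_norm_sq]
  have : (((‖grad ρ u‖ ^ 2 : ℝ) : ℂ) / ((‖grad ρ u‖ : ℝ) : ℂ)) = ((‖grad ρ u‖ : ℝ) : ℂ) := by
    rw [← Complex.ofReal_div]
    congr 1
    field_simp [norm_ne_zero_iff.2 h]
  rw [this, Complex.re_ofReal_mul]

theorem nrm_neg : nrm (fun v => -ρ v) u = -nrm ρ u := by
  have : grad (fun v => -ρ v) u = -grad ρ u := by
    have h : fderiv ℝ (fun v => -ρ v) u = -fderiv ℝ ρ u := fderiv_fun_neg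
    apply Complex.ext <;> simp [grad, h]
  simp [nrm, this, neg_div]

/-- Points where `ρ > 0` near a regular zero `b` lie almost in the half plane `0 < re ζ`,
`ζ = (v - b) / nrm ρ b`. -/
theorem eventually_re_ge (hρ : DifferentiableAt ℝ ρ u) (hu : ρ u = 0) (hd : fderiv ℝ ρ u ≠ 0)
    {ε : ℝ} (hε : 0 < ε) :
    ∀ᶠ v in 𝓝 u, 0 < ρ v → -ε * ‖(v - u) / nrm ρ u‖ ≤ ((v - u) / nrm ρ u).re := by
  have hg : 0 < ‖grad ρ u‖ := norm_pos_iff.2 (grad_ne_zero hd)
  filter_upwards [hρ.hasFDerivAt.isLittleO.bound (mul_pos hε hg)] with v hv hpos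
  set ζ := (v - u) / nrm ρ u with hζ
  have hvu : v - u = nrm ρ u * ζ := by rw [hζ, mul_div_cancel₀ _ (nrm_ne_zero hd)]
  have hn : ‖v - u‖ = ‖ζ‖ := by rw [hvu, norm_mul, norm_nrm hd, one_mul]
  have hD : fderiv ℝ ρ u (v - u) = ‖grad ρ u‖ * ζ.re := by rw [hvu, fderiv_nrm_mul]
  rw [hu, sub_zero, hD, Real.norm_eq_abs, hn] at hv
  have := (abs_le.1 hv).2
  nlinarith

/-- Scaled compact subsets of the half plane land in `{ρ > 0}`. -/
theorem eventually_pos_of_compact (hρ : DifferentiableAt ℝ ρ u) (hu : ρ u = 0)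
    (hd : fderiv ℝ ρ u ≠ 0) {L : Set ℂ} (hL : IsCompact L) (hpos : ∀ q ∈ L, 0 < q.re)
    {O : Set ℂ} (hO : O ∈ 𝓝 u) :
    ∀ᶠ t : ℝ in 𝓝[>] 0, ∀ q ∈ L, u + nrm ρ u * (t : ℂ) * q ∈ O ∧
      0 < ρ (u + nrm ρ u * (t : ℂ) * q) := by
  rcases L.eq_empty_or_nonempty with rfl | hne
  · exact Eventually.of_forall (by simp)
  obtain ⟨q₀, hq₀, hmin⟩ := hL.exists_isMinOn hne Complex.continuous_re.continuousOn
  obtain ⟨M, hM⟩ := hL.isBounded.exists_norm_le
  have hg : 0 < ‖grad ρ u‖ := norm_pos_iff.2 (grad_ne_zero hd)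
  have hq0 : 0 < q₀.re := hpos q₀ hq₀
  set ε := ‖grad ρ u‖ * q₀.re / (2 * (|M| + 1)) with hεdef
  have hε : 0 < ε := by positivity
  obtain ⟨r, hr, hball⟩ := Metric.mem_nhds_iff.1
    (inter_mem hO (hρ.hasFDerivAt.isLittleO.bound hε))
  filter_upwards [self_mem_nhdsWithin,
    nhdsWithin_le_nhds (Iio_mem_nhds (show (0:ℝ) < r / (|M| + 1) by positivity))] with t ht htr q hq
  replace ht : (0 : ℝ) < t := ht
  set v := u + nrm ρ u * (t : ℂ) * q with hv
  have hvu : v - u = nrm ρ u * ((t : ℂ) * q) := by rw [hv]; ring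
  have hnorm : ‖v - u‖ = t * ‖q‖ := by
    rw [hvu, norm_mul, norm_nrm hd, one_mul, norm_mul, Complex.norm_real, Real.norm_eq_abs,
      abs_of_pos ht]
  have hqM : ‖q‖ ≤ |M| := (hM q hq).trans (le_abs_self M)
  have hvball : v ∈ ball u r := by
    rw [mem_ball, dist_eq_norm, hnorm]
    calc t * ‖q‖ ≤ t * (|M| + 1) := by gcongr; linarith
      _ < r := by rw [← lt_div_iff₀ (by positivity)]; exact htr
  obtain ⟨hvO, hvb⟩ := hball hvball
  refine ⟨hvO, ?_⟩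
  replace hvb : ‖ρ v - ρ u - fderiv ℝ ρ u (v - u)‖ ≤ ε * ‖v - u‖ := hvb
  rw [hu, sub_zero, Real.norm_eq_abs, hnorm] at hvb
  have hD : fderiv ℝ ρ u (v - u) = ‖grad ρ u‖ * (t * q.re) := by
    rw [hvu, fderiv_nrm_mul, Complex.re_ofReal_mul]
  rw [hD] at hvb
  have h1 : q₀.re ≤ q.re := hmin hq
  have h2 : ε * ‖q‖ ≤ ‖grad ρ u‖ * q₀.re / 2 := by
    rw [hεdef, div_mul_eq_mul_div, div_le_iff₀ (by positivity)]
    nlinarith [mul_pos hg hq0, norm_nonneg q]
  nlinarith [(abs_le.1 hvb).1, mul_pos (mul_pos hg ht) hq0,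
    mul_le_mul_of_nonneg_left h2 ht.le,
    mul_le_mul_of_nonneg_left h1 (mul_pos hg ht).le]

/-- A small box around a regular zero on which both sides are connected. -/
theorem exists_box {b : ℂ} (hρ : ContDiff ℝ 1 ρ) (hb : ρ b = 0) (hd : fderiv ℝ ρ b ≠ 0)
    {O : Set ℂ} (hO : O ∈ 𝓝 b) :
    ∃ Q : Set ℂ, IsOpen Q ∧ b ∈ Q ∧ Q ⊆ O ∧ IsPreconnected (Q ∩ {v | 0 < ρ v}) ∧
      IsPreconnected (Q ∩ {v | ρ v < 0}) ∧
      (∀ v ∈ Q, ρ v = 0 → v ∈ closure (Q ∩ {w | 0 < ρ w}) ∧ v ∈ closure (Q ∩ {w | ρ w < 0})) ∧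
      ∃ v ∈ Q, v ≠ b ∧ ρ v = 0 := by
  set ν := nrm ρ b with hν
  have hν0 : ν ≠ 0 := nrm_ne_zero hd
  have hg : 0 < ‖grad ρ b‖ := norm_pos_iff.2 (grad_ne_zero hd)
  set ψ : ℝ × ℝ → ℂ := fun p => b + ν * ((p.1 : ℂ) + (p.2 : ℂ) * I) with hψ
  have hψc : Continuous ψ := by fun_prop
  have hρc : Continuous ρ := hρ.continuous
  have hρd : Differentiable ℝ ρ := hρ.differentiable (by norm_num)
  -- choose a square on which the derivative along `ν` is positive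
  have hpos : ∀ᶠ p in 𝓝 ((0 : ℝ), (0 : ℝ)), ψ p ∈ O ∧ 0 < fderiv ℝ ρ (ψ p) ν := by
    have h0 : ψ (0, 0) = b := by simp [hψ]
    have hOp : ψ ⁻¹' O ∈ 𝓝 ((0 : ℝ), (0 : ℝ)) := hψc.continuousAt.preimage_mem_nhds (by rwa [h0])
    have hc : Continuous fun p => fderiv ℝ ρ (ψ p) ν :=
      ((hρ.continuous_fderiv (by norm_num)).comp hψc).clm_apply continuous_const
    have hval : 0 < fderiv ℝ ρ (ψ (0, 0)) ν := by
      rw [h0, ← mul_one ν, fderiv_nrm_mul]; simpa using hg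
    filter_upwards [hOp, hc.continuousAt.eventually_mem (Ioi_mem_nhds hval)] with p hp hp'
    exact ⟨hp, hp'⟩
  obtain ⟨a₀, ha₀, hsq⟩ := Metric.eventually_nhds_iff.1 hpos
  set a := a₀ / 2 with ha
  have ha0 : 0 < a := by positivity
  have hsq' : ∀ x y : ℝ, |x| ≤ a → |y| ≤ a → ψ (x, y) ∈ O ∧ 0 < fderiv ℝ ρ (ψ (x, y)) ν := by
    intro x y hx hy
    apply hsq
    rw [Prod.dist_eq, max_lt_iff]
    simp only [Real.dist_eq, sub_zero]
    constructor <;> linarith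
  have hline : ∀ y x : ℝ, HasDerivAt (fun s : ℝ => ρ (ψ (s, y))) (fderiv ℝ ρ (ψ (x, y)) ν) x := by
    intro y x
    have h1 : HasDerivAt (fun s : ℝ => ψ (s, y)) ν x := by
      have := (((Complex.ofRealCLM.hasDerivAt (x := x)).add_const ((y : ℂ) * I)).const_mul
        ν).const_add b
      simpa [hψ] using this
    exact (hρd (ψ (x, y))).hasFDerivAt.comp_hasDerivAt x h1
  have hmono : ∀ y : ℝ, |y| ≤ a → StrictMonoOn (fun s : ℝ => ρ (ψ (s, y))) (Icc (-a) a) := by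
    intro y hy
    refine strictMonoOn_of_deriv_pos (convex_Icc _ _)
      (fun x _ => (hline y x).continuousAt.continuousWithinAt) fun x hx => ?_
    rw [interior_Icc] at hx
    rw [(hline y x).deriv]
    exact (hsq' x y (abs_le.2 ⟨hx.1.le, hx.2.le⟩) hy).2
  have hψ0 : ρ (ψ (0, 0)) = 0 := by simp [hψ, hb]
  have hmem : ∀ x : ℝ, |x| ≤ a → x ∈ Icc (-a) a := fun x hx => abs_le.1 hx
  have hI2 : |a / 2| < a := by rw [abs_of_pos (half_pos ha0)]; linarith
  have hI2' : |-(a / 2)| < a := by rw [abs_neg]; exact hI2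
  have h0a : |(0 : ℝ)| ≤ a := by simpa using ha0.le
  have hright : 0 < ρ (ψ (a / 2, 0)) := by
    calc (0 : ℝ) = ρ (ψ (0, 0)) := hψ0.symm
      _ < _ := hmono 0 h0a (hmem 0 h0a) (hmem _ hI2.le) (half_pos ha0)
  have hleft : ρ (ψ (-(a / 2), 0)) < 0 := by
    calc ρ (ψ (-(a / 2), 0)) < ρ (ψ (0, 0)) :=
          hmono 0 h0a (hmem _ hI2'.le) (hmem 0 h0a) (by linarith)
      _ = 0 := hψ0
  have hcev : ∀ᶠ y : ℝ in 𝓝 0, 0 < ρ (ψ (a / 2, y)) ∧ ρ (ψ (-(a / 2), y)) < 0 := by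
    have c1 : Continuous fun y : ℝ => ρ (ψ (a / 2, y)) := by fun_prop
    have c2 : Continuous fun y : ℝ => ρ (ψ (-(a / 2), y)) := by fun_prop
    exact (c1.continuousAt.eventually_mem (Ioi_mem_nhds hright)).and
      (c2.continuousAt.eventually_mem (Iio_mem_nhds hleft))
  obtain ⟨c₀, hc₀, hc⟩ := Metric.eventually_nhds_iff.1 hcev
  set c := min a c₀ with hcdef
  have hc0 : 0 < c := lt_min ha0 hc₀
  have hc' : ∀ y : ℝ, |y| < c → |y| ≤ a ∧ 0 < ρ (ψ (a / 2, y)) ∧ ρ (ψ (-(a / 2), y)) < 0 := by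
    intro y hy
    refine ⟨hy.le.trans (min_le_left _ _), hc ?_⟩
    rw [Real.dist_eq, sub_zero]
    exact hy.trans_le (min_le_right _ _)
  set Q : Set ℂ := {v | |((v - b) / ν).re| < a ∧ |((v - b) / ν).im| < c} with hQ
  have hinv : ∀ x y : ℝ, (ψ (x, y) - b) / ν = (x : ℂ) + (y : ℂ) * I := fun x y => by
    rw [hψ]; field_simp; ring
  have hinQ : ∀ x y : ℝ, |x| < a → |y| < c → ψ (x, y) ∈ Q := by
    intro x y hx hy
    simp only [hQ, mem_ofPred_eq, hinv]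
    simpa using And.intro hx hy
  have hofQ : ∀ v ∈ Q, ∃ x y : ℝ, |x| < a ∧ |y| < c ∧ v = ψ (x, y) := by
    intro v hv
    refine ⟨((v - b) / ν).re, ((v - b) / ν).im, hv.1, hv.2, ?_⟩
    simp only [hψ, Complex.re_add_im, mul_div_cancel₀ _ hν0, add_sub_cancel]
  have h0c : |(0 : ℝ)| < c := by simpa using hc0
  refine ⟨Q, ?_, ?_, ?_, ?_, ?_, ?_, ?_⟩
  · have h1 : Continuous fun v : ℂ => |((v - b) / ν).re| :=
      (Complex.continuous_re.comp ((continuous_id.sub continuous_const).div_const ν)).abs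
    have h2 : Continuous fun v : ℂ => |((v - b) / ν).im| :=
      (Complex.continuous_im.comp ((continuous_id.sub continuous_const).div_const ν)).abs
    exact (isOpen_lt h1 continuous_const).inter (isOpen_lt h2 continuous_const)
  · simp [hQ, ha0, hc0]
  · intro v hv
    obtain ⟨x, y, hx, hy, rfl⟩ := hofQ v hv
    exact (hsq' x y hx.le (hc' y hy).1).1
  · refine isPreconnected_of_forall (ψ (a / 2, 0)) fun v hv => ?_
    obtain ⟨x, y, hx, hy, rfl⟩ := hofQ v hv.1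
    have hvp : 0 < ρ (ψ (x, y)) := hv.2
    refine ⟨(fun s => ψ (s, y)) '' uIcc x (a / 2) ∪ (fun s => ψ (a / 2, s)) '' uIcc y 0,
      ?_, ?_, ?_, ?_⟩
    · rintro w (⟨s, hs, rfl⟩ | ⟨s, hs, rfl⟩)
      · have hs' : |s| < a := by
          rw [abs_lt] at hx hI2 ⊢
          rcases mem_uIcc.1 hs with h | h <;> constructor <;> linarith
        refine ⟨hinQ _ _ hs' hy, ?_⟩
        have hm := hmono y (hc' y hy).1
        rcases mem_uIcc.1 hs with h | h
        · exact hvp.trans_le (hm.monotoneOn (hmem x hx.le) (hmem s hs'.le) h.1)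
        · exact (hc' y hy).2.1.trans_le
            (hm.monotoneOn (hmem _ hI2.le) (hmem s hs'.le) h.1)
      · have hs' : |s| < c := by
          rw [abs_lt] at hy ⊢
          rcases mem_uIcc.1 hs with h | h <;> constructor <;> linarith
        exact ⟨hinQ _ _ hI2 hs', (hc' s hs').2.1⟩
    · exact Or.inr ⟨0, right_mem_uIcc, rfl⟩
    · exact Or.inl ⟨x, left_mem_uIcc, rfl⟩
    · refine IsPreconnected.union (ψ (a / 2, y)) ⟨a / 2, right_mem_uIcc, rfl⟩
        ⟨y, left_mem_uIcc, rfl⟩ ?_ ?_ <;>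
      exact isPreconnected_uIcc.image _ (Continuous.continuousOn (by fun_prop))
  · refine isPreconnected_of_forall (ψ (-(a / 2), 0)) fun v hv => ?_
    obtain ⟨x, y, hx, hy, rfl⟩ := hofQ v hv.1
    have hvp : ρ (ψ (x, y)) < 0 := hv.2
    refine ⟨(fun s => ψ (s, y)) '' uIcc x (-(a / 2)) ∪ (fun s => ψ (-(a / 2), s)) '' uIcc y 0,
      ?_, ?_, ?_, ?_⟩
    · rintro w (⟨s, hs, rfl⟩ | ⟨s, hs, rfl⟩)
      · have hs' : |s| < a := by
          rw [abs_lt] at hx hI2' ⊢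
          rcases mem_uIcc.1 hs with h | h <;> constructor <;> linarith
        refine ⟨hinQ _ _ hs' hy, ?_⟩
        have hm := hmono y (hc' y hy).1
        rcases mem_uIcc.1 hs with h | h
        · exact (hm.monotoneOn (hmem s hs'.le) (hmem _ hI2'.le) h.2).trans_lt (hc' y hy).2.2
        · exact (hm.monotoneOn (hmem s hs'.le) (hmem x hx.le) h.2).trans_lt hvp
      · have hs' : |s| < c := by
          rw [abs_lt] at hy ⊢
          rcases mem_uIcc.1 hs with h | h <;> constructor <;> linarith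
        exact ⟨hinQ _ _ hI2' hs', (hc' s hs').2.2⟩
    · exact Or.inr ⟨0, right_mem_uIcc, rfl⟩
    · exact Or.inl ⟨x, left_mem_uIcc, rfl⟩
    · refine IsPreconnected.union (ψ (-(a / 2), y)) ⟨-(a / 2), right_mem_uIcc, rfl⟩
        ⟨y, left_mem_uIcc, rfl⟩ ?_ ?_ <;>
      exact isPreconnected_uIcc.image _ (Continuous.continuousOn (by fun_prop))
  · intro v hv hv0
    obtain ⟨x, y, hx, hy, rfl⟩ := hofQ v hv
    have hm := hmono y (hc' y hy).1
    have hcont : Continuous fun s : ℝ => ψ (s, y) := by fun_prop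
    rw [abs_lt] at hx
    constructor
    · refine mem_closure_of_tendsto (b := 𝓝[>] x)
        ((hcont.tendsto x).mono_left nhdsWithin_le_nhds) ?_
      filter_upwards [self_mem_nhdsWithin, nhdsWithin_le_nhds (Iio_mem_nhds hx.2)] with s hs hs'
      refine ⟨hinQ _ _ (abs_lt.2 ⟨hx.1.trans hs, hs'⟩) hy, ?_⟩
      have := hm ⟨hx.1.le, hx.2.le⟩ ⟨(hx.1.trans hs).le, hs'.le⟩ hs
      simp only [hv0] at this
      exact this
    · refine mem_closure_of_tendsto (b := 𝓝[<] x)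
        ((hcont.tendsto x).mono_left nhdsWithin_le_nhds) ?_
      filter_upwards [self_mem_nhdsWithin, nhdsWithin_le_nhds (Ioi_mem_nhds hx.1)] with s hs hs'
      refine ⟨hinQ _ _ (abs_lt.2 ⟨hs', lt_trans hs hx.2⟩) hy, ?_⟩
      have := hm ⟨hs'.le, (lt_trans hs hx.2).le⟩ ⟨hx.1.le, hx.2.le⟩ hs
      simp only [hv0] at this
      exact this
  · have hy : |c / 2| < c := by rw [abs_of_pos (by positivity)]; linarith
    have hcont : ContinuousOn (fun s : ℝ => ρ (ψ (s, c / 2))) (Icc (-(a / 2)) (a / 2)) :=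
      Continuous.continuousOn (by fun_prop)
    obtain ⟨s, hs, hs0⟩ := intermediate_value_Icc (by linarith) hcont
      ⟨(hc' _ hy).2.2.le, (hc' _ hy).2.1.le⟩
    refine ⟨ψ (s, c / 2), hinQ _ _ (abs_lt.2 ⟨by linarith [hs.1], by linarith [hs.2]⟩) hy, ?_, hs0⟩
    intro h
    have h1 := hinv s (c / 2)
    rw [h, sub_self, zero_div] at h1
    have h2 := congrArg Complex.im h1
    simp at h2
    linarith

/-- A regular zero is not isolated. -/
theorem frequently_zero {b : ℂ} (hρ : ContDiff ℝ 1 ρ) (hb : ρ b = 0) (hd : fderiv ℝ ρ b ≠ 0) :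
    ∃ᶠ v in 𝓝[≠] b, ρ v = 0 := by
  rw [frequently_nhdsWithin_iff, Filter.frequently_iff]
  intro U hU
  obtain ⟨Q, -, -, hQU, -, -, -, v, hvQ, hvb, hv⟩ := exists_box hρ hb hd hU
  exact ⟨v, hQU hvQ, hv, hvb⟩

end

end Vale.Agent.P274
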