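import Vale.Agent.P274.Arc
import Mathlib.Algebra.MvPolynomial.Equiv
import Mathlib.Algebra.MvPolynomial.NoZeroDivisors
import Mathlib.Algebra.MvPolynomial.Nilpotent
import Mathlib.Algebra.MvPolynomial.PDeriv
import Mathlib.RingTheory.Polynomial.GaussLemma
import Mathlib.RingTheory.Polynomial.UniqueFactorization
import Mathlib.RingTheory.MvPolynomial.Basic
import Mathlib.RingTheory.Localization.Integral
import Mathlib.Data.Real.Sign
import Mathlib.Analysis.Calculus.ContDiff.Operations

/-!
Semialgebraic subsets of the plane and the regularity of their boundaries off a finite set.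
-/

open Filter Metric Set Function Topology
open scoped Polynomial

namespace Vale.Agent.P274

noncomputable section

/-- The value of a two-variable real polynomial at a complex number. -/
def pev (p : MvPolynomial (Fin 2) ℝ) (z : ℂ) : ℝ := MvPolynomial.eval ![z.re, z.im] p

/-- A subset of the plane is semialgebraic when membership in it depends only on the signs of
finitely many real polynomials in the real and imaginary parts. -/
def IsSemialgebraic (V : Set ℂ) : Prop :=
  ∃ (k : ℕ) (P : Fin k → MvPolynomial (Fin 2) ℝ) (T : Set (Fin k → SignType)),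
    ∀ z : ℂ, z ∈ V ↔ (fun i => SignType.sign (MvPolynomial.eval ![z.re, z.im] (P i))) ∈ T

/-- `b` is a regular point of the frontier of `V`. -/
def RegularPt (V : Set ℂ) (b : ℂ) : Prop :=
  ∃ (O : Set ℂ) (ρ : ℂ → ℝ), IsOpen O ∧ b ∈ O ∧ ContDiff ℝ 1 ρ ∧
    (∀ u ∈ O, fderiv ℝ ρ u ≠ 0) ∧ ∀ u ∈ O, (u ∈ frontier V ↔ ρ u = 0)

theorem contDiff_pev (p : MvPolynomial (Fin 2) ℝ) : ContDiff ℝ 1 (pev p) := by
  induction p using MvPolynomial.induction_on with
  | C a =>
    have : pev (MvPolynomial.C a) = fun _ => a := by funext w; simp [pev]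
    rw [this]
    exact contDiff_const
  | add p q hp hq =>
    have : pev (p + q) = pev p + pev q := by funext w; simp [pev]
    rw [this]
    exact ContDiff.add hp hq
  | mul_X p i hp =>
    have : ContDiff ℝ 1 fun z : ℂ => (![z.re, z.im] : Fin 2 → ℝ) i := by
      fin_cases i
      · exact Complex.reCLM.contDiff
      · exact Complex.imCLM.contDiff
    have h2 : pev (p * MvPolynomial.X i) =
        fun z : ℂ => pev p z * (![z.re, z.im] : Fin 2 → ℝ) i := by
      funext w; simp [pev]
    rw [h2]
    exact ContDiff.mul hp this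

theorem hasFDerivAt_pev (p : MvPolynomial (Fin 2) ℝ) (z : ℂ) :
    HasFDerivAt (pev p) (pev (MvPolynomial.pderiv 0 p) z • Complex.reCLM +
      pev (MvPolynomial.pderiv 1 p) z • Complex.imCLM) z := by
  induction p using MvPolynomial.induction_on with
  | C a =>
    have : pev (MvPolynomial.C a) = fun _ => a := by funext w; simp [pev]
    rw [this]
    simpa [pev] using hasFDerivAt_const a z
  | add p q hp hq =>
    have : pev (p + q) = pev p + pev q := by funext w; simp [pev]
    rw [this]
    refine (hp.add hq).congr_fderiv ?_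
    ext w
    simp [pev]
    ring
  | mul_X p i hp =>
    fin_cases i
    · have : pev (p * MvPolynomial.X 0) = fun w => pev p w * Complex.reCLM w := by
        funext w; simp [pev]
      simp only [Fin.zero_eta, Fin.isValue]
      rw [this]
      refine (hp.mul Complex.reCLM.hasFDerivAt).congr_fderiv ?_
      ext w
      simp [pev]
      ring
    · have : pev (p * MvPolynomial.X 1) = fun w => pev p w * Complex.imCLM w := by
        funext w; simp [pev]
      simp only [Fin.mk_one, Fin.isValue]
      rw [this]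
      refine (hp.mul Complex.imCLM.hasFDerivAt).congr_fderiv ?_
      ext w
      simp [pev]
      ring

theorem fderiv_pev_ne_zero {p : MvPolynomial (Fin 2) ℝ} {z : ℂ} {i : Fin 2}
    (h : pev (MvPolynomial.pderiv i p) z ≠ 0) : fderiv ℝ (pev p) z ≠ 0 := by
  rw [(hasFDerivAt_pev p z).fderiv]
  intro h0
  fin_cases i
  · apply h
    simpa using congrArg (fun L : ℂ →L[ℝ] ℝ => L 1) h0
  · apply h
    simpa using congrArg (fun L : ℂ →L[ℝ] ℝ => L Complex.I) h0

/-- Rewrite a two-variable polynomial as a polynomial in the first variable. -/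
def phi : MvPolynomial (Fin 2) ℝ ≃ₐ[ℝ] ℝ[X][X] :=
  (MvPolynomial.finSuccEquiv ℝ 1).trans
    (Polynomial.mapAlgEquiv (MvPolynomial.uniqueAlgEquiv ℝ (Fin 1)))

theorem eval_phi (x : Fin 2 → ℝ) (p : MvPolynomial (Fin 2) ℝ) :
    ((phi p).map (Polynomial.evalRingHom (x 1))).eval (x 0) = MvPolynomial.eval x p := by
  induction p using MvPolynomial.induction_on with
  | C a => simp [phi, MvPolynomial.finSuccEquiv_apply]
  | add p q hp hq => simp only [map_add, Polynomial.map_add, Polynomial.eval_add, hp, hq]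
  | mul_X p i hp =>
    simp only [map_mul, Polynomial.map_mul, Polynomial.eval_mul, hp, MvPolynomial.eval_X]
    congr 1
    have h0 : phi (MvPolynomial.X 0) = Polynomial.X := by
      simp [phi, MvPolynomial.finSuccEquiv_X_zero]
    have h1 : phi (MvPolynomial.X 1) = Polynomial.C Polynomial.X := by
      have : MvPolynomial.finSuccEquiv ℝ 1 (MvPolynomial.X (Fin.succ 0)) =
          Polynomial.C (MvPolynomial.X 0) := MvPolynomial.finSuccEquiv_X_succ
      simp only [phi, AlgEquiv.trans_apply]
      rw [show (1 : Fin 2) = Fin.succ 0 from rfl, this]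
      simp
    fin_cases i
    · simp [h0]
    · simp [h1]

/-- An irreducible polynomial and a polynomial it does not divide have common zeros over only
finitely many values of the second coordinate. -/
theorem finite_second {r p : MvPolynomial (Fin 2) ℝ} (hr : Irreducible r) (hrp : ¬ r ∣ p) :
    ∃ F : Set ℝ, F.Finite ∧ ∀ x : Fin 2 → ℝ, MvPolynomial.eval x r = 0 →
      MvPolynomial.eval x p = 0 → x 1 ∈ F := by
  classical
  set R := phi r with hR
  set P := phi p with hP
  have hRirr : Irreducible R := (MulEquiv.irreducible_iff phi).2 hr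
  have hndvd : ¬ R ∣ P := fun h => hrp ((map_dvd_iff phi).1 h)
  by_cases hdeg : R.natDegree = 0
  · obtain ⟨a, ha⟩ := Polynomial.natDegree_eq_zero.1 hdeg
    have ha0 : a ≠ 0 := by rintro rfl; exact hRirr.ne_zero (by simp [← ha])
    refine ⟨{y | a.IsRoot y}, Polynomial.finite_setOfPred_isRoot ha0, fun x hx _ => ?_⟩
    rw [← eval_phi, ← hR, ← ha] at hx
    simpa using hx
  · have hprim : R.IsPrimitive := hRirr.isPrimitive hdeg
    set K := FractionRing ℝ[X]
    have hirrK : Irreducible (R.map (algebraMap ℝ[X] K)) :=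
      hprim.irreducible_iff_irreducible_map_fraction_map.1 hRirr
    have hndK : ¬ R.map (algebraMap ℝ[X] K) ∣ P.map (algebraMap ℝ[X] K) :=
      fun h => hndvd (hprim.dvd_of_fraction_map_dvd_fraction_map h)
    obtain ⟨u, v, huv⟩ := hirrK.coprime_iff_not_dvd.2 hndK
    obtain ⟨c, hc0, hc⟩ := IsLocalization.integerNormalization_spec (nonZeroDivisors ℝ[X]) u
    obtain ⟨d, hd0, hd⟩ := IsLocalization.integerNormalization_spec (nonZeroDivisors ℝ[X]) v
    rw [Algebra.smul_def, Polynomial.algebraMap_apply] at hc hd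
    set u' := IsLocalization.integerNormalization (nonZeroDivisors ℝ[X]) u
    set v' := IsLocalization.integerNormalization (nonZeroDivisors ℝ[X]) v
    have key : Polynomial.C d * u' * R + Polynomial.C c * v' * P = Polynomial.C (c * d) := by
      apply Polynomial.map_injective (algebraMap ℝ[X] K) (IsFractionRing.injective _ _)
      simp only [Polynomial.map_add, Polynomial.map_mul, Polynomial.map_C, map_mul, hc, hd]
      linear_combination (Polynomial.C (algebraMap ℝ[X] K c) *
        Polynomial.C (algebraMap ℝ[X] K d)) * huv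
    have hcd : c * d ≠ 0 :=
      mul_ne_zero (mem_nonZeroDivisors_iff_ne_zero.1 hc0) (mem_nonZeroDivisors_iff_ne_zero.1 hd0)
    refine ⟨{y | (c * d).IsRoot y}, Polynomial.finite_setOfPred_isRoot hcd, fun x hx hx' => ?_⟩
    have := congrArg (fun F : ℝ[X][X] => (F.map (Polynomial.evalRingHom (x 1))).eval (x 0)) key
    rw [← eval_phi] at hx hx'
    simp only [Polynomial.map_add, Polynomial.map_mul, Polynomial.eval_add, Polynomial.eval_mul,
      ← hR, ← hP] at this hx hx'
    rw [hx, hx'] at this
    simpa [eq_comm] using this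

theorem finite_common {r p : MvPolynomial (Fin 2) ℝ} (hr : Irreducible r) (hrp : ¬ r ∣ p) :
    {z : ℂ | pev r z = 0 ∧ pev p z = 0}.Finite := by
  obtain ⟨F, hF, hF'⟩ := finite_second hr hrp
  set σ := MvPolynomial.renameEquiv ℝ (Equiv.swap (0 : Fin 2) 1)
  obtain ⟨G, hG, hG'⟩ := finite_second (r := σ r) (p := σ p)
    ((MulEquiv.irreducible_iff σ).2 hr) (fun h => hrp ((map_dvd_iff σ).1 h))
  have hsub : {z : ℂ | pev r z = 0 ∧ pev p z = 0} ⊆
      (fun q : ℝ × ℝ => (⟨q.1, q.2⟩ : ℂ)) '' (G ×ˢ F) := by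
    rintro z ⟨h1, h2⟩
    refine ⟨(z.re, z.im), ⟨?_, ?_⟩, rfl⟩
    · have hσ : ∀ q, MvPolynomial.eval ![z.im, z.re] (σ q) =
          MvPolynomial.eval ![z.re, z.im] q := by
        intro q
        simp only [σ, MvPolynomial.renameEquiv_apply, MvPolynomial.eval_rename]
        congr 2
        funext i
        fin_cases i <;> simp
      simpa using hG' ![z.im, z.re] ((hσ r).trans h1) ((hσ p).trans h2)
    · simpa using hF' ![z.re, z.im] h1 h2
  exact ((hG.prod hF).image _).subset hsub

theorem exists_pderiv_ne_zero {r : MvPolynomial (Fin 2) ℝ} (hr : Irreducible r) :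
    ∃ i, MvPolynomial.pderiv i r ≠ 0 ∧ ¬ r ∣ MvPolynomial.pderiv i r := by
  classical
  have h1 : ∃ i, MvPolynomial.pderiv i r ≠ 0 := by
    by_contra h
    push Not at h
    have hconst : ∀ s : Fin 2 →₀ ℕ, s ≠ 0 → r.coeff s = 0 := by
      intro s hs
      obtain ⟨i, hi⟩ : ∃ i, s i ≠ 0 := by
        by_contra h'; push Not at h'; exact hs (Finsupp.ext h')
      obtain ⟨m, rfl⟩ : ∃ m, s = m + Finsupp.single i 1 := by
        refine ⟨s - Finsupp.single i 1, ?_⟩
        ext a
        by_cases ha : a = i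
        · subst ha; simp; omega
        · simp [Finsupp.single_eq_of_ne ha]
      have := congrArg (MvPolynomial.coeff m) (h i)
      rw [MvPolynomial.coeff_pderiv, MvPolynomial.coeff_zero] at this
      simp only [mul_eq_zero] at this
      rcases this with h0 | h0
      · exact h0
      · exfalso
        have : (0 : ℝ) < (m i : ℝ) + 1 := by positivity
        linarith
    have : r = MvPolynomial.C (r.coeff 0) := by
      refine MvPolynomial.ext _ _ fun s => ?_
      rw [MvPolynomial.coeff_C]
      split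
      · next h => rw [← h]
      · next h => exact hconst s (Ne.symm h)
    rcases eq_or_ne (r.coeff 0) 0 with h0 | h0
    · exact hr.ne_zero (by rw [this, h0, map_zero])
    · exact hr.not_isUnit (by rw [this]; exact (isUnit_iff_ne_zero.2 h0).map MvPolynomial.C)
  obtain ⟨i, hi⟩ := h1
  refine ⟨i, hi, fun hdvd => ?_⟩
  obtain ⟨q, hq⟩ := hdvd
  have hq0 : q ≠ 0 := by rintro rfl; simp [hq] at hi
  have hle : r.totalDegree ≤ (MvPolynomial.pderiv i r).totalDegree := by
    rw [hq, MvPolynomial.totalDegree_mul_of_isDomain hr.ne_zero hq0]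
    omega
  obtain ⟨m, hm, hmdeg⟩ := Finset.exists_mem_eq_sup _ (MvPolynomial.support_nonempty.2 hi)
    (fun s : Fin 2 →₀ ℕ => s.sum fun _ e => e)
  rw [MvPolynomial.mem_support_iff, MvPolynomial.coeff_pderiv] at hm
  have hms : m + Finsupp.single i 1 ∈ r.support :=
    MvPolynomial.mem_support_iff.2 (left_ne_zero_of_mul hm)
  have h3 := MvPolynomial.le_totalDegree hms
  rw [Finsupp.sum_add_index' (fun _ => rfl) (fun _ _ _ => rfl), Finsupp.sum_single_index rfl] at h3
  have h4 : (MvPolynomial.pderiv i r).totalDegree = m.sum fun _ e => e := hmdeg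
  omega

theorem sign_eventually_eq {g : ℂ → ℝ} {b : ℂ} (hg : ContinuousAt g b) (h : g b ≠ 0) :
    ∀ᶠ u in 𝓝 b, SignType.sign (g u) = SignType.sign (g b) := by
  rcases lt_or_gt_of_ne h with h | h
  · filter_upwards [hg.eventually_mem (Iio_mem_nhds h)] with u hu
    rw [sign_neg h, sign_neg hu]
  · filter_upwards [hg.eventually_mem (Ioi_mem_nhds h)] with u hu
    rw [sign_pos h, sign_pos hu]

/-- Outside a finite set, every frontier point of a semialgebraic subset of the plane is
regular. -/
theorem IsSemialgebraic.regular {V : Set ℂ} (hV : IsSemialgebraic V) :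
    ∃ S : Set ℂ, S.Finite ∧ ∀ b ∈ frontier V, b ∉ S → RegularPt V b := by
  classical
  obtain ⟨k, P, T, hT⟩ := hV
  set facs : Finset (MvPolynomial (Fin 2) ℝ) :=
    Finset.univ.biUnion fun i => (UniqueFactorizationMonoid.factors (P i)).toFinset with hfacs
  have hirr : ∀ r ∈ facs, Irreducible r := by
    intro r hr
    simp only [hfacs, Finset.mem_biUnion, Multiset.mem_toFinset] at hr
    obtain ⟨i, -, hi⟩ := hr
    exact UniqueFactorizationMonoid.irreducible_of_factor r hi
  choose di hdi hdi' using fun r : facs => exists_pderiv_ne_zero (hirr r.1 r.2)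
  set A : facs → Set ℂ := fun r =>
    {z | pev r.1 z = 0 ∧ pev (MvPolynomial.pderiv (di r) r.1) z = 0} with hA
  set B : facs × facs → Set ℂ := fun q =>
    {z | ¬ q.1.1 ∣ q.2.1 ∧ pev q.1.1 z = 0 ∧ pev q.2.1 z = 0} with hB
  have hAf : ∀ r, (A r).Finite := fun r => finite_common (hirr r.1 r.2) (hdi' r)
  have hBf : ∀ q, (B q).Finite := by
    intro q
    by_cases h : q.1.1 ∣ q.2.1
    · refine Set.finite_empty.subset fun z hz => ?_
      exact absurd h hz.1
    · exact (finite_common (hirr q.1.1 q.1.2) h).subset fun z hz => hz.2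
  set S : Set ℂ := (⋃ r, A r) ∪ ⋃ q, B q with hS
  refine ⟨S, (Set.finite_iUnion hAf).union (Set.finite_iUnion hBf), ?_⟩
  intro b hb hbS
  have hPev : ∀ i, ∀ u : ℂ, MvPolynomial.eval ![u.re, u.im] (P i) = pev (P i) u := fun _ _ => rfl
  -- some factor vanishes at `b`
  obtain ⟨r₀, hr₀, hr₀b⟩ : ∃ r ∈ facs, pev r b = 0 := by
    by_contra hno
    push Not at hno
    have hev : ∀ i, ∀ᶠ u in 𝓝 b, SignType.sign (pev (P i) u) = SignType.sign (pev (P i) b) := by
      intro i
      by_cases hP0 : P i = 0
      · exact Eventually.of_forall fun u => by simp [hP0, pev]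
      refine sign_eventually_eq (contDiff_pev _).continuous.continuousAt fun h0 => ?_
      obtain ⟨w, hw⟩ := (UniqueFactorizationMonoid.factors_prod hP0).symm.dvd
      have hd := congrArg (fun q => pev q b) hw
      have hprod : pev (UniqueFactorizationMonoid.factors (P i)).prod b ≠ 0 := by
        simp only [pev, map_multiset_prod]
        refine Multiset.prod_ne_zero fun hz => ?_
        obtain ⟨r, hr, hr0⟩ := Multiset.mem_map.1 hz
        exact hno r (by simp only [hfacs, Finset.mem_biUnion, Multiset.mem_toFinset]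
                        exact ⟨i, Finset.mem_univ _, hr⟩) hr0
      obtain ⟨v, hv⟩ := UniqueFactorizationMonoid.factors_prod hP0
      obtain ⟨c, hc, hcC⟩ := MvPolynomial.isUnit_iff_eq_C_of_isReduced.1 v.isUnit
      rw [← hv, hcC] at h0
      simp only [pev, map_mul, MvPolynomial.eval_C, mul_eq_zero] at h0
      exact h0.elim hprod (hc.ne_zero)
    obtain ⟨u₁, hu₁, hu₁'⟩ := (eventually_all.2 hev).exists_mem
    have hconst : ∀ u ∈ u₁, (u ∈ V ↔ b ∈ V) := fun u hu => by
      rw [hT, hT]
      simp only [hPev, hu₁' u hu]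
    by_cases hbV : b ∈ V
    · exact hb.2 (mem_interior_iff_mem_nhds.2 (mem_of_superset hu₁ fun u hu => (hconst u hu).2 hbV))
    · obtain ⟨u, hu, huV⟩ := mem_closure_iff_nhds.1 hb.1 u₁ hu₁
      exact hbV ((hconst u hu).1 huV)
  set R : facs := ⟨r₀, hr₀⟩
  have hdR : pev (MvPolynomial.pderiv (di R) r₀) b ≠ 0 := fun h0 =>
    hbS (Or.inl (mem_iUnion.2 ⟨R, hr₀b, h0⟩))
  -- every other factor is associated to `r₀` or does not vanish at `b`
  have hother : ∀ r ∈ facs, ¬ Associated r₀ r → pev r b ≠ 0 := by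
    intro r hr hassoc h0
    have hndvd : ¬ r₀ ∣ r := fun h => hassoc ((hirr r₀ hr₀).associated_of_dvd (hirr r hr) h)
    exact hbS (Or.inr (mem_iUnion.2 ⟨(R, ⟨r, hr⟩), hndvd, hr₀b, h0⟩))
  set ρ := pev r₀ with hρ
  have hρC : ContDiff ℝ 1 ρ := contDiff_pev r₀
  have hρd : fderiv ℝ ρ b ≠ 0 := fderiv_pev_ne_zero hdR
  have hev : ∀ r ∈ facs, ¬ Associated r₀ r →
      ∀ᶠ u in 𝓝 b, SignType.sign (pev r u) = SignType.sign (pev r b) :=
    fun r hr hn => sign_eventually_eq (contDiff_pev _).continuous.continuousAt (hother r hr hn)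
  have hev' : ∀ᶠ u in 𝓝 b, fderiv ℝ ρ u ≠ 0 ∧
      ∀ r ∈ facs, ¬ Associated r₀ r → SignType.sign (pev r u) = SignType.sign (pev r b) :=
    ((hρC.continuous_fderiv (by norm_num)).continuousAt.eventually_ne hρd).and
      ((eventually_all_finset facs).2 fun r hr =>
        if hn : Associated r₀ r then Eventually.of_forall fun u h => absurd hn h
        else (hev r hr hn).mono fun u hu _ => hu)
  obtain ⟨O, hO, hOo, hbO⟩ := _root_.eventually_nhds_iff.1 hev'
  -- membership in `V` inside `O` depends only on the sign of `ρ`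
  have hfactor : ∀ r ∈ facs, ∃ g : SignType → SignType,
      ∀ u ∈ O, SignType.sign (pev r u) = g (SignType.sign (ρ u)) := by
    intro r hr
    by_cases hn : Associated r₀ r
    · obtain ⟨v, hv⟩ := hn
      obtain ⟨c, -, hcC⟩ := MvPolynomial.isUnit_iff_eq_C_of_isReduced.1 v.isUnit
      refine ⟨fun s => s * SignType.sign c, fun u _ => ?_⟩
      rw [← hv, hcC, hρ]
      simp [pev, sign_mul]
    · exact ⟨fun _ => SignType.sign (pev r b), fun u hu => (hO u hu).2 r hr hn⟩
  have hpoly : ∀ i, ∃ g : SignType → SignType,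
      ∀ u ∈ O, SignType.sign (pev (P i) u) = g (SignType.sign (ρ u)) := by
    intro i
    by_cases hP0 : P i = 0
    · exact ⟨fun _ => 0, fun u _ => by simp [hP0, pev]⟩
    obtain ⟨v, hv⟩ := UniqueFactorizationMonoid.factors_prod hP0
    obtain ⟨c, -, hcC⟩ := MvPolynomial.isUnit_iff_eq_C_of_isReduced.1 v.isUnit
    have hmul : ∀ M : Multiset (MvPolynomial (Fin 2) ℝ), (∀ r ∈ M, r ∈ facs) →
        ∃ g : SignType → SignType,
          ∀ u ∈ O, SignType.sign (pev M.prod u) = g (SignType.sign (ρ u)) := by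
      intro M
      induction M using Multiset.induction_on with
      | empty => exact fun _ => ⟨fun _ => 1, fun u _ => by simp [pev]⟩
      | cons r M ih =>
        intro hM
        obtain ⟨g₁, hg₁⟩ := hfactor r (hM r (Multiset.mem_cons_self _ _))
        obtain ⟨g₂, hg₂⟩ := ih fun q hq => hM q (Multiset.mem_cons_of_mem hq)
        refine ⟨fun s => g₁ s * g₂ s, fun u hu => ?_⟩
        simp only
        rw [← hg₁ u hu, ← hg₂ u hu]
        simp [pev, sign_mul]
    obtain ⟨g, hg⟩ := hmul (UniqueFactorizationMonoid.factors (P i)) fun r hr => by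
      simp only [hfacs, Finset.mem_biUnion, Multiset.mem_toFinset]
      exact ⟨i, Finset.mem_univ _, hr⟩
    refine ⟨fun s => g s * SignType.sign c, fun u hu => ?_⟩
    simp only
    rw [← hg u hu]
    have hPi : pev (P i) u =
        pev (UniqueFactorizationMonoid.factors (P i)).prod u * c := by
      have := congrArg (fun q => pev q u) hv
      simp only [hcC] at this
      rw [← this]
      simp [pev]
    rw [hPi, sign_mul]
  choose g hg using hpoly
  set τ : SignType → Prop := fun s => (fun i => g i s) ∈ T with hτ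
  have hmem : ∀ u ∈ O, (u ∈ V ↔ τ (SignType.sign (ρ u))) := by
    intro u hu
    rw [hT]
    simp only [hPev, hτ, hg _ u hu]
  -- no frontier off the curve
  have hoff : ∀ u ∈ O, ρ u ≠ 0 → u ∉ frontier V := by
    intro u hu h0 hfr
    have hn : ∀ᶠ w in 𝓝 u, (w ∈ V ↔ u ∈ V) := by
      filter_upwards [hOo.mem_nhds hu, sign_eventually_eq hρC.continuous.continuousAt h0]
        with w hw hw'
      rw [hmem w hw, hmem u hu, hw']
    by_cases huV : u ∈ V
    · exact hfr.2 (mem_interior_iff_mem_nhds.2 (hn.mono fun w hw => hw.2 huV))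
    · obtain ⟨w, hw, hwV⟩ := mem_closure_iff_nhds.1 hfr.1 _ hn
      exact huV (hw.1 hwV)
  refine ⟨O, ρ, hOo, hbO, hρC, fun u hu => (hO u hu).1,
    fun u hu => ⟨fun h => by_contra fun h0 => hoff u hu h0 h, fun h0 => ?_⟩⟩
  -- the three sign classes are not all alike
  have hne : ¬ ((τ 1 ↔ τ 0) ∧ (τ (-1) ↔ τ 0)) := by
    rintro ⟨h1, h2⟩
    have hconst : ∀ w ∈ O, (w ∈ V ↔ τ 0) := by
      intro w hw
      rw [hmem w hw]
      rcases lt_trichotomy (ρ w) 0 with h | h | h
      · rw [sign_neg h]; exact h2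
      · rw [h, sign_zero]
      · rw [sign_pos h]; exact h1
    by_cases h : τ 0
    · exact hb.2 (mem_interior_iff_mem_nhds.2
        (mem_of_superset (hOo.mem_nhds hbO) fun w hw => (hconst w hw).2 h))
    · obtain ⟨w, hw, hwV⟩ := mem_closure_iff_nhds.1 hb.1 O (hOo.mem_nhds hbO)
      exact h ((hconst w hw).1 hwV)
  obtain ⟨Q, -, huQ, hQO, -, -, hcl, -⟩ := exists_box hρC h0 (hO u hu).1 (hOo.mem_nhds hu)
  obtain ⟨hp, hm⟩ := hcl u huQ h0
  have hu0 : u ∈ V ↔ τ 0 := by rw [hmem u hu, h0, sign_zero]
  have hside : ∀ s : SignType, ¬ (τ s ↔ τ 0) →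
      u ∈ closure (Q ∩ {w | SignType.sign (ρ w) = s}) → u ∈ frontier V := by
    intro s hs hcls
    rw [frontier_eq_closure_inter_closure]
    by_cases h : τ 0
    · refine ⟨subset_closure (hu0.2 h), closure_mono ?_ hcls⟩
      rintro w ⟨hwQ, hws⟩ hwV
      rw [hmem w (hQO hwQ), mem_ofPred_eq.mp hws] at hwV
      exact hs ⟨fun _ => h, fun _ => hwV⟩
    · refine ⟨closure_mono ?_ hcls, subset_closure fun huV => h (hu0.1 huV)⟩
      rintro w ⟨hwQ, hws⟩
      rw [hmem w (hQO hwQ), mem_ofPred_eq.mp hws]
      by_contra hw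
      exact hs ⟨fun h' => absurd h' hw, fun h' => absurd h' h⟩
  rcases not_and_or.1 hne with h | h
  · refine hside 1 h (closure_mono (inter_subset_inter_right _ fun w hw => ?_) hp)
    exact sign_pos hw
  · refine hside (-1) h (closure_mono (inter_subset_inter_right _ fun w hw => ?_) hm)
    exact sign_neg hw

end

end Vale.Agent.P274
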