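import Vale.Agent.P274.Basic
import Vale.Agent.P274.Semialg
import Mathlib.Analysis.Calculus.InverseFunctionTheorem.FDeriv
import Mathlib.Analysis.Calculus.FDeriv.Analytic
import Mathlib.LinearAlgebra.Matrix.Nondegenerate
import Mathlib.LinearAlgebra.Matrix.ToLinearEquiv
import Mathlib.Topology.Algebra.Module.FiniteDimension

/-!
Frames: coordinate systems made of some of the functions `f j` and some coordinate functions.
-/

open Filter Metric Set Function Topology Matrix

namespace Vale.Agent.P274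

noncomputable section

variable {n m : ℕ}

/-- The data of a generalised polyhedron: `U` is a connected component, with closure in `W`,
of the set of points of `W` where every `f j` takes its value in `V j`. -/
structure Dom (n m : ℕ) where
  W : Set (Fin n → ℂ)
  U : Set (Fin n → ℂ)
  f : Fin m → (Fin n → ℂ) → ℂ
  V : Fin m → Set ℂ
  bad : Fin m → Set ℂ
  isOpen_W : IsOpen W
  preconnected_W : IsPreconnected W
  analytic_f : ∀ j, AnalyticOnNhd ℂ (f j) W
  isOpen_V : ∀ j, IsOpen (V j)
  finite_bad : ∀ j, (bad j).Finite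
  regular_V : ∀ j, ∀ b ∈ frontier (V j), b ∉ bad j → RegularPt (V j) b
  isOpen_U : IsOpen U
  preconnected_U : IsPreconnected U
  nonempty_U : U.Nonempty
  bounded_U : Bornology.IsBounded U
  closure_subset : closure U ⊆ W
  maps : ∀ z ∈ U, ∀ j, f j z ∈ V j
  edge : ∀ z ∈ closure U, z ∉ U → ∃ j, f j z ∉ V j

variable (D : Dom n m)

/-- The `i`th function of the frame `c`: `f j` if `c i = some j`, else the `i`th coordinate. -/
def Dom.comp (c : Fin n → Option (Fin m)) (i : Fin n) (z : Fin n → ℂ) : ℂ :=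
  (c i).elim (z i) fun j => D.f j z

/-- The frame map. -/
def Dom.Phi (c : Fin n → Option (Fin m)) (z : Fin n → ℂ) : Fin n → ℂ := fun i => D.comp c i z

/-- The Jacobian matrix of a frame. -/
def Dom.jac (c : Fin n → Option (Fin m)) (z : Fin n → ℂ) : Matrix (Fin n) (Fin n) ℂ :=
  fun i k => fderiv ℂ (D.comp c i) z (Pi.single k 1)

/-- The Jacobian determinant of a frame. -/
def Dom.gdet (c : Fin n → Option (Fin m)) (z : Fin n → ℂ) : ℂ := (D.jac c z).det

/-- `f j` depends only on the functions of the frame. -/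
def Dom.Dep (c : Fin n → Option (Fin m)) (j : Fin m) : Prop :=
  ∀ i, c i = none → ∀ z ∈ D.W, D.gdet (Function.update c i (some j)) z = 0

variable {D}
variable {c : Fin n → Option (Fin m)}

theorem comp_of_none {i : Fin n} (h : c i = none) : D.comp c i = fun z => z i := by
  funext z; simp [Dom.comp, h]

theorem comp_of_some {i : Fin n} {j : Fin m} (h : c i = some j) : D.comp c i = D.f j := by
  funext z; simp [Dom.comp, h]

theorem Phi_of_none {i : Fin n} (h : c i = none) (z : Fin n → ℂ) : D.Phi c z i = z i := by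
  simp [Dom.Phi, comp_of_none h]

theorem Phi_of_some {i : Fin n} {j : Fin m} (h : c i = some j) (z : Fin n → ℂ) :
    D.Phi c z i = D.f j z := by
  simp [Dom.Phi, comp_of_some h]

theorem analytic_comp (c : Fin n → Option (Fin m)) (i : Fin n) :
    AnalyticOnNhd ℂ (D.comp c i) D.W := by
  rcases h : c i with _ | j
  · rw [comp_of_none h]
    exact (ContinuousLinearMap.proj (R := ℂ) (φ := fun _ : Fin n => ℂ) i).analyticOnNhd _
  · rw [comp_of_some h]; exact D.analytic_f j

theorem analytic_Phi (c : Fin n → Option (Fin m)) : AnalyticOnNhd ℂ (D.Phi c) D.W :=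
  analyticOnNhd_pi_iff.2 fun i => analytic_comp c i

theorem continuousAt_f (j : Fin m) {z : Fin n → ℂ} (hz : z ∈ D.W) : ContinuousAt (D.f j) z :=
  (D.analytic_f j z hz).continuousAt

theorem continuousAt_Phi (c : Fin n → Option (Fin m)) {z : Fin n → ℂ} (hz : z ∈ D.W) :
    ContinuousAt (D.Phi c) z :=
  (analytic_Phi c z hz).continuousAt

theorem analytic_gdet (c : Fin n → Option (Fin m)) : AnalyticOnNhd ℂ (D.gdet c) D.W := by
  unfold Dom.gdet
  simp only [Matrix.det_apply']
  refine Finset.analyticOnNhd_fun_sum _ fun σ _ => analyticOnNhd_const.mul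
    (Finset.analyticOnNhd_fun_prod _ fun i _ => ?_)
  exact ((ContinuousLinearMap.apply ℂ ℂ (Pi.single i 1)).analyticOnNhd _).comp
    (analytic_comp c (σ i)).fderiv (mapsTo_univ _ _)

theorem continuousAt_gdet (c : Fin n → Option (Fin m)) {z : Fin n → ℂ} (hz : z ∈ D.W) :
    ContinuousAt (D.gdet c) z :=
  (analytic_gdet c z hz).continuousAt

theorem jac_mulVec {z : Fin n → ℂ} (hz : z ∈ D.W) (v : Fin n → ℂ) :
    (D.jac c z).mulVec v = fderiv ℂ (D.Phi c) z v := by
  funext i
  have hd : ∀ i, DifferentiableAt ℂ (D.comp c i) z :=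
    fun i => (analytic_comp c i z hz).differentiableAt
  have : fderiv ℂ (D.Phi c) z v i = fderiv ℂ (D.comp c i) z v := by
    unfold Dom.Phi
    rw [fderiv_pi hd]
    rfl
  rw [this]
  conv_rhs => rw [pi_eq_sum_univ' v]
  simp only [map_sum, map_smul, smul_eq_mul, Matrix.mulVec, dotProduct, Dom.jac]
  exact Finset.sum_congr rfl fun k _ => mul_comm _ _

theorem row_dot (j : Fin m) {z : Fin n → ℂ} (v : Fin n → ℂ) :
    (fun k => fderiv ℂ (D.f j) z (Pi.single k 1)) ⬝ᵥ v = fderiv ℂ (D.f j) z v := by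
  conv_rhs => rw [pi_eq_sum_univ' v]
  simp only [map_sum, map_smul, smul_eq_mul, dotProduct]
  exact Finset.sum_congr rfl fun k _ => mul_comm _ _

theorem jac_update (i : Fin n) (j : Fin m) (z : Fin n → ℂ) :
    D.jac (Function.update c i (some j)) z =
      (D.jac c z).updateRow i fun k => fderiv ℂ (D.f j) z (Pi.single k 1) := by
  ext a b
  by_cases h : a = i
  · subst h
    simp [Dom.jac, Matrix.updateRow_self,
      comp_of_some (D := D) (c := Function.update c a (some j)) (i := a) (j := j) (by simp)]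
  · have : D.comp (Function.update c i (some j)) a = D.comp c a := by
      funext w; simp [Dom.comp, Function.update_of_ne h]
    simp [Dom.jac, Matrix.updateRow_ne h, this]

/-- With `x` the `i`th coordinate direction of the frame, replacing the `i`th function by `f j`
keeps the frame regular exactly when `f j` varies along `x`. -/
theorem gdet_update_eq_zero_iff {z : Fin n → ℂ} (hz : z ∈ D.W) (hg : D.gdet c z ≠ 0) {i : Fin n}
    {x : Fin n → ℂ} (hx : fderiv ℂ (D.Phi c) z x = Pi.single i 1) (j : Fin m) :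
    D.gdet (Function.update c i (some j)) z = 0 ↔ fderiv ℂ (D.f j) z x = 0 := by
  have hMx : (D.jac c z).mulVec x = Pi.single i 1 := by rw [jac_mulVec hz, hx]
  have hx0 : x ≠ 0 := by
    rintro rfl
    have := congrFun hx i
    simp at this
  rw [Dom.gdet, jac_update]
  constructor
  · intro hdet
    obtain ⟨v, hv0, hv⟩ := Matrix.exists_mulVec_eq_zero_iff.2 hdet
    have hrow : ∀ a, a ≠ i → ((D.jac c z).mulVec v) a = 0 := by
      intro a ha
      have := congrFun hv a
      simpa [Matrix.mulVec, Matrix.updateRow_ne ha] using this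
    set t := ((D.jac c z).mulVec v) i
    have hMv : (D.jac c z).mulVec (v - t • x) = 0 := by
      funext a
      by_cases ha : a = i
      · subst ha
        simp [Matrix.mulVec_sub, Matrix.mulVec_smul, hMx, t]
      · simp [Matrix.mulVec_sub, Matrix.mulVec_smul, hMx, hrow a ha, ha]
    have hvx : v = t • x := sub_eq_zero.1 (Matrix.eq_zero_of_mulVec_eq_zero hg hMv)
    have hi := congrFun hv i
    simp only [Matrix.mulVec, Matrix.updateRow_self, Pi.zero_apply] at hi
    rw [row_dot, hvx, map_smul, smul_eq_mul, mul_eq_zero] at hi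
    rcases hi with ht | hfx
    · exact absurd (by rw [hvx, ht, zero_smul]) hv0
    · exact hfx
  · intro hfx
    refine Matrix.exists_mulVec_eq_zero_iff.1 ⟨x, hx0, ?_⟩
    funext a
    by_cases ha : a = i
    · subst ha
      simp [Matrix.mulVec, Matrix.updateRow_self, row_dot, hfx]
    · have := congrFun hMx a
      simp only [Pi.single_eq_of_ne ha] at this
      simpa [Matrix.mulVec, Matrix.updateRow_ne ha] using this

theorem dep_of_mem {i₀ : Fin n} {j : Fin m} (h : c i₀ = some j) : D.Dep c j := by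
  intro i hi z _
  have hne : i ≠ i₀ := fun e => by simp [e, h] at hi
  unfold Dom.gdet
  refine Matrix.det_zero_of_row_eq hne ?_
  funext k
  have h1 : Function.update c i (some j) i = some j := Function.update_self _ _ _
  have h2 : Function.update c i (some j) i₀ = some j := by rw [Function.update_of_ne hne.symm, h]
  simp only [Dom.jac, comp_of_some h1, comp_of_some h2]

/-- A chart adapted to a frame. -/
structure Chart (D : Dom n m) (c : Fin n → Option (Fin m)) where
  e : OpenPartialHomeomorph (Fin n → ℂ) (Fin n → ℂ)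
  ctr : Fin n → ℂ
  rad : ℝ
  rad_pos : 0 < rad
  source_subset : e.source ⊆ D.W
  gdet_ne : ∀ z ∈ e.source, D.gdet c z ≠ 0
  coe_eq : ∀ z ∈ e.source, e z = D.Phi c z
  target_eq : e.target = ball ctr rad
  diff_symm : DifferentiableOn ℂ e.symm e.target

/-- Around any point where the frame is regular there is a chart inside a given neighbourhood. -/
theorem exists_chart {z₀ : Fin n → ℂ} (hz₀ : z₀ ∈ D.W) (hg : D.gdet c z₀ ≠ 0)
    {O : Set (Fin n → ℂ)} (hO : O ∈ 𝓝 z₀) :
    ∃ C : Chart D c, z₀ ∈ C.e.source ∧ C.ctr = D.Phi c z₀ ∧ C.e.source ⊆ O := by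
  obtain ⟨O', hO', hO'o, hz₀O⟩ := _root_.mem_nhds_iff.1 hO
  have hiso : ∀ z ∈ D.W, D.gdet c z ≠ 0 →
      ∃ f' : (Fin n → ℂ) ≃L[ℂ] (Fin n → ℂ), HasStrictFDerivAt (D.Phi c)
        (f' : (Fin n → ℂ) →L[ℂ] (Fin n → ℂ)) z := by
    intro z hz hgz
    set L := fderiv ℂ (D.Phi c) z
    have hinj : Function.Injective (L : (Fin n → ℂ) →ₗ[ℂ] (Fin n → ℂ)) := by
      rw [← LinearMap.ker_eq_bot, LinearMap.ker_eq_bot']
      intro v hv
      exact Matrix.eq_zero_of_mulVec_eq_zero hgz (by rw [jac_mulVec hz]; exact hv)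
    refine ⟨(LinearMap.linearEquivOfInjective _ hinj rfl).toContinuousLinearEquiv, ?_⟩
    convert! (analytic_Phi c z hz).hasStrictFDerivAt using 1
  obtain ⟨f₀, hf₀⟩ := hiso z₀ hz₀ hg
  set e₀ := hf₀.toOpenPartialHomeomorph (D.Phi c)
  set S : Set (Fin n → ℂ) := O' ∩ (D.W ∩ D.gdet c ⁻¹' {0}ᶜ) with hS
  have hSo : IsOpen S := hO'o.inter
    ((analytic_gdet c).continuousOn.isOpen_inter_preimage D.isOpen_W isOpen_compl_singleton)
  set e₁ := e₀.restrOpen S hSo
  have hz1 : z₀ ∈ e₁.source :=
    ⟨hf₀.mem_toOpenPartialHomeomorph_source, hz₀O, hz₀, hg⟩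
  obtain ⟨r, hr, hball⟩ := Metric.isOpen_iff.1 e₁.open_target _ (e₁.map_source hz1)
  set e₂ := (e₁.symm.restrOpen (ball (D.Phi c z₀) r) isOpen_ball).symm with he₂
  have hcoe : ∀ z, e₂ z = D.Phi c z := fun z => rfl
  have htarget : e₂.target = ball (D.Phi c z₀) r := by
    change e₁.target ∩ ball (D.Phi c z₀) r = _
    exact inter_eq_right.2 hball
  have hsrc : e₂.source ⊆ e₁.source := by
    intro z hz
    have h1 := e₂.map_source hz
    have h2 : e₂.symm (e₂ z) = z := e₂.left_inv hz
    rw [htarget] at h1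
    rw [← h2]
    exact e₁.map_target (hball h1)
  refine ⟨⟨e₂, D.Phi c z₀, r, hr, fun z hz => (hsrc hz).2.2.1, fun z hz => (hsrc hz).2.2.2,
    fun z _ => hcoe z, htarget, ?_⟩, ?_, rfl, fun z hz => hO' (hsrc hz).2.1⟩
  · intro w hw
    have hz : e₂.symm w ∈ e₂.source := e₂.map_target hw
    obtain ⟨f', hf'⟩ := hiso _ (hsrc hz).2.2.1 (hsrc hz).2.2.2
    have := hf'.to_local_left_inverse (g := e₂.symm) ?_
    · rw [← hcoe, e₂.right_inv hw] at this
      exact this.hasFDerivAt.differentiableAt.differentiableWithinAt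
    · filter_upwards [e₂.open_source.mem_nhds hz] with y hy
      rw [← hcoe]
      exact e₂.left_inv hy
  · have h1 : D.Phi c z₀ ∈ e₂.target := by rw [htarget]; exact mem_ball_self hr
    have h2 := e₂.map_target h1
    have h3 : e₂.symm (D.Phi c z₀) = z₀ := e₁.left_inv hz1
    rwa [h3] at h2

namespace Chart

variable (C : Chart D c)

theorem Phi_symm {w : Fin n → ℂ} (hw : w ∈ C.e.target) : D.Phi c (C.e.symm w) = w := by
  rw [← C.coe_eq _ (C.e.map_target hw), C.e.right_inv hw]

theorem symm_Phi {z : Fin n → ℂ} (hz : z ∈ C.e.source) : C.e.symm (D.Phi c z) = z := by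
  rw [← C.coe_eq _ hz, C.e.left_inv hz]

theorem Phi_mem {z : Fin n → ℂ} (hz : z ∈ C.e.source) : D.Phi c z ∈ C.e.target := by
  rw [← C.coe_eq _ hz]; exact C.e.map_source hz

theorem symm_mem {w : Fin n → ℂ} (hw : w ∈ C.e.target) : C.e.symm w ∈ C.e.source :=
  C.e.map_target hw

theorem convex_target : Convex ℝ C.e.target := C.target_eq ▸ convex_ball _ _

theorem isOpen_target : IsOpen C.e.target := C.e.open_target

theorem continuousOn_symm : ContinuousOn C.e.symm C.e.target := C.e.continuousOn_symm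

theorem diff_f (j : Fin m) : DifferentiableOn ℂ (fun w => D.f j (C.e.symm w)) C.e.target :=
  (D.analytic_f j).differentiableOn.comp C.diff_symm fun _ hw => C.source_subset (C.symm_mem hw)

theorem diff_gdet (c' : Fin n → Option (Fin m)) :
    DifferentiableOn ℂ (fun w => D.gdet c' (C.e.symm w)) C.e.target :=
  (analytic_gdet c').differentiableOn.comp C.diff_symm fun _ hw => C.source_subset (C.symm_mem hw)

theorem gdet_update_iff {w : Fin n → ℂ} (hw : w ∈ C.e.target) (i : Fin n) (j : Fin m) :
    D.gdet (Function.update c i (some j)) (C.e.symm w) = 0 ↔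
      fderiv ℂ (fun v => D.f j (C.e.symm v)) w (Pi.single i 1) = 0 := by
  have hz := C.symm_mem hw
  have hzW := C.source_subset hz
  have hsd : HasFDerivAt C.e.symm (fderiv ℂ C.e.symm w) w :=
    ((C.diff_symm w hw).differentiableAt (C.isOpen_target.mem_nhds hw)).hasFDerivAt
  have hPhi : HasFDerivAt (D.Phi c) (fderiv ℂ (D.Phi c) (C.e.symm w)) (C.e.symm w) :=
    (analytic_Phi c _ hzW).differentiableAt.hasFDerivAt
  have hid : (fderiv ℂ (D.Phi c) (C.e.symm w)).comp (fderiv ℂ C.e.symm w) =
      ContinuousLinearMap.id ℂ (Fin n → ℂ) := by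
    refine (hPhi.comp w hsd).unique ((hasFDerivAt_id w).congr_of_eventuallyEq ?_)
    filter_upwards [C.isOpen_target.mem_nhds hw] with v hv using C.Phi_symm hv
  have hx := congrArg (fun L : (Fin n → ℂ) →L[ℂ] (Fin n → ℂ) => L (Pi.single i 1)) hid
  simp only [ContinuousLinearMap.comp_apply, ContinuousLinearMap.id_apply] at hx
  rw [gdet_update_eq_zero_iff hzW (C.gdet_ne _ hz) hx j]
  have hcomp : HasFDerivAt (fun v => D.f j (C.e.symm v))
      ((fderiv ℂ (D.f j) (C.e.symm w)).comp (fderiv ℂ C.e.symm w)) w :=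
    (D.analytic_f j _ hzW).differentiableAt.hasFDerivAt.comp w hsd
  rw [hcomp.fderiv, ContinuousLinearMap.comp_apply]

/-- A dependent function is constant along the leaves of a chart. -/
theorem eq_of_dep {j : Fin m} (hj : D.Dep c j) {w w' : Fin n → ℂ} (hw : w ∈ C.e.target)
    (hw' : w' ∈ C.e.target) (hag : ∀ i, c i ≠ none → w i = w' i) :
    D.f j (C.e.symm w) = D.f j (C.e.symm w') := by
  set h := fun v => D.f j (C.e.symm v) with hh
  set φ : ℂ → ℂ := fun t => h (w + t • (w' - w)) with hφ
  have hseg : ∀ t : ℝ, t ∈ Icc (0 : ℝ) 1 → w + (t : ℂ) • (w' - w) ∈ C.e.target := by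
    intro t ht
    have := C.convex_target.add_smul_sub_mem hw hw' ht
    simpa using this
  have hzero : ∀ t : ℝ, t ∈ Icc (0 : ℝ) 1 →
      HasDerivAt (fun s : ℝ => φ (s : ℂ)) 0 t := by
    intro t ht
    have hmem := hseg t ht
    have hd : HasFDerivAt h (fderiv ℂ h (w + (t : ℂ) • (w' - w))) (w + (t : ℂ) • (w' - w)) :=
      ((C.diff_f j _ hmem).differentiableAt (C.isOpen_target.mem_nhds hmem)).hasFDerivAt
    have hl : HasDerivAt (fun s : ℂ => w + s • (w' - w)) (w' - w) (t : ℂ) := by
      simpa using ((hasDerivAt_id (t : ℂ)).smul_const (w' - w)).const_add w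
    have hzero' : fderiv ℂ h (w + (t : ℂ) • (w' - w)) (w' - w) = 0 := by
      generalize hp : w + (t : ℂ) • (w' - w) = p at hmem ⊢
      conv_lhs => rw [pi_eq_sum_univ' (w' - w)]
      rw [map_sum]
      refine Finset.sum_eq_zero fun i _ => ?_
      rw [map_smul]
      by_cases hi : c i = none
      · rw [(C.gdet_update_iff hmem i j).1 (hj i hi _ (C.source_subset (C.symm_mem hmem)))]
        simp
      · simp [hag i hi]
    have := hd.comp_hasDerivAt (t : ℂ) hl
    rw [hzero'] at this
    exact this.comp_ofReal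
  have := constant_of_has_deriv_right_zero
    (fun t ht => (hzero t ht).continuousAt.continuousWithinAt)
    (fun t ht => (hzero t (Ico_subset_Icc_self ht)).hasDerivWithinAt) 1 (by simp)
  simp [hφ, hh] at this
  exact this.symm

/-- If the leafwise derivatives of `f j` vanish on an open subset of a chart, `f j` is
dependent. -/
theorem dep_of_forall {j : Fin m} {B : Set (Fin n → ℂ)} (hB : IsOpen B) (hne : B.Nonempty)
    (hsub : B ⊆ C.e.target)
    (h : ∀ i, c i = none → ∀ w ∈ B, fderiv ℂ (fun v => D.f j (C.e.symm v)) w (Pi.single i 1) = 0) :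
    D.Dep c j := by
  intro i hi z hz
  obtain ⟨w₀, hw₀⟩ := hne
  have himg : IsOpen (C.e.source ∩ C.e ⁻¹' B) := C.e.isOpen_inter_preimage hB
  have hmem : C.e.symm w₀ ∈ C.e.source ∩ C.e ⁻¹' B := by
    refine ⟨C.symm_mem (hsub hw₀), ?_⟩
    rw [mem_preimage, C.e.right_inv (hsub hw₀)]
    exact hw₀
  refine (analytic_gdet _).eqOn_zero_of_preconnected_of_eventuallyEq_zero D.preconnected_W
    (C.source_subset hmem.1) ?_ hz
  filter_upwards [himg.mem_nhds hmem] with y hy
  rw [Pi.zero_apply, ← C.symm_Phi hy.1]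
  have hyB : D.Phi c y ∈ B := by rw [← C.coe_eq _ hy.1]; exact hy.2
  exact (C.gdet_update_iff (hsub hyB) i j).2 (h i hi _ hyB)

/-- Constancy along leaves gives dependence. -/
theorem dep_of_eq {j : Fin m}
    (h : ∀ w ∈ C.e.target, ∀ w' ∈ C.e.target, (∀ i, c i ≠ none → w i = w' i) →
      D.f j (C.e.symm w) = D.f j (C.e.symm w')) : D.Dep c j := by
  refine C.dep_of_forall C.isOpen_target
    (C.target_eq ▸ nonempty_ball.2 C.rad_pos) subset_rfl fun i hi w hw => ?_
  have hd : HasFDerivAt (fun v => D.f j (C.e.symm v))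
      (fderiv ℂ (fun v => D.f j (C.e.symm v)) w) w :=
    ((C.diff_f j w hw).differentiableAt (C.isOpen_target.mem_nhds hw)).hasFDerivAt
  have hl : HasDerivAt (fun s : ℂ => w + s • (Pi.single i (1 : ℂ) : Fin n → ℂ))
      (Pi.single i 1) 0 := by
    simpa using ((hasDerivAt_id (0 : ℂ)).smul_const (Pi.single i (1 : ℂ) : Fin n → ℂ)).const_add w
  have h1 := hd.comp_hasDerivAt_of_eq (0 : ℂ) hl (by simp)
  have h2 : HasDerivAt (fun s : ℂ => D.f j (C.e.symm (w + s • (Pi.single i (1:ℂ) : Fin n → ℂ))))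
      0 0 := by
    refine (hasDerivAt_const (0 : ℂ) (D.f j (C.e.symm w))).congr_of_eventuallyEq ?_
    have hc : ContinuousAt (fun s : ℂ => w + s • (Pi.single i (1 : ℂ) : Fin n → ℂ)) 0 :=
      Continuous.continuousAt (by fun_prop)
    filter_upwards [hc.preimage_mem_nhds (by simpa using C.isOpen_target.mem_nhds hw)] with s hs
    refine (h w hw _ hs fun a ha => ?_).symm
    have : a ≠ i := fun e => ha (e ▸ hi)
    simp [this]
  exact h1.unique h2

end Chart

end

end Vale.Agent.P274
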