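import Vale.Agent.P274.Stage
import Mathlib.Analysis.Complex.OpenMapping
import Mathlib.Analysis.Complex.Trigonometric

/-!
Choice of a regular boundary point with the fewest active functions, and exclusion of punctures.
-/

open Filter Metric Set Function Topology

namespace Vale.Agent.P274

noncomputable section

variable {n m : ℕ} {D : Dom n m}

/-- No punctured disc inside `U` has its centre outside `U`. -/
def Dom.NoPuncture (D : Dom n m) : Prop :=
  ∀ (σ : ℂ → Fin n → ℂ) (s : ℝ), 0 < s → DifferentiableOn ℂ σ (ball 0 s) →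
    (∀ t ∈ ball (0 : ℂ) s, t ≠ 0 → σ t ∈ D.U) → σ 0 ∈ D.U

/-- Annuli are preconnected. -/
theorem preconnected_annulus {I : Set ℝ} (hI : IsPreconnected I) (hpos : ∀ r ∈ I, 0 ≤ r) (c : ℂ) :
    IsPreconnected {t : ℂ | ‖t - c‖ ∈ I} := by
  have h : {t : ℂ | ‖t - c‖ ∈ I} =
      (fun p : ℝ × ℝ => c + (p.1 : ℂ) * Complex.exp (p.2 * Complex.I)) '' (I ×ˢ univ) := by
    ext t
    constructor
    · intro ht
      exact ⟨(‖t - c‖, (t - c).arg), ⟨ht, mem_univ _⟩, by
        simp only [Complex.norm_mul_exp_arg_mul_I, add_sub_cancel]⟩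
    · rintro ⟨p, ⟨hp, -⟩, rfl⟩
      simp only [mem_ofPred_eq, add_sub_cancel_left, norm_mul, Complex.norm_exp_ofReal_mul_I,
        mul_one, Complex.norm_real, Real.norm_eq_abs, abs_of_nonneg (hpos _ hp)]
      exact hp
  rw [h]
  exact (hI.prod isPreconnected_univ).image _ (Continuous.continuousOn (by fun_prop))

theorem preconnected_punctured_ball (c : ℂ) (s : ℝ) : IsPreconnected (ball c s \ {c}) := by
  have : ball c s \ {c} = {t : ℂ | ‖t - c‖ ∈ Ioo 0 s} := by
    ext t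
    simp [dist_eq_norm, sub_eq_zero, and_comm]
  rw [this]
  exact preconnected_annulus isPreconnected_Ioo (fun r hr => hr.1.le) c

namespace Stage

variable (S : Stage D)

/-- The displacement of the frame coordinates at scales `δ`. -/
def dsp (z : Fin n → ℂ) (δ : Fin n → ℝ) : Fin n → ℂ :=
  fun i => (S.c i).elim 0 fun j => nrm (S.ρ i) (D.f j z) * (δ i : ℂ)

variable {S}

theorem tendsto_dsp (z : Fin n → ℂ) : Tendsto (S.dsp z) S.l (𝓝 0) := by
  refine tendsto_pi_nhds.2 fun i => ?_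
  rcases hi : S.c i with _ | j
  · simp only [dsp, hi, Option.elim, Pi.zero_apply]
    exact tendsto_const_nhds
  · have := ((Complex.continuous_ofReal.tendsto (0 : ℝ)).comp
      ((S.tendsto_l i j hi).mono_right nhdsWithin_le_nhds)).const_mul (nrm (S.ρ i) (D.f j z))
    simpa [dsp, hi, Function.comp_def] using this

theorem continuousAt_pair {g : (Fin n → ℂ) → (Fin n → ℂ)} {T : Set (Fin n → ℂ)} (hT : IsOpen T)
    (hg : ContinuousOn g T) {w : Fin n → ℂ} {h : (Fin n → ℂ) × ℂ → (Fin n → ℂ)}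
    (hh : Continuous h) {p : (Fin n → ℂ) × ℂ} (hp : h p = w) (hw : w ∈ T) :
    ContinuousAt (fun q => g (h q)) p :=
  ContinuousAt.comp (g := g) ((hp ▸ hg.continuousAt (hT.mem_nhds hw))) hh.continuousAt

/-- Punctures do not occur. -/
theorem puncture_false (hP : D.NoPuncture) (C : Chart D S.c) {d : Fin n → ℂ}
    (hd : ∀ i, S.c i ≠ none → d i = 0) {w₀ : Fin n → ℂ} {t₀ : ℂ} {s : ℝ} (hs : 0 < s)
    (hDt : ∀ t ∈ closedBall t₀ s, w₀ + t • d ∈ C.e.target)
    (hall : ∀ t ∈ ball t₀ s, t ≠ t₀ → S.Good (C.e.symm (w₀ + t • d)))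
    {A : Finset (Fin m)} (hA : A.Nonempty)
    (hact : ∀ z ∈ C.e.source, ∀ j, ¬ D.Dep S.c j → j ∉ A → D.f j z ∈ D.V j)
    (hAdep : ∀ j ∈ A, ¬ D.Dep S.c j)
    (hAV : ∀ j ∈ A, D.f j (C.e.symm (w₀ + t₀ • d)) ∉ D.V j)
    (hAne : ∀ j ∈ A, ∀ t ∈ closedBall t₀ s, t ≠ t₀ →
      D.f j (C.e.symm (w₀ + t • d)) ≠ D.f j (C.e.symm (w₀ + t₀ • d))) : False := by
  set σ : ℂ → Fin n → ℂ := fun t => C.e.symm (w₀ + t • d) with hσ
  set c : Fin m → ℂ := fun j => D.f j (σ t₀) with hc
  have hline : Continuous fun t : ℂ => w₀ + t • d := by fun_prop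
  have hσc : ContinuousOn σ (closedBall t₀ s) :=
    C.continuousOn_symm.comp hline.continuousOn hDt
  have hfσ : ∀ j, ContinuousOn (fun t => D.f j (σ t)) (closedBall t₀ s) := fun j =>
    (D.analytic_f j).continuousOn.comp hσc fun t ht => C.source_subset (C.symm_mem (hDt t ht))
  have hfσd : ∀ j, DifferentiableOn ℂ (fun t => D.f j (σ t)) (closedBall t₀ s) := fun j =>
    (C.diff_f j).comp (Differentiable.differentiableOn (by fun_prop)) hDt
  -- every active value is an isolated point of the complement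
  have hiso : ∀ j ∈ A, ∃ ε > 0, ∀ v ∈ ball (c j) ε, v ≠ c j → v ∈ D.V j := by
    intro j hj
    have hne : ∀ t ∈ sphere t₀ (s / 2), D.f j (σ t) - c j ≠ 0 := fun t ht =>
      sub_ne_zero.2 (hAne j hj t (closedBall_subset_closedBall (by linarith)
        (sphere_subset_closedBall ht)) (ne_of_mem_sphere ht (by linarith)))
    obtain ⟨t₁, ht₁, hmin⟩ := (isCompact_sphere t₀ (s / 2)).exists_isMinOn
      (NormedSpace.sphere_nonempty.2 (by linarith))
      (((hfσ j).mono (sphere_subset_closedBall.trans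
        (closedBall_subset_closedBall (by linarith)))).sub continuousOn_const).norm
    refine ⟨‖D.f j (σ t₁) - c j‖ / 2, half_pos (norm_pos_iff.2 (hne t₁ ht₁)), fun v hv hvc => ?_⟩
    have hdc : DiffContOnCl ℂ (fun t => D.f j (σ t)) (ball t₀ (s / 2)) := by
      refine DifferentiableOn.diffContOnCl ?_
      rw [closure_ball _ (by linarith)]
      exact (hfσd j).mono (closedBall_subset_closedBall (by linarith))
    have hfr : ∃ᶠ t in 𝓝 t₀, D.f j (σ t) ≠ D.f j (σ t₀) := by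
      have : ∀ᶠ t in 𝓝[≠] t₀, D.f j (σ t) ≠ D.f j (σ t₀) := by
        filter_upwards [self_mem_nhdsWithin,
          nhdsWithin_le_nhds (closedBall_mem_nhds t₀ hs)] with t ht1 ht2
        exact hAne j hj t ht2 ht1
      exact this.frequently.filter_mono nhdsWithin_le_nhds
    obtain ⟨t, ht, rfl⟩ := hdc.ball_subset_image_closedBall (by linarith) (fun t ht => hmin ht) hfr hv
    have htne : t ≠ t₀ := fun h => hvc (by rw [hc]; simp only [h])
    exact (hall t (closedBall_subset_ball (by linarith) ht) htne).2.1.2 j (hAdep j hj)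
  choose! ε hε hεV using hiso
  -- a small disc on which all active values stay in these neighbourhoods
  have hsmall : ∀ᶠ t in 𝓝 t₀, ∀ j ∈ A, ‖D.f j (σ t) - c j‖ < ε j / 2 := by
    refine (eventually_all_finset A).2 fun j hj => ?_
    have h1 : ContinuousAt (fun t => D.f j (σ t)) t₀ :=
      (hfσ j).continuousAt (closedBall_mem_nhds t₀ hs)
    have := h1.tendsto.sub_const (c j) |>.norm
    rw [show D.f j (σ t₀) - c j = 0 from sub_self _, norm_zero] at this
    exact this.eventually (Iio_mem_nhds (half_pos (hε j hj)))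
  obtain ⟨s₁, hs₁, hs₁A⟩ := Metric.eventually_nhds_iff.1 hsmall
  set r := min (s / 2) (s₁ / 2) with hr
  have hr0 : 0 < r := lt_min (half_pos hs) (half_pos hs₁)
  have hrs : closedBall t₀ r ⊆ ball t₀ s :=
    closedBall_subset_ball ((min_le_left _ _).trans_lt (by linarith))
  have hrA : ∀ j ∈ A, ∀ t ∈ closedBall t₀ r, ‖D.f j (σ t) - c j‖ < ε j / 2 := fun j hj t ht =>
    hs₁A ((mem_closedBall.1 ht).trans_lt ((min_le_right _ _).trans_lt (by linarith))) j hj
  have hmin' : ∀ j ∈ A, ∃ μ > 0, ∀ t ∈ sphere t₀ r, μ ≤ ‖D.f j (σ t) - c j‖ := by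
    intro j hj
    obtain ⟨t₁, ht₁, hmin⟩ := (isCompact_sphere t₀ r).exists_isMinOn
      (NormedSpace.sphere_nonempty.2 hr0.le)
      (((hfσ j).mono (sphere_subset_closedBall.trans (hrs.trans ball_subset_closedBall))).sub
        continuousOn_const).norm
    exact ⟨_, norm_pos_iff.2 (sub_ne_zero.2 (hAne j hj t₁
      (ball_subset_closedBall (hrs (sphere_subset_closedBall ht₁)))
      (ne_of_mem_sphere ht₁ hr0.ne'))), fun t ht => hmin ht⟩
  choose! μ hμ hμle using hmin'
  -- perturb into the positive sides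
  set z₁ := σ t₀ with hz₁
  have hnr : ∀ t ∈ closedBall t₀ r, ∀ i, S.c i ≠ none →
      D.Phi S.c (σ t) i = D.Phi S.c z₁ i := by
    intro t ht i hi
    rw [hz₁, hσ, C.Phi_symm (hDt t (ball_subset_closedBall (hrs ht))),
      C.Phi_symm (hDt t₀ (mem_closedBall_self hs.le))]
    simp [hd i hi]
  set G : (Fin n → ℂ) × ℂ → (Fin n → ℂ) := fun p => w₀ + p.2 • d + p.1 with hG
  have hGc : Continuous G := by fun_prop
  have hev1 : ∀ᶠ e in 𝓝 (0 : Fin n → ℂ), ∀ t ∈ closedBall t₀ r, G (e, t) ∈ C.e.target ∧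
      ∀ j ∈ A, ‖D.f j (C.e.symm (G (e, t))) - D.f j (σ t)‖ < min (μ j / 4) (ε j / 4) := by
    refine (isCompact_closedBall t₀ r).eventually_forall_of_forall_eventually fun t ht => ?_
    have hp : G (0, t) = w₀ + t • d := by simp [hG]
    have htt : w₀ + t • d ∈ C.e.target := hDt t (ball_subset_closedBall (hrs ht))
    refine (hGc.continuousAt.eventually_mem (hp ▸ C.isOpen_target.mem_nhds htt)).and
      ((eventually_all_finset A).2 fun j hj => ?_)
    have h1 : ContinuousAt (fun q => D.f j (C.e.symm (G q))) (0, t) := by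
      have h2 : ContinuousAt (fun q => C.e.symm (G q)) (0, t) :=
        continuousAt_pair C.isOpen_target C.continuousOn_symm hGc hp htt
      have h3 : ContinuousAt (D.f j) (C.e.symm (G (0, t))) :=
        continuousAt_f j (by rw [hp]; exact C.source_subset (C.symm_mem htt))
      exact ContinuousAt.comp (g := D.f j) h3 h2
    have h4 : ContinuousAt (fun q : (Fin n → ℂ) × ℂ => D.f j (σ q.2)) (0, t) := by
      have h5 : ContinuousAt (fun u => D.f j (σ u)) t :=
        (hfσ j).continuousAt (mem_of_superset (isOpen_ball.mem_nhds (hrs ht))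
          ball_subset_closedBall)
      exact ContinuousAt.comp (g := fun u => D.f j (σ u)) h5 continuous_snd.continuousAt
    have h6 := (h1.sub h4).norm.tendsto
    simp only [Pi.sub_apply, hp, hσ, sub_self, norm_zero] at h6
    exact h6.eventually (Iio_mem_nhds (lt_min (by linarith [hμ j hj]) (by linarith [hε j hj])))
  set tc : ℂ := t₀ + (r : ℂ) with htc
  have htcs : tc ∈ sphere t₀ r := by simp [htc, abs_of_pos hr0]
  have htcb : tc ∈ closedBall t₀ r := sphere_subset_closedBall htcs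
  have hgood : S.Good (σ tc) := hall tc (hrs htcb) (ne_of_mem_sphere htcs hr0.ne')
  obtain ⟨N, hN, hevN⟩ :=
    (hgood.2.2.self_of_nhdsWithin hgood.1) {1} isCompact_singleton (by simp)
  have hdsp := tendsto_dsp (S := S) z₁
  have hNev : ∀ᶠ δ in S.l, C.e.symm (G (S.dsp z₁ δ, tc)) ∈ N := by
    have hp : G (0, tc) = w₀ + tc • d := by simp [hG]
    have htt : w₀ + tc • d ∈ C.e.target := hDt tc (ball_subset_closedBall (hrs htcb))
    have h2 : ContinuousAt (fun e => C.e.symm (G (e, tc))) 0 :=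
      ContinuousAt.comp (g := C.e.symm)
        (hp ▸ C.continuousOn_symm.continuousAt (C.isOpen_target.mem_nhds htt))
        (Continuous.continuousAt (by fun_prop))
    refine (h2.tendsto.comp hdsp).eventually_mem ?_
    rwa [hp]
  have := S.neBot
  obtain ⟨δ, hδ1, hδN, hδev⟩ := ((hdsp.eventually hev1).and (hNev.and hevN)).exists
  set e := S.dsp z₁ δ
  set τ : ℂ → Fin n → ℂ := fun t => C.e.symm (G (e, t)) with hτ
  have hτd : DifferentiableOn ℂ τ (closedBall t₀ r) :=
    C.diff_symm.comp (Differentiable.differentiableOn (by fun_prop)) fun t ht => (hδ1 t ht).1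
  have hhd : ∀ j, DifferentiableOn ℂ (fun t => D.f j (τ t)) (closedBall t₀ r) := fun j =>
    (C.diff_f j).comp (Differentiable.differentiableOn (by fun_prop)) fun t ht => (hδ1 t ht).1
  have hτU : τ tc ∈ D.U := by
    refine hδev _ hδN fun i j hij => ⟨1, rfl, ?_⟩
    have hi : S.c i ≠ none := ne_none_of_some hij
    rw [f_eq_of_agree hij (hnr tc htcb i hi), hτ, ← Phi_of_some hij, C.Phi_symm (hδ1 tc htcb).1,
      ← Phi_of_some hij, hz₁, hσ, C.Phi_symm (hDt t₀ (mem_closedBall_self hs.le))]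
    have h7 : D.f j (C.e.symm (w₀ + t₀ • d)) = w₀ i := by
      rw [← Phi_of_some hij, C.Phi_symm (hDt t₀ (mem_closedBall_self hs.le))]
      simp [hd i hi]
    simp [hG, e, dsp, hij, hd i hi, hσ, hz₁, h7]
  -- zeros
  have hzero : ∀ j ∈ A, ∃ t ∈ closedBall t₀ r, D.f j (τ t) = c j := by
    intro j hj
    have hlow : ∀ t ∈ sphere t₀ r, μ j / 2 ≤ ‖D.f j (τ t) - D.f j (τ t₀)‖ := by
      intro t ht
      have a1 := (hδ1 t (sphere_subset_closedBall ht)).2 j hj
      have a2 := (hδ1 t₀ (mem_closedBall_self hr0.le)).2 j hj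
      have a3 := hμle j hj t ht
      have a4 := min_le_left (μ j / 4) (ε j / 4)
      have a5 : ‖D.f j (σ t) - c j‖ ≤ ‖D.f j (τ t) - D.f j (σ t)‖ +
          ‖D.f j (τ t) - D.f j (τ t₀)‖ + ‖D.f j (τ t₀) - D.f j (σ t₀)‖ := by
        have : D.f j (σ t) - c j = -(D.f j (τ t) - D.f j (σ t)) +
            (D.f j (τ t) - D.f j (τ t₀)) + (D.f j (τ t₀) - D.f j (σ t₀)) := by
          rw [hc]; ring
        rw [this]
        refine (norm_add₃_le).trans ?_
        rw [norm_neg]
      change ‖D.f j (τ t) - D.f j (σ t)‖ < _ at a1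
      change ‖D.f j (τ t₀) - D.f j (σ t₀)‖ < _ at a2
      linarith
    have hfr : ∃ᶠ t in 𝓝 t₀, D.f j (τ t) ≠ D.f j (τ t₀) := by
      by_contra hno
      rw [not_frequently] at hno
      simp only [not_not] at hno
      have han : AnalyticOnNhd ℂ (fun t => D.f j (τ t)) (ball t₀ r) :=
        ((hhd j).mono ball_subset_closedBall).analyticOnNhd isOpen_ball
      have heq : EqOn (fun t => D.f j (τ t)) (fun _ => D.f j (τ t₀)) (ball t₀ r) :=
        han.eqOn_of_preconnected_of_eventuallyEq analyticOnNhd_const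
          (convex_ball _ _).isPreconnected (mem_ball_self hr0) hno
      have hcl : EqOn (fun t => D.f j (τ t)) (fun _ => D.f j (τ t₀)) (closedBall t₀ r) :=
        heq.of_subset_closure (hhd j).continuousOn continuousOn_const ball_subset_closedBall
          (closure_ball _ hr0.ne').ge
      have := hlow tc htcs
      have h8 : D.f j (τ tc) = D.f j (τ t₀) := hcl htcb
      rw [h8, sub_self, norm_zero] at this
      linarith [hμ j hj]
    have hin : c j ∈ ball (D.f j (τ t₀)) (μ j / 2 / 2) := by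
      rw [mem_ball, dist_eq_norm, norm_sub_rev]
      have a2 := (hδ1 t₀ (mem_closedBall_self hr0.le)).2 j hj
      exact a2.trans_le ((min_le_left _ _).trans (by linarith))
    have hdc : DiffContOnCl ℂ (fun t => D.f j (τ t)) (ball t₀ r) := by
      refine DifferentiableOn.diffContOnCl ?_
      rw [closure_ball _ hr0.ne']
      exact hhd j
    exact hdc.ball_subset_image_closedBall hr0 hlow hfr hin
  -- the outermost zero
  set Z := ⋃ j ∈ A, {t | t ∈ closedBall t₀ r ∧ D.f j (τ t) = c j} with hZ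
  have hZc : IsCompact Z := A.isCompact_biUnion fun j _ => by
    refine (isCompact_closedBall t₀ r).of_isClosed_subset ?_ fun t ht => ht.1
    exact (hhd j).continuousOn.preimage_isClosed_of_isClosed isClosed_closedBall isClosed_singleton
  obtain ⟨j₀, hj₀⟩ := hA
  obtain ⟨tz, htz, htzc⟩ := hzero j₀ hj₀
  obtain ⟨ts, hts, hmax⟩ := hZc.exists_isMaxOn ⟨tz, mem_biUnion hj₀ ⟨htz, htzc⟩⟩
    (f := fun t => ‖t - t₀‖) (Continuous.continuousOn (by fun_prop))
  obtain ⟨j₁, hj₁, htsb, htsc⟩ := mem_iUnion₂.1 hts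
  have hsphere : ∀ j ∈ A, ∀ t ∈ sphere t₀ r, D.f j (τ t) ≠ c j := by
    intro j hj t ht h
    have a1 := (hδ1 t (sphere_subset_closedBall ht)).2 j hj
    have a3 := hμle j hj t ht
    change ‖D.f j (τ t) - D.f j (σ t)‖ < _ at a1
    rw [h, norm_sub_rev] at a1
    linarith [min_le_left (μ j / 4) (ε j / 4), hμ j hj]
  have htsr : ‖ts - t₀‖ < r := by
    rcases (mem_closedBall_iff_norm.1 htsb).lt_or_eq with h | h
    · exact h
    · exact absurd htsc (hsphere j₁ hj₁ ts (mem_sphere_iff_norm.2 h))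
  -- near the outermost zero there are no other zeros
  have hiso2 : ∀ᶠ t in 𝓝[≠] ts, t ∈ ball t₀ r ∧ ∀ j ∈ A, D.f j (τ t) ≠ c j := by
    refine (eventually_nhdsWithin_of_eventually_nhds
      (isOpen_ball.mem_nhds (mem_ball_iff_norm.2 htsr))).and ((eventually_all_finset A).2 fun j hj => ?_)
    have han : AnalyticOnNhd ℂ (fun t => D.f j (τ t) - c j) (ball t₀ r) :=
      ((((hhd j).mono ball_subset_closedBall).analyticOnNhd isOpen_ball).sub analyticOnNhd_const)
    rcases (han ts (mem_ball_iff_norm.2 htsr)).eventually_eq_zero_or_eventually_ne_zero with h | h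
    · exfalso
      have h0 : EqOn (fun t => D.f j (τ t) - c j) 0 (ball t₀ r) :=
        han.eqOn_zero_of_preconnected_of_eventuallyEq_zero (convex_ball _ _).isPreconnected
          (mem_ball_iff_norm.2 htsr) h
      have hcl : EqOn (fun t => D.f j (τ t) - c j) 0 (closedBall t₀ r) :=
        h0.of_subset_closure ((hhd j).continuousOn.sub continuousOn_const) continuousOn_const
          ball_subset_closedBall (closure_ball _ hr0.ne').ge
      exact hsphere j hj tc htcs (sub_eq_zero.1 (hcl htcb))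
    · exact h.mono fun t ht => sub_ne_zero.1 ht
  obtain ⟨r', hr', hr'A⟩ := Metric.mem_nhdsWithin_iff.1 hiso2
  set Aₙ := {t : ℂ | ‖t - t₀‖ ∈ Ioc ‖ts - t₀‖ r} with hAn
  set P := ball ts r' \ {ts} with hP'
  have hVA : ∀ t ∈ closedBall t₀ r, (∀ j ∈ A, D.f j (τ t) ≠ c j) → ∀ j, D.f j (τ t) ∈ D.V j := by
    intro t ht hne j
    have hsrc : τ t ∈ C.e.source := C.symm_mem (hδ1 t ht).1
    by_cases hjA : j ∈ A
    · refine hεV j hjA _ ?_ (hne j hjA)
      have a1 := (hδ1 t ht).2 j hjA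
      have a2 := hrA j hjA t ht
      change ‖D.f j (τ t) - D.f j (σ t)‖ < _ at a1
      rw [mem_ball, dist_eq_norm]
      linarith [norm_sub_le_norm_sub_add_norm_sub (D.f j (τ t)) (D.f j (σ t)) (c j),
        min_le_right (μ j / 4) (ε j / 4), hε j hjA]
    · by_cases hdep : D.Dep S.c j
      · have : D.f j (τ t) = D.f j (τ tc) := by
          refine C.eq_of_dep hdep (hδ1 t ht).1 (hδ1 tc htcb).1 fun i hi => ?_
          simp [hG, hd i hi]
        rw [this]
        exact D.maps _ hτU j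
      · exact hact _ hsrc j hdep hjA
  have hsubc : ∀ t ∈ Aₙ ∪ P, t ∈ closedBall t₀ r ∧ ∀ j ∈ A, D.f j (τ t) ≠ c j := by
    rintro t (ht | ht)
    · refine ⟨mem_closedBall_iff_norm.2 ht.2, fun j hj h => ?_⟩
      have : ‖t - t₀‖ ≤ ‖ts - t₀‖ :=
        hmax (mem_biUnion hj ⟨mem_closedBall_iff_norm.2 ht.2, h⟩)
      linarith [ht.1]
    · have := hr'A ⟨ht.1, ht.2⟩
      exact ⟨ball_subset_closedBall this.1, this.2⟩
  -- a common point of the annulus and the punctured disc
  obtain ⟨u, hu1, hu⟩ : ∃ u : ℂ, ‖u‖ = 1 ∧ ts - t₀ = (‖ts - t₀‖ : ℂ) * u := by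
    by_cases h : ts - t₀ = 0
    · exact ⟨1, by simp, by simp [h]⟩
    · refine ⟨(ts - t₀) / (‖ts - t₀‖ : ℂ), ?_, ?_⟩
      · simp [h]
      · rw [mul_div_cancel₀]
        simp [h]
  set η := min (r' / 2) (r - ‖ts - t₀‖) with hη
  have hη0 : 0 < η := lt_min (half_pos hr') (sub_pos.2 htsr)
  have hcommon : ts + (η : ℂ) * u ∈ Aₙ ∩ P := by
    have h1 : ts + (η : ℂ) * u - t₀ = ((‖ts - t₀‖ + η : ℝ) : ℂ) * u := by
      push_cast
      rw [add_mul, ← hu]; ring
    have h2 : ‖ts + (η : ℂ) * u - t₀‖ = ‖ts - t₀‖ + η := by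
      rw [h1, norm_mul, hu1, mul_one, Complex.norm_real, Real.norm_eq_abs,
        abs_of_nonneg (by positivity)]
    have h3 : ‖(η : ℂ) * u‖ = η := by
      rw [norm_mul, hu1, mul_one, Complex.norm_real, Real.norm_eq_abs, abs_of_pos hη0]
    refine ⟨?_, ?_, ?_⟩
    · rw [hAn, mem_ofPred_eq, h2]
      exact ⟨by linarith, by linarith [min_le_right (r' / 2) (r - ‖ts - t₀‖)]⟩
    · rw [mem_ball_iff_norm, add_sub_cancel_left, h3]
      linarith [min_le_left (r' / 2) (r - ‖ts - t₀‖)]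
    · intro h
      rw [mem_singleton_iff, add_eq_left] at h
      rw [h, norm_zero] at h3
      linarith
  have hconn : IsPreconnected (Aₙ ∪ P) :=
    IsPreconnected.union _ hcommon.1 hcommon.2
      (preconnected_annulus isPreconnected_Ioc (fun x hx => (norm_nonneg _).trans hx.1.le) t₀)
      (preconnected_punctured_ball ts r')
  have hsubU : τ '' (Aₙ ∪ P) ⊆ D.U := by
    refine D.sub_U (hconn.image _ (hτd.continuousOn.mono fun t ht => (hsubc t ht).1)) ?_
      ⟨τ tc, mem_image_of_mem _ (Or.inl ?_), hτU⟩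
    · rintro _ ⟨t, ht, rfl⟩ j
      exact hVA t (hsubc t ht).1 (hsubc t ht).2 j
    · rw [hAn, mem_ofPred_eq, mem_sphere_iff_norm.1 htcs]
      exact ⟨htsr, le_rfl⟩
  set r'' := min r' (r - ‖ts - t₀‖) with hr''
  have hr''0 : 0 < r'' := lt_min hr' (sub_pos.2 htsr)
  have hball : ∀ t ∈ ball (0 : ℂ) r'', ts + t ∈ closedBall t₀ r := by
    intro t ht
    rw [mem_ball_zero_iff] at ht
    rw [mem_closedBall_iff_norm]
    calc ‖ts + t - t₀‖ = ‖(ts - t₀) + t‖ := by ring_nf
      _ ≤ ‖ts - t₀‖ + ‖t‖ := norm_add_le _ _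
      _ ≤ r := by linarith [min_le_right r' (r - ‖ts - t₀‖)]
  have hU0 := hP (fun t => τ (ts + t)) r'' hr''0
    (hτd.comp (Differentiable.differentiableOn (by fun_prop)) hball) fun t ht htne => by
      refine hsubU (mem_image_of_mem _ (Or.inr ⟨?_, ?_⟩))
      · rw [mem_ball_iff_norm, add_sub_cancel_left]
        exact (mem_ball_zero_iff.1 ht).trans_le (min_le_left _ _)
      · simpa using htne
  simp only [add_zero] at hU0
  have hcV := D.maps _ hU0 j₁
  rw [htsc] at hcV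
  exact hAV j₁ hj₁ hcV

/-- There is a boundary point with the fewest active functions at which one active function
crosses a regular arc of the boundary of its set transversally to the frame. -/
theorem exists_regular (hP : D.NoPuncture) {x : Fin n → ℂ} (hx : S.Good x) {i₀ : Fin n}
    (hi₀ : S.c i₀ = none) :
    ∃ q k i, S.Cand q ∧ (∀ q', S.Cand q' → (S.act q).card ≤ (S.act q').card) ∧ k ∈ S.act q ∧
      D.f k q ∈ frontier (D.V k) ∧ D.f k q ∉ D.bad k ∧ S.c i = none ∧
      D.gdet (Function.update S.c i (some k)) q ≠ 0 := by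
  classical
  obtain ⟨qa, hqa⟩ := exists_cand hx hi₀
  have hex : ∃ N, ∃ q, S.Cand q ∧ (S.act q).card = N := ⟨_, qa, hqa, rfl⟩
  obtain ⟨q₀, hq₀, hq₀N⟩ := Nat.find_spec hex
  have hmin : ∀ q', S.Cand q' → (S.act q₀).card ≤ (S.act q').card := fun q' hq' =>
    hq₀N.trans_le (Nat.find_min' hex ⟨q', hq', rfl⟩)
  obtain ⟨C, hq₀C, -, hCsub⟩ := exists_chart hq₀.1.1 hq₀.1.2.1 (act_mono (S := S) hq₀.1.1)
  have hsame : ∀ q', S.Cand q' → q' ∈ C.e.source → S.act q' = S.act q₀ := fun q' hq' hs =>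
    Finset.eq_of_subset_of_card_le (hCsub hs) (hmin q' hq')
  have hact : ∀ z ∈ C.e.source, ∀ j, ¬ D.Dep S.c j → j ∉ S.act q₀ → D.f j z ∈ D.V j := by
    intro z hz j hj hjA
    by_contra h
    exact hjA (hCsub hz (S.mem_act.2 ⟨hj, h⟩))
  obtain ⟨z₁, hz₁C, hz₁L⟩ := mem_closure_iff_nhds.1 hq₀.2.2 _ (C.e.open_source.mem_nhds hq₀C)
  set w₀ := D.Phi S.c q₀ with hw₀
  set d := D.Phi S.c z₁ - w₀ with hd
  have hdR : ∀ i, S.c i ≠ none → d i = 0 := fun i hi => by simp [hd, hw₀, hz₁L.2 i hi]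
  set σ : ℂ → Fin n → ℂ := fun t => C.e.symm (w₀ + t • d) with hσ
  set Dt : Set ℂ := {t | w₀ + t • d ∈ C.e.target} with hDt
  have hDto : IsOpen Dt := C.isOpen_target.preimage (by fun_prop)
  have hDtc : Convex ℝ Dt := by
    intro a ha b hb u v hu hv huv
    have := C.convex_target ha hb hu hv huv
    change w₀ + (u • a + v • b) • d ∈ C.e.target
    convert! this using 1
    funext i
    simp only [Pi.add_apply, Pi.smul_apply, smul_eq_mul, Complex.real_smul]
    have : (u : ℂ) + (v : ℂ) = 1 := by rw [← Complex.ofReal_add, huv, Complex.ofReal_one]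
    linear_combination (- w₀ i) * this
  have hIcc : ∀ t : ℝ, t ∈ Icc (0 : ℝ) 1 → (t : ℂ) ∈ Dt := by
    intro t ht
    have := C.convex_target.add_smul_sub_mem (C.Phi_mem hq₀C) (C.Phi_mem hz₁C) ht
    change w₀ + (t : ℂ) • d ∈ C.e.target
    convert! this using 1
  have hσag : ∀ t ∈ Dt, ∀ t' ∈ Dt, ∀ i, S.c i ≠ none →
      D.Phi S.c (σ t) i = D.Phi S.c (σ t') i := by
    intro t ht t' ht' i hi
    simp [hσ, C.Phi_symm ht, C.Phi_symm ht', hdR i hi]
  have hσ1 : σ 1 = z₁ := by simp [hσ, hd, C.symm_Phi hz₁C]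
  have hσ0 : σ 0 = q₀ := by simp [hσ, hw₀, C.symm_Phi hq₀C]
  have hσsurf : ∀ t ∈ Dt, σ t ∈ S.surf := by
    intro t ht
    refine ⟨C.source_subset (C.symm_mem ht), C.gdet_ne _ (C.symm_mem ht), fun i j hij => ?_⟩
    rw [f_eq_of_agree hij (hσag t ht 1 (by simpa using hIcc 1 (by simp)) i (ne_none_of_some hij)),
      hσ1]
    exact hz₁L.1.1.2.2 i j hij
  have hσc : ContinuousOn σ Dt := C.continuousOn_symm.comp (Continuous.continuousOn (by fun_prop))
    fun t ht => ht
  obtain ⟨t₀, ht₀I, ht₀cl, ht₀C⟩ := exit (S := S) (T := Icc (0 : ℝ) 1) isPreconnected_Icc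
    (σ := fun t : ℝ => σ (t : ℂ)) (hσc.comp Complex.continuous_ofReal.continuousOn hIcc)
    (fun t ht => hσsurf _ (hIcc t ht)) (fun t ht t' ht' => hσag _ (hIcc t ht) _ (hIcc t' ht'))
    (a := 1) (b := 0) (by simp) (by simpa [hσ1] using hz₁L.1) (by simp)
    (by simpa [hσ0] using fun h : S.Good q₀ => hq₀.2.1 h.2.1)
  have ht₀D := hIcc t₀ ht₀I
  set A := S.act q₀
  have hA₀ : S.act (σ t₀) = A := hsame _ ht₀C (C.symm_mem ht₀D)
  have hAV : ∀ j ∈ A, D.f j (σ t₀) ∉ D.V j := fun j hj => (S.mem_act.1 (hA₀.ge hj)).2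
  have hAdep : ∀ j ∈ A, ¬ D.Dep S.c j := fun j hj => (S.mem_act.1 hj).1
  have han : ∀ j, AnalyticOnNhd ℂ (fun t => D.f j (σ t)) Dt := fun j =>
    ((C.diff_f j).comp (f := fun t : ℂ => w₀ + t • d) (Differentiable.differentiableOn (by fun_prop))
      fun t ht => ht).analyticOnNhd hDto
  have hnc : ∀ j ∈ A, ∀ v : ℂ, ∀ᶠ t in 𝓝[≠] (t₀ : ℂ), D.f j (σ t) ≠ v := by
    intro j hj v
    rcases ((han j).sub analyticOnNhd_const (t₀ : ℂ) ht₀D :
        AnalyticAt ℂ (fun t => D.f j (σ t) - v) (t₀ : ℂ)).eventually_eq_zero_or_eventually_ne_zero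
      with h | h
    · exfalso
      have h0 : EqOn (fun t => D.f j (σ t) - v) 0 Dt :=
        ((han j).sub analyticOnNhd_const).eqOn_zero_of_preconnected_of_eventuallyEq_zero
          hDtc.isPreconnected ht₀D h
      have h1 := sub_eq_zero.1 (h0 (by simpa using hIcc 1 (by simp) : (1 : ℂ) ∈ Dt))
      have h2 := sub_eq_zero.1 (h0 ht₀D)
      refine hAV j hj ?_
      rw [h2, ← h1, hσ1]
      exact hz₁L.1.2.1.2 j (hAdep j hj)
    · exact h.mono fun t ht => sub_ne_zero.1 ht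
  have hder : ∀ j ∈ A, ∀ᶠ t in 𝓝[≠] (t₀ : ℂ), deriv (fun t => D.f j (σ t)) t ≠ 0 := by
    intro j hj
    rcases ((han j).deriv (t₀ : ℂ) ht₀D).eventually_eq_zero_or_eventually_ne_zero with h | h
    · exfalso
      obtain ⟨r, hr, hr'⟩ := Metric.eventually_nhds_iff.1 (h.and (hDto.eventually_mem ht₀D))
      have hconst : ∀ t ∈ ball (t₀ : ℂ) r, D.f j (σ t) = D.f j (σ t₀) := fun t ht =>
        isOpen_ball.is_const_of_deriv_eq_zero (convex_ball _ _).isPreconnected
          (fun u hu => ((han j u (hr' hu).2).differentiableAt).differentiableWithinAt)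
          (fun u hu => (hr' hu).1) ht (mem_ball_self hr)
      obtain ⟨t, ht1, ht2⟩ := ((hnc j hj (D.f j (σ t₀))).and
        (eventually_nhdsWithin_of_eventually_nhds (ball_mem_nhds _ hr))).exists
      exact ht1 (hconst t ht2)
    · exact h
  have hgoodset : ∀ᶠ t in 𝓝[≠] (t₀ : ℂ), t ∈ Dt ∧ ∀ j ∈ A, D.f j (σ t) ≠ D.f j (σ t₀) ∧
      D.f j (σ t) ∉ D.bad j ∧ deriv (fun t => D.f j (σ t)) t ≠ 0 := by
    refine (eventually_nhdsWithin_of_eventually_nhds (hDto.eventually_mem ht₀D)).and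
      ((eventually_all_finset A).2 fun j hj => (hnc j hj _).and (Eventually.and ?_ (hder j hj)))
    have := (eventually_all_finite (D.finite_bad j)).2 fun v _ => hnc j hj v
    exact this.mono fun t ht hb => ht _ hb rfl
  obtain ⟨s₂, hs₂, hs₂P⟩ := Metric.mem_nhdsWithin_iff.1 hgoodset
  set s := s₂ / 2
  have hs : 0 < s := half_pos hs₂
  have hsP : ∀ t ∈ closedBall (t₀ : ℂ) s, t ≠ t₀ → t ∈ Dt ∧ ∀ j ∈ A,
      D.f j (σ t) ≠ D.f j (σ t₀) ∧ D.f j (σ t) ∉ D.bad j ∧
      deriv (fun t => D.f j (σ t)) t ≠ 0 := fun t ht htne =>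
    hs₂P ⟨(closedBall_subset_ball (half_lt_self hs₂)) ht, htne⟩
  have hsD : ∀ t ∈ closedBall (t₀ : ℂ) s, t ∈ Dt := fun t ht =>
    (eq_or_ne t t₀).elim (fun h => h ▸ ht₀D) fun h => (hsP t ht h).1
  by_cases hall : ∀ t ∈ ball (t₀ : ℂ) s, t ≠ t₀ → S.Good (σ t)
  · exact (puncture_false hP C hdR hs hsD hall (act_nonempty hq₀) hact hAdep hAV
      fun j hj t ht htne => ((hsP t ht htne).2 j hj).1).elim
  push Not at hall
  obtain ⟨tb, htb, htbne, htbG⟩ := hall
  -- a good parameter inside the punctured disc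
  obtain ⟨s₀, hs₀I, hs₀G, hs₀d⟩ : ∃ s₀ : ℝ, s₀ ∈ Icc (0 : ℝ) 1 ∧ S.Good (σ (s₀ : ℂ)) ∧
      dist s₀ t₀ < s := by
    obtain ⟨s₀, ⟨hI, hG⟩, hd'⟩ := Metric.mem_closure_iff.1 ht₀cl s hs
    exact ⟨s₀, hI, hG, by rwa [dist_comm]⟩
  have hs₀b : (s₀ : ℂ) ∈ ball (t₀ : ℂ) s \ {(t₀ : ℂ)} := by
    refine ⟨?_, fun h => ?_⟩
    · rw [mem_ball, Complex.dist_eq, ← Complex.ofReal_sub, Complex.norm_real]
      exact hs₀d
    · rw [mem_singleton_iff, Complex.ofReal_inj] at h
      exact ht₀C.2.1 (h ▸ hs₀G).2.1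
  have hsubD : ball (t₀ : ℂ) s \ {(t₀ : ℂ)} ⊆ Dt := fun t ht => hsD t (ball_subset_closedBall ht.1)
  obtain ⟨t₁, ht₁, ht₁cl, ht₁C⟩ := exit (S := S) (preconnected_punctured_ball (t₀ : ℂ) s)
    (hσc.mono hsubD) (fun t ht => hσsurf t (hsubD ht))
    (fun t ht t' ht' => hσag t (hsubD ht) t' (hsubD ht')) hs₀b hs₀G ⟨htb, htbne⟩ htbG
  have ht₁D := hsubD ht₁
  have hA₁ : S.act (σ t₁) = A := hsame _ ht₁C (C.symm_mem ht₁D)
  obtain ⟨k, hk⟩ := act_nonempty hq₀
  obtain ⟨-, hkb, hkd⟩ := (hsP t₁ (ball_subset_closedBall ht₁.1) ht₁.2).2 k hk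
  have hkV : D.f k (σ t₁) ∉ D.V k := (S.mem_act.1 (hA₁.ge hk)).2
  have hkcl : D.f k (σ t₁) ∈ closure (D.V k) := by
    have hc : ContinuousWithinAt (D.f k) (S.leaf (σ t₁)) (σ t₁) :=
      (continuousAt_f k (C.source_subset (C.symm_mem ht₁D))).continuousWithinAt
    refine closure_mono ?_ (hc.mem_closure_image ht₁C.2.2)
    rintro _ ⟨y, hy, rfl⟩
    exact hy.1.2.1.2 k (hAdep k hk)
  have hfr : D.f k (σ t₁) ∈ frontier (D.V k) := by
    rw [frontier, (D.isOpen_V k).interior_eq]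
    exact ⟨hkcl, hkV⟩
  -- some free direction moves `f k`
  have hi : ∃ i, S.c i = none ∧ D.gdet (Function.update S.c i (some k)) (σ t₁) ≠ 0 := by
    by_contra hno
    push Not at hno
    apply hkd
    have hw : w₀ + t₁ • d ∈ C.e.target := ht₁D
    have hh : HasFDerivAt (fun v => D.f k (C.e.symm v))
        (fderiv ℂ (fun v => D.f k (C.e.symm v)) (w₀ + t₁ • d)) (w₀ + t₁ • d) :=
      ((C.diff_f k _ hw).differentiableAt (C.isOpen_target.mem_nhds hw)).hasFDerivAt
    have hl : HasDerivAt (fun t : ℂ => w₀ + t • d) d t₁ := by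
      simpa using ((hasDerivAt_id t₁).smul_const d).const_add w₀
    refine (hh.comp_hasDerivAt t₁ hl).deriv.trans ?_
    generalize hp : w₀ + t₁ • d = p at hw ⊢
    rw [pi_eq_sum_univ' d, map_sum]
    refine Finset.sum_eq_zero fun i _ => ?_
    rw [map_smul]
    by_cases hin : S.c i = none
    · have h1 := hno i hin
      simp only [hσ, hp] at h1
      rw [(C.gdet_update_iff hw i k).1 h1, smul_zero]
    · rw [hdR i hin, zero_smul]
  obtain ⟨i, hi1, hi2⟩ := hi
  exact ⟨σ t₁, k, i, ht₁C, fun q' hq' => hA₁ ▸ hmin q' hq', hA₁.ge hk, hfr, hkb, hi1, hi2⟩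

end Stage

end

end Vale.Agent.P274
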