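import Vale.Agent.P274.Step

/-!
Cocompact families of biholomorphisms of a generalised polyhedron.
-/

open Filter Metric Set Function Topology

namespace Vale.Agent.P274

noncomputable section

variable {n m : ℕ}

/-- A properly discontinuous cocompact family of biholomorphisms of `D.U`. -/
structure Orbit (D : Dom n m) where
  G : Type
  act : G → (Fin n → ℂ) → (Fin n → ℂ)
  back : G → (Fin n → ℂ) → (Fin n → ℂ)
  maps : ∀ g, MapsTo (act g) D.U D.U
  maps_back : ∀ g, MapsTo (back g) D.U D.U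
  diff : ∀ g, DifferentiableOn ℂ (act g) D.U
  diff_back : ∀ g, DifferentiableOn ℂ (back g) D.U
  back_act : ∀ g, ∀ z ∈ D.U, back g (act g z) = z
  act_back : ∀ g, ∀ z ∈ D.U, act g (back g z) = z
  finite : ∀ K L : Set (Fin n → ℂ), IsCompact K → IsCompact L → K ⊆ D.U → L ⊆ D.U →
    {g | ∃ z ∈ K, act g z ∈ L}.Finite
  K : Set (Fin n → ℂ)
  compact_K : IsCompact K
  K_subset : K ⊆ D.U
  cover : ∀ z ∈ D.U, ∃ g, act g z ∈ K

variable {D : Dom n m}

namespace Orbit



/-- A holomorphic punctured disc in `U` extends into `U`. -/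
theorem noPuncture (Ω : Orbit D) : D.NoPuncture := by
  intro σ s hs hσ hσU
  obtain ⟨R, hR⟩ := D.bounded_U.exists_norm_le
  obtain ⟨ε, hε, hεU⟩ := Ω.compact_K.exists_cthickening_subset_open D.isOpen_U Ω.K_subset
  set R' := |R| + 1 with hR'
  have hR'0 : 0 < R' := by positivity
  set η := min (s / 2) (ε * (s / 2) / (2 * R')) with hη
  have hη0 : 0 < η := lt_min (half_pos hs) (by positivity)
  set t : ℂ := ((η / 2 : ℝ) : ℂ) with ht
  have htn : ‖t‖ = η / 2 := by
    rw [ht, Complex.norm_real, Real.norm_eq_abs, abs_of_pos (half_pos hη0)]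
  have hts : ‖t‖ < s / 2 := by rw [htn]; linarith [min_le_left (s / 2) (ε * (s / 2) / (2 * R'))]
  have htne : t ≠ 0 := by rw [← norm_ne_zero_iff, htn]; positivity
  have htU : σ t ∈ D.U := hσU t (mem_ball_zero_iff.2 (by linarith)) htne
  obtain ⟨g, hg⟩ := Ω.cover _ htU
  set h : ℂ → Fin n → ℂ := fun u => Ω.act g (σ u) with hh
  have hpU : ∀ u ∈ ball (0 : ℂ) s \ {0}, σ u ∈ D.U := fun u hu => hσU u hu.1 hu.2
  have hd : DifferentiableOn ℂ h (ball (0 : ℂ) s \ {0}) :=
    (Ω.diff g).comp (hσ.mono sdiff_subset) hpU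
  have hb : BddAbove (norm ∘ h '' (ball (0 : ℂ) s \ {0})) := by
    refine ⟨R, ?_⟩
    rintro _ ⟨u, hu, rfl⟩
    exact hR _ (Ω.maps g (hpU u hu))
  set he := update h 0 (limUnder (𝓝[≠] (0 : ℂ)) h) with hhe
  have hde : DifferentiableOn ℂ he (ball 0 s) :=
    Complex.differentiableOn_update_limUnder_of_bddAbove (ball_mem_nhds _ hs) hd hb
  have heh : ∀ u, u ≠ 0 → he u = h u := fun u hu => update_of_ne hu _ _
  have hbound : ∀ u ∈ ball (0 : ℂ) s, ‖he u‖ ≤ R' := by
    intro u hu
    have h0 : ∀ v ∈ ball (0 : ℂ) s \ {0}, he v ∈ closedBall (0 : Fin n → ℂ) R' := fun v hv => by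
      rw [mem_closedBall_zero_iff, heh v hv.2]
      exact (hR _ (Ω.maps g (hpU v hv))).trans ((le_abs_self R).trans (by linarith))
    have hcl : u ∈ closure (ball (0 : ℂ) s \ {0}) := by
      rcases eq_or_ne u 0 with rfl | hu0
      · refine mem_closure_of_tendsto (b := 𝓝[≠] (0 : ℂ)) nhdsWithin_le_nhds ?_
        filter_upwards [self_mem_nhdsWithin, nhdsWithin_le_nhds (ball_mem_nhds _ hs)] with v hv hv'
        exact ⟨hv', hv⟩
      · exact subset_closure ⟨hu, hu0⟩
    have := ((hde.continuousOn u hu).mono sdiff_subset).mem_closure_image hcl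
    exact mem_closedBall_zero_iff.1
      (closure_minimal (MapsTo.image_subset (f := he) h0) isClosed_closedBall this)
  have hsch : dist (he t) (he 0) ≤ 2 * R' / (s / 2) * dist t 0 := by
    refine Complex.dist_le_div_mul_dist_of_mapsTo_ball (R₁ := s / 2)
      (hde.mono (ball_subset_ball (by linarith))) (fun u hu => ?_) (mem_ball_zero_iff.2 hts)
    rw [mem_closedBall, dist_eq_norm]
    refine (norm_sub_le _ _).trans ?_
    linarith [hbound u (ball_subset_ball (by linarith) hu), hbound 0 (mem_ball_self hs)]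
  have hle : dist (he 0) (h t) ≤ ε := by
    rw [dist_comm, ← heh t htne]
    refine hsch.trans ?_
    rw [dist_zero_right, htn]
    calc 2 * R' / (s / 2) * (η / 2) ≤ 2 * R' / (s / 2) * (ε * (s / 2) / (2 * R')) :=
          mul_le_mul_of_nonneg_left
            (by linarith [min_le_right (s / 2) (ε * (s / 2) / (2 * R'))]) (by positivity)
      _ = ε := by field_simp
  have hk : he 0 ∈ D.U := hεU (mem_cthickening_of_dist_le _ _ _ _ hg hle)
  have hl1 : Tendsto σ (𝓝[≠] (0 : ℂ)) (𝓝 (σ 0)) :=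
    ((hσ.continuousOn.continuousAt (ball_mem_nhds _ hs)).tendsto).mono_left nhdsWithin_le_nhds
  have hl2 : Tendsto (fun u => Ω.back g (he u)) (𝓝[≠] (0 : ℂ)) (𝓝 (Ω.back g (he 0))) := by
    have h1 : ContinuousAt he 0 := hde.continuousOn.continuousAt (ball_mem_nhds _ hs)
    have h2 : ContinuousAt (Ω.back g) (he 0) :=
      (Ω.diff_back g).continuousOn.continuousAt (D.isOpen_U.mem_nhds hk)
    exact (h2.comp h1).tendsto.mono_left nhdsWithin_le_nhds
  have heq : (fun u => Ω.back g (he u)) =ᶠ[𝓝[≠] (0 : ℂ)] σ := by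
    filter_upwards [self_mem_nhdsWithin, nhdsWithin_le_nhds (ball_mem_nhds _ hs)] with u hu hu'
    rw [heh u hu]
    exact Ω.back_act g _ (hpU u ⟨hu', hu⟩)
  rw [tendsto_nhds_unique hl1 (hl2.congr' heq)]
  exact Ω.maps_back g hk

end Orbit

end

end Vale.Agent.P274
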