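import Vale.Agent.P274.Scaling

/-!
A cocompact generalised polyhedron is a polydisc.
-/

open Filter Metric Set Function Topology

namespace Vale.Agent.P274

noncomputable section

variable {n m : ℕ} {D : Dom n m}

/-- A point which is the limit of translates of points of a compact set by finitely many maps
is in `U`. -/
theorem Orbit.mem_U_of_tendsto (Ω : Orbit D) {y : ℕ → Fin n → ℂ} {e : ℕ → Fin n → ℂ}
    {yl el : Fin n → ℂ} (hy : ∀ᶠ k in atTop, y k ∈ D.U) (he : Tendsto e atTop (𝓝 el))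
    (hel : el ∈ D.U) (hyl : Tendsto y atTop (𝓝 yl)) {K' : Set (Fin n → ℂ)} (hK' : IsCompact K')
    (hK'U : K' ⊆ D.U)
    (hnear : ∀ᶠ k in atTop, ∀ g, Ω.act g (y k) ∈ Ω.K → Ω.act g (e k) ∈ K') : yl ∈ D.U := by
  obtain ⟨r, hr, hrU⟩ := Metric.nhds_basis_closedBall.mem_iff.1 (D.isOpen_U.mem_nhds hel)
  have hfin := Ω.finite (closedBall el r) K' (isCompact_closedBall _ _) hK' hrU hK'U
  set Sg := {g | ∃ z ∈ closedBall el r, Ω.act g z ∈ K'}
  set T := ⋃ g ∈ Sg, Ω.back g '' Ω.K with hT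
  have hTc : IsCompact T := hfin.isCompact_biUnion fun g _ =>
    Ω.compact_K.image_of_continuousOn ((Ω.diff_back g).continuousOn.mono Ω.K_subset)
  have hTU : T ⊆ D.U := iUnion₂_subset fun g _ =>
    ((Ω.maps_back g).mono_left Ω.K_subset).image_subset
  refine hTU (hTc.isClosed.mem_of_tendsto hyl ?_)
  filter_upwards [hy, hnear, he.eventually_mem (closedBall_mem_nhds el hr)] with k hk hkn hke
  obtain ⟨g, hg⟩ := Ω.cover _ hk
  exact mem_biUnion (show g ∈ Sg from ⟨e k, hke, hkn g hg⟩) ⟨_, hg, Ω.back_act g _ hk⟩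

theorem one_div_nat_tendsto (u : ℕ → ℕ) (hu : StrictMono u) :
    Tendsto (fun k => 1 - 1 / (((u k : ℕ) : ℝ) + 2)) atTop (𝓝 1) := by
  have h : Tendsto (fun k => ((u k : ℕ) : ℝ) + 2) atTop atTop :=
    tendsto_atTop_add_const_right _ _ (tendsto_natCast_atTop_atTop.comp hu.tendsto_atTop)
  simpa using (h.inv_tendsto_atTop).const_sub (1 : ℝ)

/-- A cocompact generalised polyhedron is biholomorphic to the polydisc. -/
theorem Orbit.biholomorphic (Ω : Orbit D) :
    ∃ F G : (Fin n → ℂ) → Fin n → ℂ,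
      DifferentiableOn ℂ F D.U ∧ MapsTo F D.U (ball 0 1) ∧
      DifferentiableOn ℂ G (ball 0 1) ∧ MapsTo G (ball 0 1) D.U ∧
      (∀ z ∈ D.U, G (F z) = z) ∧ ∀ ω ∈ ball (0 : Fin n → ℂ) 1, F (G ω) = ω := by
  classical
  obtain ⟨S, x, hx, hfull⟩ := exists_full Ω.noPuncture
  obtain ⟨C, hxC, -, -⟩ := exists_chart hx.1.1 hx.1.2.1 (univ_mem (f := 𝓝 x))
  set b := D.Phi S.c x with hb
  have hUW : D.U ⊆ D.W := subset_closure.trans D.closure_subset
  obtain ⟨R, hR⟩ := D.bounded_U.exists_norm_le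
  choose δ hδ hdU using fun N => S.exists_scales hx hfull C hxC N
  have hr0 : ∀ N : ℕ, (0 : ℝ) ≤ 1 - 1 / ((N : ℝ) + 2) := fun N => by
    rw [sub_nonneg, div_le_one (by positivity)]
    linarith [show (0 : ℝ) ≤ N from N.cast_nonneg]
  set z : ℕ → Fin n → ℂ := fun N => C.e.symm (S.disp b (δ N) 0) with hz
  have hzU : ∀ N, z N ∈ D.U := fun N => (hdU N 0 (by simpa using hr0 N)).2
  choose γ hγ using fun N => Ω.cover _ (hzU N)
  obtain ⟨p, hpK, φ₁, hφ₁, hpk⟩ := Ω.compact_K.tendsto_subseq hγ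
  have hp := Ω.K_subset hpK
  have hδ0 : ∀ a, Tendsto (fun N => δ N a) atTop (𝓝[>] 0) := fun a =>
    tendsto_nhdsWithin_iff.2 ⟨tendsto_of_tendsto_of_tendsto_of_le_of_le tendsto_const_nhds
      tendsto_one_div_add_atTop_nhds_zero_nat (fun N => (hδ N a).1.le) (fun N => (hδ N a).2.le),
      Eventually.of_forall fun N => (hδ N a).1⟩
  have hdisp : ∀ ω : Fin n → ℂ, Tendsto (fun N => S.disp b (δ N) ω) atTop (𝓝 b) := by
    refine fun ω => tendsto_pi_nhds.2 fun a => ?_
    have h1 := (Complex.continuous_ofReal.tendsto (0 : ℝ)).comp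
      ((hδ0 a).mono_right nhdsWithin_le_nhds)
    have h2 := ((h1.const_mul (nrm (S.ρ a) (b a))).mul_const (cay (ω a))).const_add (b a)
    simpa [Stage.disp, Function.comp_def] using h2
  have hzx : Tendsto z atTop (𝓝 x) := by
    have h := (C.continuousOn_symm.continuousAt
      (C.isOpen_target.mem_nhds (C.Phi_mem hxC))).tendsto.comp (hdisp 0)
    rwa [C.symm_Phi hxC] at h
  obtain ⟨φ₂, hφ₂, hcorner⟩ := Stage.tendsto_corner hx.1 hfull C hxC
    (fun k => Ω.back (γ (φ₁ k))) (fun k => Ω.maps_back _) (fun k => Ω.diff_back _) hp hpk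
    ((hzx.comp hφ₁.tendsto_atTop).congr fun k => (Ω.back_act _ _ (hzU _)).symm)
  set u := φ₁ ∘ φ₂ with hu
  have hum : StrictMono u := hφ₁.comp hφ₂
  have hpu : Tendsto (fun k => Ω.act (γ (u k)) (z (u k))) atTop (𝓝 p) :=
    hpk.comp hφ₂.tendsto_atTop
  have hback : ∀ K : Set (Fin n → ℂ), IsCompact K → K ⊆ D.U → ∀ O ∈ 𝓝 x,
      ∀ᶠ k in atTop, MapsTo (Ω.back (γ (u k))) K O := by
    intro K hK hKU O hO
    obtain ⟨e, he, heO⟩ := Metric.mem_nhds_iff.1 hO
    have h := Metric.tendstoUniformlyOn_iff.1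
      ((tendstoLocallyUniformlyOn_iff_tendstoUniformlyOn_of_compact hK).1
        (hcorner.mono hKU)) e he
    filter_upwards [h] with k hk y hy
    exact heO (by rw [mem_ball, dist_comm]; exact hk y hy)
  choose jj hjj using fun a => Option.ne_none_iff_exists'.1 (hfull a)
  set ζ : ℕ → (Fin n → ℂ) → Fin n → ℂ := fun N y a =>
    (D.Phi S.c (Ω.back (γ N) y) a - b a) / (nrm (S.ρ a) (b a) * (δ N a : ℂ)) with hζ
  set Fm : ℕ → (Fin n → ℂ) → Fin n → ℂ := fun N y a => cayi (ζ N y a) with hFm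
  have hνne : ∀ a, nrm (S.ρ a) (b a) ≠ 0 := fun a => by
    obtain ⟨hO, -⟩ := hx.1.2.2 a _ (hjj a)
    rw [hb, Phi_of_some (hjj a)]
    exact nrm_ne_zero (S.regular_ρ a _ (hjj a) _ hO)
  have hden : ∀ N a, nrm (S.ρ a) (b a) * (δ N a : ℂ) ≠ 0 := fun N a =>
    mul_ne_zero (hνne a) (Complex.ofReal_ne_zero.2 (hδ N a).1.ne')
  -- the pulled back frame values lie in a wide half plane
  have hhalf : ∀ K : Set (Fin n → ℂ), IsCompact K → K ⊆ D.U → ∀ ε : ℝ, 0 < ε →
      ∀ᶠ k in atTop, ∀ y ∈ K, ∀ a, -ε * ‖ζ (u k) y a‖ ≤ (ζ (u k) y a).re := by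
    intro K hK hKU ε hε
    have key : ∀ y ∈ K, ∃ T ∈ 𝓝 y, ∀ᶠ k in atTop, ∀ v ∈ T, ∀ a,
        -ε * ‖ζ (u k) v a‖ ≤ (ζ (u k) v a).re := by
      intro y hy
      obtain ⟨Cc, hCc, hCconn, hCU, hCp, hCy⟩ := exists_connected_compact hp (hKU hy)
      refine ⟨Cc, hCy, ?_⟩
      have hnb : ∀ a, ∀ᶠ v in 𝓝 x, D.Phi S.c v a ∈ S.O a ∧ (0 < S.ρ a (D.Phi S.c v a) →
          -ε * ‖(D.Phi S.c v a - b a) / nrm (S.ρ a) (b a)‖ ≤
            ((D.Phi S.c v a - b a) / nrm (S.ρ a) (b a)).re) := by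
        intro a
        obtain ⟨hO, hρ⟩ := hx.1.2.2 a _ (hjj a)
        have hc : ContinuousAt (fun v => D.Phi S.c v a) x :=
          (continuous_apply a).continuousAt.comp (continuousAt_Phi S.c hx.1.1)
        have hba : b a = D.f (jj a) x := Phi_of_some (hjj a) x
        refine (hc.eventually_mem ((S.isOpen_O a _ (hjj a)).mem_nhds ?_)).and ?_
        · rwa [← hb, hba]
        refine hc.tendsto.eventually (p := fun w => 0 < S.ρ a w →
          -ε * ‖(w - b a) / nrm (S.ρ a) (b a)‖ ≤ ((w - b a) / nrm (S.ρ a) (b a)).re) ?_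
        rw [← hb]
        exact eventually_re_ge ((S.contDiff_ρ a _ (hjj a)).differentiable (by norm_num) _)
          (by rw [hba]; exact hρ) (by rw [hba]; exact S.regular_ρ a _ (hjj a) _ hO) hε
      have hpos : ∀ a, ∀ᶠ k in atTop, 0 < S.ρ a (S.disp b (δ (u k)) 0 a) := by
        intro a
        obtain ⟨hO, hρ⟩ := hx.1.2.2 a _ (hjj a)
        have hba : b a = D.f (jj a) x := Phi_of_some (hjj a) x
        have h := eventually_pos_of_compact ((S.contDiff_ρ a _ (hjj a)).differentiable (by norm_num) _)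
          (by rw [hba]; exact hρ) (by rw [hba]; exact S.regular_ρ a _ (hjj a) _ hO)
          (isCompact_singleton (x := (1 : ℂ))) (by simp) (univ_mem (f := 𝓝 (b a)))
        filter_upwards [((hδ0 a).comp hum.tendsto_atTop).eventually h] with k hk
        simpa [Stage.disp, cay] using (hk 1 rfl).2
      filter_upwards [hback Cc hCc hCU _ (eventually_all.2 hnb),
        hpu.eventually_mem hCp, eventually_all.2 hpos] with k hk hkp hkρ v hv a
      have hcont : ContinuousOn (fun w => D.Phi S.c (Ω.back (γ (u k)) w) a) Cc := by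
        refine ((continuous_apply a).comp_continuousOn (analytic_Phi (D := D) S.c).continuousOn).comp
          ((Ω.diff_back _).continuousOn.mono hCU) ?_
        exact fun w hw => hUW (Ω.maps_back _ (hCU hw))
      set val : (Fin n → ℂ) → ℝ := fun w => S.ρ a (D.Phi S.c (Ω.back (γ (u k)) w) a) with hval
      have hvalc : ContinuousOn val Cc :=
        (S.contDiff_ρ a _ (hjj a)).continuous.comp_continuousOn hcont
      have hval0 : ∀ w ∈ Cc, val w ≠ 0 := by
        intro w hw h0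
        have hmem := D.maps _ (Ω.maps_back (γ (u k)) (hCU hw)) (jj a)
        have h1 := (S.frontier_iff a _ (hjj a) _ (hk hw a).1).2 h0
        rw [Phi_of_some (hjj a), frontier, (D.isOpen_V _).interior_eq] at h1
        exact h1.2 hmem
      have hbase : 0 < val (Ω.act (γ (u k)) (z (u k))) := by
        rw [hval]
        simp only
        rw [Ω.back_act _ _ (hzU _), hz]
        simp only
        rw [C.Phi_symm (hdU (u k) 0 (by simpa using hr0 (u k))).1]
        exact hkρ a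
      have hposv : 0 < val v := by
        by_contra hle
        push Not at hle
        obtain ⟨w, hw, hw0⟩ := hCconn.intermediate_value hv hkp hvalc ⟨hle, hbase.le⟩
        exact hval0 w hw hw0
      have h2 := (hk hv a).2 hposv
      set A := (D.Phi S.c (Ω.back (γ (u k)) v) a - b a) / nrm (S.ρ a) (b a) with hA
      have hζA : ζ (u k) v a = A / ((δ (u k) a : ℝ) : ℂ) := by rw [hζ, hA, div_div]
      rw [hζA, norm_div, Complex.div_ofReal_re, Complex.norm_real, Real.norm_eq_abs,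
        abs_of_pos (hδ _ _).1, ← mul_div_assoc]
      exact div_le_div_of_nonneg_right h2 (hδ _ _).1.le
    choose! T hT hTev using key
    obtain ⟨t, htK, htcov⟩ := hK.elim_nhds_subcover T hT
    filter_upwards [(eventually_all_finset t).2 fun y hy => hTev y (htK y hy)] with k hk y hy
    obtain ⟨w, hwt, hyw⟩ := mem_iUnion₂.1 (htcov hy)
    exact hk w hwt y hyw
  -- the scaled maps converge to a map into the polydisc
  have hFd : ∀ k y r, ball y r ⊆ D.U → (∀ v ∈ ball y r, ∀ a, ζ k v a + 1 ≠ 0) →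
      DifferentiableOn ℂ (Fm k) (ball y r) := by
    intro k y r hU hne
    refine differentiableOn_pi.2 fun a => ?_
    have hc : DifferentiableOn ℂ (fun v => ζ k v a) (ball y r) := by
      have h0 : DifferentiableOn ℂ (fun v => D.Phi S.c (Ω.back (γ k) v) a) (ball y r) :=
        (analytic_comp S.c a).differentiableOn.comp ((Ω.diff_back _).mono hU)
          fun v hv => hUW (Ω.maps_back _ (hU hv))
      simpa only [hζ, div_eq_mul_inv] using
        (h0.sub_const (b a)).mul_const (nrm (S.ρ a) (b a) * (δ k a : ℂ))⁻¹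
    simp only [hFm, cayi, div_eq_mul_inv]
    exact (hc.sub_const 1).mul ((hc.add_const 1).fun_inv fun v hv => hne v hv a)
  obtain ⟨φ₃, hφ₃, F, hFdiff, hFlim⟩ := montel D.isOpen_U (fun k => Fm (u k)) fun y hy => by
    obtain ⟨r, hr, hrU⟩ := Metric.nhds_basis_closedBall.mem_iff.1 (D.isOpen_U.mem_nhds hy)
    refine ⟨r, hr, 2, ?_⟩
    filter_upwards [hhalf _ (isCompact_closedBall y r) hrU (1 / 2) one_half_pos] with k hk
    have hb' : ∀ v ∈ ball y r, ∀ a, ζ (u k) v a + 1 ≠ 0 ∧ ‖Fm (u k) v a‖ ^ 2 ≤ 3 := fun v hv a => by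
      have h := cayi_bound one_half_pos (by norm_num) (hk v (ball_subset_closedBall hv) a)
      norm_num at h
      exact h
    refine ⟨hFd _ _ _ (ball_subset_closedBall.trans hrU) fun v hv a => (hb' v hv a).1, fun v hv => ?_⟩
    exact (pi_norm_le_iff_of_nonneg (by norm_num)).2 fun a => by
      nlinarith [(hb' v hv a).2, norm_nonneg (Fm (u k) v a)]
  set w := u ∘ φ₃ with hw
  have hwm : StrictMono w := hum.comp hφ₃
  have hpw : Tendsto (fun k => Ω.act (γ (w k)) (z (w k))) atTop (𝓝 p) :=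
    hpu.comp hφ₃.tendsto_atTop
  have hF0 : F p = 0 := by
    refine tendsto_nhds_unique (hFlim.tendsto_comp (hFdiff.continuousOn p hp) hp
      (tendsto_nhdsWithin_iff.2 ⟨hpw, hpw.eventually_mem (D.isOpen_U.mem_nhds hp)⟩)) ?_
    refine (tendsto_const_nhds (x := (0 : Fin n → ℂ))).congr fun k => ?_
    funext a
    have ht := (hdU (w k) 0 (by simpa using hr0 (w k))).1
    simp only [hFm, hζ, hw, comp_apply] at ht ⊢
    rw [Ω.back_act _ _ (hzU _), hz]
    simp only
    rw [C.Phi_symm ht, Stage.disp, add_sub_cancel_left, mul_div_cancel_left₀ _ (hden _ a)]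
    simp [cay, cayi]
  have hFle : ∀ y ∈ D.U, ∀ a, ‖F y a‖ ≤ 1 := by
    intro y hy a
    have hl := ((continuous_apply a).tendsto _).comp (hFlim.tendsto_at hy)
    have h1 : ∀ ε : ℝ, 0 < ε → ε < 1 → ‖F y a‖ ^ 2 ≤ (1 + ε) / (1 - ε) := by
      intro ε hε hε1
      refine le_of_tendsto (hl.norm.pow 2) ?_
      filter_upwards [hφ₃.tendsto_atTop.eventually
        (hhalf {y} isCompact_singleton (singleton_subset_iff.2 hy) ε hε)] with k hk
      exact (cayi_bound hε hε1 (hk y rfl a)).2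
    have h2 : Tendsto (fun ε : ℝ => (1 + ε) / (1 - ε)) (𝓝[>] 0) (𝓝 1) := by
      have : ContinuousAt (fun ε : ℝ => (1 + ε) / (1 - ε)) 0 :=
        (continuousAt_const.add continuousAt_id).div (continuousAt_const.sub continuousAt_id)
          (by norm_num)
      simpa using this.tendsto.mono_left nhdsWithin_le_nhds
    have h3 : ‖F y a‖ ^ 2 ≤ 1 := ge_of_tendsto h2 (by
      filter_upwards [self_mem_nhdsWithin, nhdsWithin_le_nhds (Iio_mem_nhds one_pos)] with ε he he'
      exact h1 ε he he')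
    nlinarith [norm_nonneg (F y a)]
  have hFmaps : MapsTo F D.U (ball 0 1) := by
    intro y hy
    rw [mem_ball_zero_iff, pi_norm_lt_iff one_pos]
    intro a
    refine (hFle y hy a).lt_of_ne fun h => ?_
    have hmax : IsMaxOn (norm ∘ fun v => F v a) D.U y := fun v hv => by
      simp only [comp_apply, mem_ofPred_eq]
      rw [h]
      exact hFle v hv a
    have := Complex.norm_eqOn_of_isPreconnected_of_isMaxOn D.preconnected_U D.isOpen_U
      (differentiableOn_pi.1 hFdiff a) hy hmax hp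
    simp [hF0, h] at this
  -- the inverse maps
  set Gm : ℕ → (Fin n → ℂ) → Fin n → ℂ := fun N ω =>
    Ω.act (γ N) (C.e.symm (S.disp b (δ N) ω)) with hGm
  have hGd : ∀ (N : ℕ) (T : Set (Fin n → ℂ)), T ⊆ ball 0 1 → (∀ ω ∈ T, ‖ω‖ ≤ 1 - 1 / ((N : ℝ) + 2)) →
      DifferentiableOn ℂ (Gm N) T := by
    intro N T hT1 hTr
    refine (Ω.diff _).comp (C.diff_symm.comp ((Stage.differentiableOn_disp b (δ N)).mono hT1)
      fun ω hω => (hdU N ω (hTr ω hω)).1) fun ω hω => (hdU N ω (hTr ω hω)).2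
  have hrad : ∀ u : ℕ → ℕ, StrictMono u → ∀ r < 1, ∀ᶠ k in atTop,
      r ≤ 1 - 1 / (((u k : ℕ) : ℝ) + 2) :=
    fun u hu r hr => (one_div_nat_tendsto u hu).eventually (Ici_mem_nhds hr)
  obtain ⟨φ₄, hφ₄, G, hGdiff, hGlim⟩ := montel isOpen_ball (fun k => Gm (w k))
    (U := ball (0 : Fin n → ℂ) 1) fun ω hω => by
      have hω' : ‖ω‖ < 1 := mem_ball_zero_iff.1 hω
      refine ⟨(1 - ‖ω‖) / 2, by linarith, R, ?_⟩
      filter_upwards [hrad w hwm ((1 + ‖ω‖) / 2) (by linarith)] with k hk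
      have hin : ∀ v ∈ ball ω ((1 - ‖ω‖) / 2), ‖v‖ ≤ (1 + ‖ω‖) / 2 := fun v hv => by
        have := norm_le_norm_add_norm_sub' v ω
        rw [mem_ball, dist_eq_norm] at hv
        linarith
      refine ⟨hGd _ _ (fun v hv => mem_ball_zero_iff.2 ((hin v hv).trans_lt (by linarith)))
        fun v hv => (hin v hv).trans hk, fun v hv => ?_⟩
      exact hR _ (Ω.maps _ (hdU _ v ((hin v hv).trans hk)).2)
  set q := w ∘ φ₄ with hq
  have hqm : StrictMono q := hwm.comp hφ₄
  have hFq : TendstoLocallyUniformlyOn (fun k => Fm (q k)) F atTop D.U := fun V hV y hy =>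
    let ⟨t, ht, h⟩ := hFlim V hV y hy
    ⟨t, ht, hφ₄.tendsto_atTop.eventually h⟩
  have hGU : ∀ ω ∈ ball (0 : Fin n → ℂ) 1, ∀ᶠ k in atTop, Gm (q k) ω ∈ D.U := fun ω hω =>
    (hrad q hqm ‖ω‖ (mem_ball_zero_iff.1 hω)).mono fun k hk =>
      Ω.maps _ (hdU _ ω hk).2
  have hG0 : G 0 = p := by
    refine tendsto_nhds_unique (hGlim.tendsto_at (mem_ball_self one_pos))
      ((hpw.comp hφ₄.tendsto_atTop).congr fun k => ?_)
    rfl
  obtain ⟨η₀, hη₀, hη₀U⟩ := Ω.compact_K.exists_cthickening_subset_open D.isOpen_U Ω.K_subset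
  have hGmaps : MapsTo G (ball 0 1) D.U := by
    set Z := ball (0 : Fin n → ℂ) 1 ∩ G ⁻¹' D.U
    have hZo : IsOpen Z := hGdiff.continuousOn.isOpen_inter_preimage isOpen_ball D.isOpen_U
    have hsub : ball (0 : Fin n → ℂ) 1 ⊆ Z := by
      refine (convex_ball _ _).isPreconnected.subset_of_closure_inter_subset hZo
        ⟨0, mem_ball_self one_pos, mem_ball_self one_pos, by simpa [hG0] using hp⟩ ?_
      rintro ω ⟨hωZ, hω⟩
      refine ⟨hω, ?_⟩
      set r := (1 - ‖ω‖) / 2 with hr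
      have hω' : ‖ω‖ < 1 := mem_ball_zero_iff.1 hω
      have hr0' : 0 < r := by linarith
      set R' := |R| + 1
      set η := min r (η₀ * r / (2 * R'))
      have hη : 0 < η := lt_min hr0' (by positivity)
      obtain ⟨ω', ⟨hω'1, hω'U⟩, hdist⟩ := Metric.mem_closure_iff.1 hωZ η hη
      refine Ω.mem_U_of_tendsto (y := fun k => Gm (q k) ω) (e := fun k => Gm (q k) ω')
        (hGU ω hω) (hGlim.tendsto_at hω'1) hω'U (hGlim.tendsto_at hω) Ω.compact_K.cthickening hη₀U ?_
      filter_upwards [hrad q hqm ((1 + ‖ω‖) / 2) (by linarith)] with k hk g hg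
      have hin : ∀ v ∈ ball ω r, ‖v‖ ≤ 1 - 1 / (((q k : ℕ) : ℝ) + 2) ∧ ‖v‖ < 1 := fun v hv => by
        have := norm_le_norm_add_norm_sub' v ω
        rw [mem_ball, dist_eq_norm] at hv
        constructor <;> linarith
      have hd : DifferentiableOn ℂ (fun v => Ω.act g (Gm (q k) v)) (ball ω r) :=
        (Ω.diff g).comp (hGd _ _ (fun v hv => mem_ball_zero_iff.2 (hin v hv).2)
          fun v hv => (hin v hv).1) fun v hv => Ω.maps _ (hdU _ v (hin v hv).1).2
      have hbd : ∀ v ∈ ball ω r, ‖Ω.act g (Gm (q k) v)‖ ≤ R' := fun v hv =>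
        (hR _ (Ω.maps g (Ω.maps _ (hdU _ v (hin v hv).1).2))).trans
          ((le_abs_self R).trans (le_add_of_nonneg_right zero_le_one))
      have hsch := Complex.dist_le_div_mul_dist_of_mapsTo_ball (R₂ := 2 * R') hd (fun v hv => by
        rw [mem_closedBall, dist_eq_norm]
        refine (norm_sub_le _ _).trans ?_
        linarith [hbd v hv, hbd ω (mem_ball_self hr0')])
        (show ω' ∈ ball ω r from (dist_comm ω' ω).trans_lt (hdist.trans_le (min_le_left _ _)))
      refine mem_cthickening_of_dist_le _ _ _ _ hg (hsch.trans ?_)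
      calc 2 * R' / r * dist ω' ω ≤ 2 * R' / r * (η₀ * r / (2 * R')) :=
            mul_le_mul_of_nonneg_left
              ((dist_comm ω' ω).le.trans (hdist.le.trans (min_le_right _ _))) (by positivity)
        _ = η₀ := by
          have : R' ≠ 0 := by positivity
          field_simp
    exact fun ω hω => (hsub hω).2
  refine ⟨F, G, hFdiff, hFmaps, hGdiff, hGmaps, fun y hy => ?_, fun ω hω => ?_⟩
  · -- `G ∘ F = id`
    have hFy := hFmaps hy
    have h1 : Tendsto (fun k => Fm (q k) y) atTop (𝓝 (F y)) := hFq.tendsto_at hy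
    have h2 := hGlim.tendsto_comp (hGdiff.continuousOn _ hFy) hFy
      (tendsto_nhdsWithin_iff.2 ⟨h1, h1.eventually_mem (isOpen_ball.mem_nhds hFy)⟩)
    refine tendsto_nhds_unique h2 ((tendsto_const_nhds (x := y)).congr' ?_)
    have hq' : Tendsto (φ₃ ∘ φ₄) atTop atTop := (hφ₃.comp hφ₄).tendsto_atTop
    have hsing : IsCompact ({y} : Set (Fin n → ℂ)) := isCompact_singleton
    have hev1 : ∀ᶠ k in atTop, ∀ a, ζ (q k) y a + 1 ≠ 0 :=
      (hq'.eventually (hhalf {y} hsing (singleton_subset_iff.2 hy) (1 / 2) one_half_pos)).mono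
        fun k hk a => (cayi_bound one_half_pos (by norm_num) (hk y rfl a)).1
    have hev2 : ∀ᶠ k in atTop, MapsTo (Ω.back (γ (q k))) {y} C.e.source :=
      hq'.eventually (hback {y} hsing (singleton_subset_iff.2 hy) _ (C.e.open_source.mem_nhds hxC))
    filter_upwards [hev1, hev2] with k hne hsrc
    have heq : S.disp b (δ (q k)) (Fm (q k) y) = D.Phi S.c (Ω.back (γ (q k)) y) := by
      funext a
      simp only [Stage.disp, hFm]
      rw [cay_cayi (hne a), hζ]
      simp only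
      rw [mul_div_cancel₀ _ (hden _ a), add_sub_cancel]
    change y = Ω.act (γ (q k)) (C.e.symm (S.disp b (δ (q k)) (Fm (q k) y)))
    rw [heq, C.symm_Phi (hsrc rfl), Ω.act_back _ _ hy]
  · -- `F ∘ G = id`
    have hGω := hGmaps hω
    have h1 : Tendsto (fun k => Gm (q k) ω) atTop (𝓝 (G ω)) := hGlim.tendsto_at hω
    have h2 := hFq.tendsto_comp (hFdiff.continuousOn _ hGω) hGω
      (tendsto_nhdsWithin_iff.2 ⟨h1, h1.eventually_mem (D.isOpen_U.mem_nhds hGω)⟩)
    refine tendsto_nhds_unique h2 ((tendsto_const_nhds (x := ω)).congr' ?_)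
    filter_upwards [hrad q hqm ‖ω‖ (mem_ball_zero_iff.1 hω)] with k hk
    funext a
    obtain ⟨ht, hU'⟩ := hdU (q k) ω hk
    simp only [hFm, hζ, hGm]
    rw [Ω.back_act _ _ hU', C.Phi_symm ht, Stage.disp, add_sub_cancel_left,
      mul_div_cancel_left₀ _ (hden _ a),
      cayi_cay ((norm_le_pi_norm ω a).trans_lt (mem_ball_zero_iff.1 hω))]

end

end Vale.Agent.P274
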