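import Vale.Agent.P274.Orbit
import Mathlib.Analysis.Complex.AbsMax
import Mathlib.Topology.Connected.LocallyPathConnected

/-!
Scaling at a corner: the polyhedron is biholomorphic to a polydisc.
-/

open Filter Metric Set Function Topology

namespace Vale.Agent.P274

noncomputable section

variable {n m : ℕ}

/-- The Cayley transform from the unit disc to the right half plane. -/
def cay (ω : ℂ) : ℂ := (1 + ω) / (1 - ω)

/-- The inverse Cayley transform. -/
def cayi (ζ : ℂ) : ℂ := (ζ - 1) / (ζ + 1)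

theorem one_sub_ne_zero {ω : ℂ} (h : ‖ω‖ < 1) : 1 - ω ≠ 0 := by
  intro h0
  rw [sub_eq_zero] at h0
  simp [← h0] at h

theorem re_cay_pos {ω : ℂ} (h : ‖ω‖ < 1) : 0 < (cay ω).re := by
  have h1 : Complex.normSq ω < 1 := by
    rw [Complex.normSq_eq_norm_sq]
    nlinarith [norm_nonneg ω]
  rw [cay, Complex.div_re, ← add_div]
  refine div_pos ?_ (Complex.normSq_pos.2 (one_sub_ne_zero h))
  simp only [Complex.add_re, Complex.add_im, Complex.sub_re, Complex.sub_im, Complex.one_re,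
    Complex.one_im]
  rw [Complex.normSq_apply] at h1
  nlinarith

theorem cayi_cay {ω : ℂ} (h : ‖ω‖ < 1) : cayi (cay ω) = ω := by
  have := one_sub_ne_zero h
  rw [cayi, cay, div_sub_one this, div_add_one this, div_div_div_cancel_right₀ this]
  rw [show (1 + ω - (1 - ω)) = 2 * ω by ring, show (1 + ω + (1 - ω)) = (2 : ℂ) by ring]
  ring

theorem cay_cayi {ζ : ℂ} (h : ζ + 1 ≠ 0) : cay (cayi ζ) = ζ := by
  rw [cay, cayi, one_add_div h, one_sub_div h, div_div_div_cancel_right₀ h]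
  rw [show ζ + 1 + (ζ - 1) = 2 * ζ by ring, show ζ + 1 - (ζ - 1) = (2 : ℂ) by ring]
  ring

theorem cayi_bound {ζ : ℂ} {ε : ℝ} (hε : 0 < ε) (hε1 : ε < 1) (h : -ε * ‖ζ‖ ≤ ζ.re) :
    ζ + 1 ≠ 0 ∧ ‖cayi ζ‖ ^ 2 ≤ (1 + ε) / (1 - ε) := by
  have hn : ∀ s : ℝ, Complex.normSq (ζ + (s : ℂ)) = ‖ζ‖ ^ 2 + 2 * s * ζ.re + s ^ 2 := by
    intro s
    rw [← Complex.normSq_eq_norm_sq, Complex.normSq_apply, Complex.normSq_apply]
    simp
    ring
  have hp := hn 1
  have hm := hn (-1)
  simp only [Complex.ofReal_one, Complex.ofReal_neg, ← sub_eq_add_neg] at hp hm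
  have hsq : 0 ≤ (‖ζ‖ - 1) ^ 2 := sq_nonneg _
  have hlow : (1 - ε) * (‖ζ‖ ^ 2 + 1) ≤ Complex.normSq (ζ + 1) := by nlinarith
  have hpos : 0 < Complex.normSq (ζ + 1) := by nlinarith [norm_nonneg ζ]
  refine ⟨Complex.normSq_pos.1 hpos, ?_⟩
  rw [cayi, ← Complex.normSq_eq_norm_sq, Complex.normSq_div,
    div_le_div_iff₀ hpos (by linarith)]
  nlinarith

variable {D : Dom n m}

/-- Two points of `U` are interior to a compact connected subset of `U`. -/
theorem exists_connected_compact {p z : Fin n → ℂ} (hp : p ∈ D.U) (hz : z ∈ D.U) :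
    ∃ C, IsCompact C ∧ IsPreconnected C ∧ C ⊆ D.U ∧ C ∈ 𝓝 p ∧ C ∈ 𝓝 z := by
  obtain ⟨rp, hrp, hrpU⟩ := Metric.nhds_basis_closedBall.mem_iff.1 (D.isOpen_U.mem_nhds hp)
  obtain ⟨rz, hrz, hrzU⟩ := Metric.nhds_basis_closedBall.mem_iff.1 (D.isOpen_U.mem_nhds hz)
  have hconn : IsPathConnected D.U :=
    D.isOpen_U.isConnected_iff_isPathConnected.1 ⟨⟨p, hp⟩, D.preconnected_U⟩
  obtain ⟨γ, hγ⟩ := hconn.joinedIn p hp z hz
  refine ⟨range γ ∪ closedBall p rp ∪ closedBall z rz, ?_, ?_, ?_, ?_, ?_⟩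
  · exact ((isCompact_range γ.continuous).union (isCompact_closedBall _ _)).union
      (isCompact_closedBall _ _)
  · refine IsPreconnected.union z (Or.inl ⟨1, γ.target⟩) (mem_closedBall_self hrz.le) ?_
      (convex_closedBall _ _).isPreconnected
    exact IsPreconnected.union p ⟨0, γ.source⟩ (mem_closedBall_self hrp.le)
      (isPreconnected_range γ.continuous) (convex_closedBall _ _).isPreconnected
  · rintro w ((⟨t, rfl⟩ | hw) | hw)
    exacts [hγ t, hrpU hw, hrzU hw]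
  · exact mem_of_superset (closedBall_mem_nhds _ hrp) fun w hw => Or.inl (Or.inr hw)
  · exact mem_of_superset (closedBall_mem_nhds _ hrz) fun w hw => Or.inr hw

namespace Stage

variable (S : Stage D)

/-- Points of the frame space displaced from `b` by the Cayley images of `ω` at scales `δ`. -/
def disp (b : Fin n → ℂ) (δ : Fin n → ℝ) (ω : Fin n → ℂ) : Fin n → ℂ :=
  fun a => b a + nrm (S.ρ a) (b a) * (δ a : ℂ) * cay (ω a)

variable {S}

theorem differentiableOn_disp (b : Fin n → ℂ) (δ : Fin n → ℝ) :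
    DifferentiableOn ℂ (S.disp b δ) (ball 0 1) := by
  refine differentiableOn_pi.2 fun a => ?_
  have h1 : ∀ ω ∈ ball (0 : Fin n → ℂ) 1, 1 - ω a ≠ 0 := fun ω hω =>
    one_sub_ne_zero ((norm_le_pi_norm ω a).trans_lt (mem_ball_zero_iff.1 hω))
  intro ω hω
  refine DifferentiableAt.differentiableWithinAt ?_
  simp only [disp, cay]
  have := h1 ω hω
  fun_prop (disch := assumption)

/-- Scales at which prescribed compact subsets of the polydisc are carried into `U`. -/
theorem exists_scales {x : Fin n → ℂ} (hx : S.Good x) (hfull : ∀ a, S.c a ≠ none)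
    (C : Chart D S.c) (hxC : x ∈ C.e.source) (N : ℕ) :
    ∃ δ : Fin n → ℝ, (∀ a, 0 < δ a ∧ δ a < 1 / ((N : ℝ) + 1)) ∧
      ∀ ω : Fin n → ℂ, ‖ω‖ ≤ 1 - 1 / ((N : ℝ) + 2) →
        S.disp (D.Phi S.c x) δ ω ∈ C.e.target ∧
          C.e.symm (S.disp (D.Phi S.c x) δ ω) ∈ D.U := by
  set b := D.Phi S.c x with hb
  set r : ℝ := 1 - 1 / ((N : ℝ) + 2) with hr
  have hN : (0 : ℝ) < (N : ℝ) + 2 := by positivity
  have hr1 : r < 1 := by
    have : (0 : ℝ) < 1 / ((N : ℝ) + 2) := by positivity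
    linarith
  have hlt : ∀ ω : ℂ, ω ∈ closedBall (0 : ℂ) r → ‖ω‖ < 1 := fun ω hω =>
    (mem_closedBall_zero_iff.1 hω).trans_lt hr1
  set L := cay '' closedBall (0 : ℂ) r with hL
  have hLc : IsCompact L := (isCompact_closedBall _ _).image_of_continuousOn <| by
    intro ω hω
    refine ContinuousAt.continuousWithinAt ?_
    exact (continuousAt_const.add continuousAt_id).div (continuousAt_const.sub continuousAt_id)
      (one_sub_ne_zero (hlt ω hω))
  have hLpos : ∀ p ∈ L, 0 < p.re := by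
    rintro _ ⟨ω, hω, rfl⟩; exact re_cay_pos (hlt ω hω)
  obtain ⟨Nb, hNb, hev⟩ := hx.2.2.self_of_nhdsWithin hx.1 L hLc hLpos
  have hbt : b ∈ C.e.target := C.Phi_mem hxC
  have hnb : C.e.target ∩ C.e.symm ⁻¹' Nb ∈ 𝓝 b := inter_mem (C.isOpen_target.mem_nhds hbt)
    ((C.continuousOn_symm.continuousAt (C.isOpen_target.mem_nhds hbt)).preimage_mem_nhds
      (by rwa [hb, C.symm_Phi hxC]))
  obtain ⟨ε, hε, hεsub⟩ := Metric.mem_nhds_iff.1 hnb
  obtain ⟨M, hM⟩ := hLc.isBounded.exists_norm_le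
  have hsmall : ∀ᶠ δ in S.l, ∀ a, (0 < δ a ∧ δ a < 1 / ((N : ℝ) + 1)) ∧
      ∀ p ∈ L, ‖nrm (S.ρ a) (b a) * (δ a : ℂ) * p‖ < ε := by
    refine eventually_all.2 fun a => ?_
    obtain ⟨j, hj⟩ := Option.ne_none_iff_exists'.1 (hfull a)
    have hl := S.tendsto_l a j hj
    have ht0 : Tendsto (fun δ : Fin n → ℝ => ‖nrm (S.ρ a) (b a)‖ * |δ a| * (|M| + 1)) S.l
        (𝓝 0) := by
      have := (((hl.mono_right nhdsWithin_le_nhds).abs).const_mul
        ‖nrm (S.ρ a) (b a)‖).mul_const (|M| + 1)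
      simpa using this
    have hlow : ∀ᶠ δ in S.l, 0 < δ a ∧ δ a < 1 / ((N : ℝ) + 1) :=
      (hl.eventually self_mem_nhdsWithin).and
        (hl.eventually (nhdsWithin_le_nhds (Iio_mem_nhds (by positivity))))
    filter_upwards [hlow, ht0.eventually (Iio_mem_nhds hε)] with δ hδ1 hδ
    refine ⟨hδ1, fun p hp => ?_⟩
    rw [norm_mul, norm_mul, Complex.norm_real, Real.norm_eq_abs]
    refine lt_of_le_of_lt ?_ hδ
    gcongr
    linarith [hM p hp, le_abs_self M]
  have := S.neBot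
  obtain ⟨δ, hδev, hδs⟩ := (hev.and hsmall).exists
  refine ⟨δ, fun a => (hδs a).1, fun ω hω => ?_⟩
  have hωL : ∀ a, cay (ω a) ∈ L := fun a =>
    mem_image_of_mem _ (mem_closedBall_zero_iff.2 ((norm_le_pi_norm ω a).trans hω))
  have hd : S.disp b δ ω ∈ ball b ε := by
    rw [mem_ball, dist_pi_lt_iff hε]
    intro a
    rw [disp, dist_self_add_left]
    exact (hδs a).2 _ (hωL a)
  obtain ⟨ht, hN'⟩ := hεsub hd
  refine ⟨ht, hδev _ hN' fun a j hj => ⟨cay (ω a), hωL a, ?_⟩⟩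
  rw [← Phi_of_some hj, C.Phi_symm ht, disp, hb, Phi_of_some hj]

/-- A sequence of maps of `U` into itself that pushes a base point to `x` tends to `x`
everywhere. -/
theorem tendsto_corner {x : Fin n → ℂ} (hx : x ∈ S.surf) (hfull : ∀ a, S.c a ≠ none)
    (C : Chart D S.c) (hxC : x ∈ C.e.source)
    (g : ℕ → (Fin n → ℂ) → Fin n → ℂ) (hg : ∀ k, MapsTo (g k) D.U D.U)
    (hgd : ∀ k, DifferentiableOn ℂ (g k) D.U) {p : Fin n → ℂ} (hp : p ∈ D.U)
    {pk : ℕ → Fin n → ℂ} (hpk : Tendsto pk atTop (𝓝 p))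
    (hgp : Tendsto (fun k => g k (pk k)) atTop (𝓝 x)) :
    ∃ φ : ℕ → ℕ, StrictMono φ ∧
      TendstoLocallyUniformlyOn (fun k => g (φ k)) (fun _ => x) atTop D.U := by
  obtain ⟨R, hR⟩ := D.bounded_U.exists_norm_le
  obtain ⟨φ, hφ, h, hhd, hlim⟩ := montel D.isOpen_U g fun z hz => by
    obtain ⟨r, hr, hrU⟩ := Metric.isOpen_iff.1 D.isOpen_U z hz
    exact ⟨r, hr, R, Eventually.of_forall fun k =>
      ⟨(hgd k).mono hrU, fun y hy => hR _ (hg k (hrU hy))⟩⟩
  have hcl : ∀ z ∈ D.U, h z ∈ closure D.U := fun z hz =>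
    mem_closure_of_tendsto (hlim.tendsto_at hz) (Eventually.of_forall fun k => hg _ hz)
  have hhp : h p = x := by
    have h1 := hlim.tendsto_comp (hhd.continuousOn p hp) hp
      (tendsto_nhdsWithin_iff.2 ⟨hpk.comp hφ.tendsto_atTop,
        (hpk.comp hφ.tendsto_atTop).eventually_mem (D.isOpen_U.mem_nhds hp)⟩)
    exact tendsto_nhds_unique h1 (hgp.comp hφ.tendsto_atTop)
  have hUW : D.U ⊆ D.W := subset_closure.trans D.closure_subset
  obtain ⟨B, hB⟩ := D.bounded_U.isCompact_closure.exists_bound_of_continuousOn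
    ((analytic_Phi (D := D) S.c).continuousOn.mono D.closure_subset)
  obtain ⟨ψ, hψ, Q, hQd, hQlim⟩ := montel D.isOpen_U (fun k z => D.Phi S.c (g (φ k) z)) fun z hz => by
    obtain ⟨r, hr, hrU⟩ := Metric.isOpen_iff.1 D.isOpen_U z hz
    refine ⟨r, hr, B, Eventually.of_forall fun k => ⟨?_, fun y hy => hB _ (subset_closure (hg _ (hrU hy)))⟩⟩
    exact (analytic_Phi S.c).differentiableOn.comp ((hgd _).mono hrU)
      fun y hy => hUW (hg _ (hrU hy))
  have hQ : ∀ z ∈ D.U, Q z = D.Phi S.c (h z) := fun z hz =>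
    tendsto_nhds_unique (hQlim.tendsto_at hz)
      ((continuousAt_Phi S.c (D.closure_subset (hcl z hz))).tendsto.comp
        ((hlim.tendsto_at hz).comp hψ.tendsto_atTop))
  have hval : ∀ z ∈ D.U, D.Phi S.c (h z) = D.Phi S.c x := by
    intro z hz
    funext a
    obtain ⟨j, hj⟩ := Option.ne_none_iff_exists'.1 (hfull a)
    set b := D.Phi S.c x a with hb
    have hbf : b = D.f j x := Phi_of_some hj x
    have hbV : b ∉ D.V j := by
      rw [hbf]
      obtain ⟨hO, hρ⟩ := hx.2.2 a j hj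
      have := (S.frontier_iff a j hj _ hO).2 hρ
      rw [frontier, (D.isOpen_V j).interior_eq] at this
      exact this.2
    have hl' : TendstoLocallyUniformlyOn (fun k z => D.Phi S.c (g (φ (ψ k)) z) a - b)
        (fun z => Q z a - b) atTop D.U := by
      have hu : UniformContinuous fun v : Fin n → ℂ => v a - b :=
        (Pi.uniformContinuous_proj (fun _ : Fin n => ℂ) a).sub uniformContinuous_const
      exact hu.comp_tendstoLocallyUniformlyOn hQlim
    have hzero := hurwitz D.isOpen_U D.preconnected_U hl'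
      ((differentiableOn_pi.1 hQd a).sub_const b) ?_ hp (by simp [hQ p hp, hhp, hb]) z hz
    · rw [← hQ z hz]
      exact sub_eq_zero.1 hzero
    intro y hy
    obtain ⟨r, hr, hrU⟩ := Metric.isOpen_iff.1 D.isOpen_U y hy
    refine ⟨r, hr, Eventually.of_forall fun k => ⟨?_, fun w hw h0 => hbV ?_⟩⟩
    · exact (((analytic_comp S.c a).differentiableOn.comp ((hgd _).mono hrU)
        fun w hw => hUW (hg _ (hrU hw)))).sub_const b
    · rw [sub_eq_zero, Phi_of_some hj] at h0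
      rw [← h0]
      exact D.maps _ (hg _ (hrU hw)) j
  have hconst : EqOn h (fun _ => x) D.U := by
    set Z := D.U ∩ h ⁻¹' C.e.source
    have hZo : IsOpen Z := hhd.continuousOn.isOpen_inter_preimage D.isOpen_U C.e.open_source
    have hZx : ∀ z ∈ Z, h z = x := fun z hz => by
      rw [← C.symm_Phi hz.2, hval z hz.1, C.symm_Phi hxC]
    have : D.U ⊆ Z := D.preconnected_U.subset_of_closure_inter_subset hZo
      ⟨p, hp, hp, by simpa [hhp] using hxC⟩ (by
        rintro z ⟨hz, hzU⟩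
        refine ⟨hzU, ?_⟩
        have h1 := ((hhd.continuousOn z hzU).mono inter_subset_left).mem_closure_image hz
        have h2 : h '' Z ⊆ {x} := by rintro _ ⟨w, hw, rfl⟩; exact hZx w hw
        have h3 : h z = x := closure_minimal h2 isClosed_singleton h1
        simpa [h3] using hxC)
    exact fun z hz => hZx z (this hz)
  exact ⟨φ, hφ, hlim.congr_right hconst⟩

end Stage

end

end Vale.Agent.P274
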