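import Vale.Agent.P274.Frame
import Mathlib.Analysis.InnerProductSpace.PiL2
import Mathlib.Analysis.InnerProductSpace.Calculus

/-!
Stages of the descent towards a corner of a generalised polyhedron.

A stage is a frame `c`, for each of its functions an arc `ρ i = 0` in the boundary of the
corresponding planar set, and a filter of scales `l`.  A point of the surface cut out by the arcs
is filled when the points of space displaced from it into the positive sides, at scales in `l`,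
belong to `U`.
-/

open Filter Metric Set Function Topology

namespace Vale.Agent.P274

noncomputable section

variable {n m : ℕ}

/-- A stage. -/
structure Stage (D : Dom n m) where
  c : Fin n → Option (Fin m)
  O : Fin n → Set ℂ
  ρ : Fin n → ℂ → ℝ
  l : Filter (Fin n → ℝ)
  isOpen_O : ∀ i j, c i = some j → IsOpen (O i)
  contDiff_ρ : ∀ i j, c i = some j → ContDiff ℝ 1 (ρ i)
  regular_ρ : ∀ i j, c i = some j → ∀ u ∈ O i, fderiv ℝ (ρ i) u ≠ 0
  frontier_iff : ∀ i j, c i = some j → ∀ u ∈ O i, (u ∈ frontier (D.V j) ↔ ρ i u = 0)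
  neBot : l.NeBot
  tendsto_l : ∀ i j, c i = some j → Tendsto (fun δ : Fin n → ℝ => δ i) l (𝓝[>] 0)

variable {D : Dom n m} (S : Stage D)

namespace Stage

/-- The surface of a stage. -/
def surf : Set (Fin n → ℂ) :=
  {z | z ∈ D.W ∧ D.gdet S.c z ≠ 0 ∧
    ∀ i j, S.c i = some j → D.f j z ∈ S.O i ∧ S.ρ i (D.f j z) = 0}

/-- Points at which all independent functions take values in their sets. -/
def pos : Set (Fin n → ℂ) := {z | z ∈ D.W ∧ ∀ j, ¬ D.Dep S.c j → D.f j z ∈ D.V j}

/-- The filling property at a point. -/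
def Fill (z : Fin n → ℂ) : Prop :=
  ∀ L : Set ℂ, IsCompact L → (∀ q ∈ L, 0 < q.re) → ∃ N ∈ 𝓝 z, ∀ᶠ δ in S.l, ∀ y ∈ N,
    (∀ i j, S.c i = some j → ∃ q ∈ L,
      D.f j y = D.f j z + nrm (S.ρ i) (D.f j z) * (δ i : ℂ) * q) → y ∈ D.U

/-- Points of the surface inside `pos` that are filled, with all surface points near them. -/
def Good (z : Fin n → ℂ) : Prop :=
  z ∈ S.surf ∧ z ∈ S.pos ∧ ∀ᶠ z' in 𝓝[S.surf] z, S.Fill z'

/-- Good points on the leaf through `q`. -/
def leaf (q : Fin n → ℂ) : Set (Fin n → ℂ) :=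
  {z | S.Good z ∧ ∀ i, S.c i ≠ none → D.Phi S.c z i = D.Phi S.c q i}

/-- A boundary point of the good part of a leaf. -/
def Cand (q : Fin n → ℂ) : Prop := q ∈ S.surf ∧ q ∉ S.pos ∧ q ∈ closure (S.leaf q)

open Classical in
/-- The active independent functions at a point. -/
def act (q : Fin n → ℂ) : Finset (Fin m) :=
  Finset.univ.filter fun j => ¬ D.Dep S.c j ∧ D.f j q ∉ D.V j

theorem mem_act {q : Fin n → ℂ} {j : Fin m} :
    j ∈ S.act q ↔ ¬ D.Dep S.c j ∧ D.f j q ∉ D.V j := by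
  classical
  simp [act]

end Stage

/-- A preconnected set on which all `f j` are in their sets and that meets `U` lies in `U`. -/
theorem Dom.sub_U (D : Dom n m) {T : Set (Fin n → ℂ)} (hT : IsPreconnected T)
    (hV : ∀ z ∈ T, ∀ j, D.f j z ∈ D.V j) (hne : (T ∩ D.U).Nonempty) : T ⊆ D.U := by
  refine hT.subset_of_closure_inter_subset D.isOpen_U hne ?_
  rintro z ⟨hz, hzT⟩
  by_contra hzU
  obtain ⟨j, hj⟩ := D.edge z hz hzU
  exact hj (hV z hzT j)

namespace Stage

variable {S}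

theorem isOpen_pos : IsOpen S.pos := by
  rw [isOpen_iff_mem_nhds]
  rintro z ⟨hzW, hz⟩
  have : ∀ᶠ y in 𝓝 z, ∀ j, ¬ D.Dep S.c j → D.f j y ∈ D.V j := by
    refine eventually_all.2 fun j => ?_
    by_cases hj : D.Dep S.c j
    · exact Eventually.of_forall fun y h => absurd hj h
    · exact ((continuousAt_f j hzW).eventually_mem ((D.isOpen_V j).mem_nhds (hz j hj))).mono
        fun y hy _ => hy
  filter_upwards [D.isOpen_W.mem_nhds hzW, this] with y hy hy' using ⟨hy, hy'⟩

theorem ne_none_of_some {i : Fin n} {j : Fin m} (h : S.c i = some j) : S.c i ≠ none := by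
  simp [h]

/-- The shift of the leaf coordinates by the difference of two points. -/
def shift (c : Fin n → Option (Fin m)) (a b w : Fin n → ℂ) : Fin n → ℂ :=
  fun i => if c i = none then w i + (a i - b i) else w i

theorem shift_apply_frame {c : Fin n → Option (Fin m)} {a b w : Fin n → ℂ} {i : Fin n}
    (h : c i ≠ none) : shift c a b w i = w i := by simp [shift, h]

theorem shift_self {c : Fin n → Option (Fin m)} {a b : Fin n → ℂ}
    (hag : ∀ i, c i ≠ none → a i = b i) : shift c a b b = a := by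
  funext i
  by_cases h : c i = none
  · simp [shift, h]
  · simp [shift, h, hag i h]

theorem continuous_shift (c : Fin n → Option (Fin m)) (a b : Fin n → ℂ) :
    Continuous (shift c a b) := by
  refine continuous_pi fun i => ?_
  by_cases h : c i = none <;> simp only [shift, h, if_true, if_false] <;> fun_prop

theorem f_eq_of_agree {i : Fin n} {j : Fin m} (h : S.c i = some j) {z z' : Fin n → ℂ}
    (hag : D.Phi S.c z i = D.Phi S.c z' i) : D.f j z = D.f j z' := by
  rwa [Phi_of_some h, Phi_of_some h] at hag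

/-- Filling is constant along a leaf inside a chart contained in `pos`. -/
theorem fill_transport (C : Chart D S.c) (hC : C.e.source ⊆ S.pos) {z₁ z₂ : Fin n → ℂ}
    (h₁ : z₁ ∈ C.e.source) (h₂ : z₂ ∈ C.e.source)
    (hag : ∀ i, S.c i ≠ none → D.Phi S.c z₁ i = D.Phi S.c z₂ i) (hfill : S.Fill z₁) :
    S.Fill z₂ := by
  intro L hL hLpos
  obtain ⟨N₁, hN₁, hev⟩ := hfill L hL hLpos
  set τ := shift S.c (D.Phi S.c z₁) (D.Phi S.c z₂)
  set N₂ : Set (Fin n → ℂ) :=
    {y | y ∈ C.e.source ∧ τ (D.Phi S.c y) ∈ C.e.target ∧ C.e.symm (τ (D.Phi S.c y)) ∈ N₁}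
  have hτ2 : τ (D.Phi S.c z₂) = D.Phi S.c z₁ := shift_self hag
  have hN₂ : N₂ ∈ 𝓝 z₂ := by
    have hc : ContinuousAt (fun y => τ (D.Phi S.c y)) z₂ :=
      (continuous_shift _ _ _).continuousAt.comp (continuousAt_Phi _ (C.source_subset h₂))
    have h3 : τ (D.Phi S.c z₂) ∈ C.e.target := hτ2 ▸ C.Phi_mem h₁
    have hc2 : ContinuousAt (fun y => C.e.symm (τ (D.Phi S.c y))) z₂ :=
      ContinuousAt.comp (g := C.e.symm)
        (C.continuousOn_symm.continuousAt (C.isOpen_target.mem_nhds h3)) hc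
    have h4 : ∀ᶠ y in 𝓝 z₂, C.e.symm (τ (D.Phi S.c y)) ∈ N₁ := by
      refine hc2.eventually_mem ?_
      rwa [hτ2, C.symm_Phi h₁]
    filter_upwards [C.e.open_source.mem_nhds h₂,
      hc.eventually_mem (C.isOpen_target.mem_nhds h3), h4] with y a b d using ⟨a, b, d⟩
  refine ⟨N₂, hN₂, hev.mono fun δ hδ y hy hlift => ?_⟩
  obtain ⟨hys, hyt, hyN⟩ := hy
  set w := D.Phi S.c y with hw
  have hwt : w ∈ C.e.target := C.Phi_mem hys
  have hy₁ : C.e.symm (τ w) ∈ D.U := by
    refine hδ _ hyN fun i j hij => ?_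
    obtain ⟨q, hq, hq'⟩ := hlift i j hij
    refine ⟨q, hq, ?_⟩
    have h5 : D.f j (C.e.symm (τ w)) = D.f j y := by
      rw [← Phi_of_some hij, C.Phi_symm hyt,
        show τ w i = w i from shift_apply_frame (ne_none_of_some hij), hw, Phi_of_some hij]
    rw [h5, hq', f_eq_of_agree hij (hag i (ne_none_of_some hij))]
  have hseg : segment ℝ (τ w) w ⊆ C.e.target := C.convex_target.segment_subset hyt hwt
  have hsub : C.e.symm '' segment ℝ (τ w) w ⊆ D.U := by
    refine D.sub_U ((convex_segment _ _).isPreconnected.image _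
      (C.continuousOn_symm.mono hseg)) ?_ ⟨_, mem_image_of_mem _ (left_mem_segment ℝ _ _), hy₁⟩
    rintro _ ⟨v, hv, rfl⟩ j
    by_cases hj : D.Dep S.c j
    · have hag' : ∀ i, S.c i ≠ none → v i = τ w i := by
        intro i hi
        obtain ⟨a, b, -, -, hab, rfl⟩ := hv
        simp only [Pi.add_apply, Pi.smul_apply, Complex.real_smul]
        rw [show τ w i = w i from shift_apply_frame hi]
        rw [← add_mul, ← Complex.ofReal_add, hab, Complex.ofReal_one, one_mul]
      rw [C.eq_of_dep hj (hseg hv) hyt hag']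
      exact D.maps _ hy₁ j
    · exact (hC (C.symm_mem (hseg hv))).2 j hj
  have := hsub (mem_image_of_mem _ (right_mem_segment ℝ (τ w) w))
  rwa [hw, C.symm_Phi hys] at this

/-- Goodness is constant along a leaf inside a chart contained in `pos`. -/
theorem good_transport (C : Chart D S.c) (hC : C.e.source ⊆ S.pos) {z₁ z₂ : Fin n → ℂ}
    (h₁ : z₁ ∈ C.e.source) (h₂ : z₂ ∈ C.e.source)
    (hag : ∀ i, S.c i ≠ none → D.Phi S.c z₁ i = D.Phi S.c z₂ i) (hgood : S.Good z₁) :
    S.Good z₂ := by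
  have hsurf : ∀ {a b : Fin n → ℂ}, a ∈ S.surf → b ∈ C.e.source →
      (∀ i, S.c i ≠ none → D.Phi S.c a i = D.Phi S.c b i) → b ∈ S.surf := by
    intro a b ha hb hab
    refine ⟨C.source_subset hb, C.gdet_ne _ hb, fun i j hij => ?_⟩
    rw [← f_eq_of_agree hij (hab i (ne_none_of_some hij))]
    exact ha.2.2 i j hij
  refine ⟨hsurf hgood.1 h₂ hag, hC h₂, ?_⟩
  obtain ⟨N₁, hN₁, hfill⟩ := mem_nhdsWithin_iff_exists_mem_nhds_inter.1 hgood.2.2
  set τ := shift S.c (D.Phi S.c z₁) (D.Phi S.c z₂)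
  have hτ2 : τ (D.Phi S.c z₂) = D.Phi S.c z₁ := shift_self hag
  have hc : ContinuousAt (fun y => τ (D.Phi S.c y)) z₂ :=
    (continuous_shift _ _ _).continuousAt.comp (continuousAt_Phi _ (C.source_subset h₂))
  have h3 : τ (D.Phi S.c z₂) ∈ C.e.target := hτ2 ▸ C.Phi_mem h₁
  have hc2 : ContinuousAt (fun y => C.e.symm (τ (D.Phi S.c y))) z₂ :=
    ContinuousAt.comp (g := C.e.symm)
      (C.continuousOn_symm.continuousAt (C.isOpen_target.mem_nhds h3)) hc
  have h4 : ∀ᶠ y in 𝓝 z₂, C.e.symm (τ (D.Phi S.c y)) ∈ N₁ := by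
    refine hc2.eventually_mem ?_
    rwa [hτ2, C.symm_Phi h₁]
  rw [eventually_nhdsWithin_iff]
  filter_upwards [C.e.open_source.mem_nhds h₂,
    hc.eventually_mem (C.isOpen_target.mem_nhds h3), h4] with y hys hyt hyN hyS
  have hag' : ∀ i, S.c i ≠ none →
      D.Phi S.c (C.e.symm (τ (D.Phi S.c y))) i = D.Phi S.c y i := fun i hi => by
    rw [C.Phi_symm hyt, show τ (D.Phi S.c y) i = D.Phi S.c y i from shift_apply_frame hi]
  have hyS₁ : C.e.symm (τ (D.Phi S.c y)) ∈ S.surf :=
    hsurf hyS (C.symm_mem hyt) fun i hi => (hag' i hi).symm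
  exact fill_transport C hC (C.symm_mem hyt) hys hag' (hfill ⟨hyN, hyS₁⟩)

/-- A filled point of the surface is in the closure of `U`. -/
theorem mem_closure_U {z : Fin n → ℂ} (hz : z ∈ S.surf) (hfill : S.Fill z) : z ∈ closure D.U := by
  obtain ⟨N, hN, hev⟩ := hfill {1} isCompact_singleton (by simp)
  obtain ⟨C, hzC, -, -⟩ := exists_chart hz.1 hz.2.1 univ_mem
  set v : (Fin n → ℝ) → Fin n → ℂ := fun δ i => (S.c i).elim (D.Phi S.c z i)
    fun j => D.f j z + nrm (S.ρ i) (D.f j z) * (δ i : ℂ) * 1 with hv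
  have hvt : Tendsto v S.l (𝓝 (D.Phi S.c z)) := by
    refine tendsto_pi_nhds.2 fun i => ?_
    rcases hi : S.c i with _ | j
    · simp only [hv, hi, Option.elim]
      exact tendsto_const_nhds
    · have := ((Complex.continuous_ofReal.tendsto (0 : ℝ)).comp
        ((S.tendsto_l i j hi).mono_right nhdsWithin_le_nhds))
      have h2 := ((this.const_mul (nrm (S.ρ i) (D.f j z))).mul_const (1 : ℂ)).const_add (D.f j z)
      simpa [hv, hi, Phi_of_some hi, Function.comp_def] using h2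
  have hys : Tendsto (fun δ => C.e.symm (v δ)) S.l (𝓝 z) := by
    have := (C.continuousOn_symm.continuousAt (C.isOpen_target.mem_nhds (C.Phi_mem hzC))).tendsto.comp hvt
    rwa [C.symm_Phi hzC] at this
  have := S.neBot
  refine mem_closure_of_tendsto hys ?_
  filter_upwards [hev, hys hN, hvt.eventually_mem (C.isOpen_target.mem_nhds (C.Phi_mem hzC))]
    with δ hδ hyN hδt
  refine hδ _ hyN fun i j hij => ⟨1, rfl, ?_⟩
  rw [← Phi_of_some hij, C.Phi_symm hδt]
  simp [hv, hij]

theorem Good.mem_closure_U {z : Fin n → ℂ} (h : S.Good z) : z ∈ closure D.U :=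
  Stage.mem_closure_U h.1 (h.2.2.self_of_nhdsWithin h.1)

theorem good_of_mem_closure {z : Fin n → ℂ} (hz : z ∈ S.surf) (hp : z ∈ S.pos)
    (hcl : z ∈ closure (S.leaf z)) : S.Good z := by
  obtain ⟨C, hzC, -, hsub⟩ := exists_chart hz.1 hz.2.1 (isOpen_pos.mem_nhds hp)
  obtain ⟨z', hz', hz'L⟩ := mem_closure_iff_nhds.1 hcl _ (C.e.open_source.mem_nhds hzC)
  exact good_transport C hsub hz' hzC hz'L.2 hz'L.1

theorem good_eventually {z : Fin n → ℂ} (h : S.Good z) : ∀ᶠ z' in 𝓝[S.surf] z, S.Good z' := by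
  filter_upwards [eventually_eventually_nhdsWithin.2 h.2.2, self_mem_nhdsWithin,
    nhdsWithin_le_nhds (isOpen_pos.mem_nhds h.2.1)] with y a b d using ⟨b, d, a⟩

/-- Leaving the good part inside a connected piece of a leaf produces a boundary point. -/
theorem exit {X : Type*} [TopologicalSpace X] {T : Set X} (hT : IsPreconnected T)
    {σ : X → Fin n → ℂ} (hσ : ContinuousOn σ T) (hsurf : ∀ t ∈ T, σ t ∈ S.surf)
    (hag : ∀ t ∈ T, ∀ t' ∈ T, ∀ i, S.c i ≠ none → D.Phi S.c (σ t) i = D.Phi S.c (σ t') i)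
    {a b : X} (ha : a ∈ T) (hga : S.Good (σ a)) (hb : b ∈ T) (hgb : ¬ S.Good (σ b)) :
    ∃ t ∈ T, t ∈ closure {s | s ∈ T ∧ S.Good (σ s)} ∧ S.Cand (σ t) := by
  set A := {s | s ∈ T ∧ S.Good (σ s)}
  by_contra hno
  push Not at hno
  obtain ⟨O, hO, hAO⟩ : ∃ O, IsOpen O ∧ A = O ∩ T := by
    have hopen : ∀ s ∈ A, ∃ O, IsOpen O ∧ s ∈ O ∧ O ∩ T ⊆ A := by
      rintro s ⟨hs, hgs⟩
      have h1 : Tendsto σ (𝓝[T] s) (𝓝[S.surf] σ s) :=
        tendsto_nhdsWithin_iff.2 ⟨hσ s hs, eventually_nhdsWithin_of_forall hsurf⟩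
      obtain ⟨O, hO, hsO, hOsub⟩ := mem_nhdsWithin.1 (h1.eventually (good_eventually hgs))
      exact ⟨O, hO, hsO, fun t ht => ⟨ht.2, hOsub ht⟩⟩
    choose! O hO hsO hOA using hopen
    refine ⟨⋃ s ∈ A, O s, isOpen_biUnion hO, Subset.antisymm ?_ ?_⟩
    · exact fun s hs => ⟨mem_biUnion hs (hsO s hs), hs.1⟩
    · rintro t ⟨ht, htT⟩
      obtain ⟨s, hs, hts⟩ := mem_iUnion₂.1 ht
      exact hOA s hs ⟨hts, htT⟩
  have hkey : closure A ∩ T ⊆ O := by
    rintro t ⟨htA, htT⟩
    have hAT : A ⊆ T := fun s hs => hs.1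
    have hcl : σ t ∈ closure (S.leaf (σ t)) := by
      have := (hσ t htT).mono hAT
      refine closure_mono ?_ (this.mem_closure_image htA)
      rintro _ ⟨s, hs, rfl⟩
      exact ⟨hs.2, hag s hs.1 t htT⟩
    have hpos : σ t ∈ S.pos := by
      by_contra hp
      exact hno t htT htA ⟨hsurf t htT, hp, hcl⟩
    have : t ∈ A := ⟨htT, good_of_mem_closure (hsurf t htT) hpos hcl⟩
    rw [hAO] at this
    exact this.1
  have hsub : T ⊆ O := by
    intro t ht
    by_contra htO
    have h1 : (T ∩ O).Nonempty := ⟨a, ha, by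
      have : a ∈ A := ⟨ha, hga⟩
      rw [hAO] at this; exact this.1⟩
    have h2 : (T ∩ (closure A)ᶜ).Nonempty := ⟨t, ht, fun h => htO (hkey ⟨h, ht⟩)⟩
    obtain ⟨u, huT, huO, huA⟩ := hT O (closure A)ᶜ hO isClosed_closure.isOpen_compl
      (fun u hu => (em (u ∈ closure A)).imp (fun h => hkey ⟨h, hu⟩) id) h1 h2
    exact huA (subset_closure (by rw [hAO]; exact ⟨huO, huT⟩))
  have : b ∈ A := by rw [hAO]; exact ⟨hsub hb, hb⟩
  exact hgb this.2

theorem act_mono {q : Fin n → ℂ} (hq : q ∈ D.W) : ∀ᶠ q' in 𝓝 q, S.act q' ⊆ S.act q := by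
  have : ∀ᶠ q' in 𝓝 q, ∀ j, D.f j q ∈ D.V j → D.f j q' ∈ D.V j := by
    refine eventually_all.2 fun j => ?_
    by_cases hj : D.f j q ∈ D.V j
    · exact ((continuousAt_f j hq).eventually_mem ((D.isOpen_V j).mem_nhds hj)).mono fun y h _ => h
    · exact Eventually.of_forall fun y h => absurd h hj
  filter_upwards [this] with q' h j hj
  rw [mem_act] at hj ⊢
  exact ⟨hj.1, fun h' => hj.2 (h j h')⟩

theorem act_nonempty {q : Fin n → ℂ} (h : S.Cand q) : (S.act q).Nonempty := by
  have hp := h.2.1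
  simp only [pos, mem_ofPred_eq, not_and, not_forall] at hp
  obtain ⟨j, hj, hjV⟩ := hp h.1.1
  exact ⟨j, S.mem_act.2 ⟨hj, hjV⟩⟩

/-- Leaves are not relatively compact: as long as the frame is incomplete there is a boundary
point. -/
theorem exists_cand {x : Fin n → ℂ} (hx : S.Good x) {i₀ : Fin n} (hi₀ : S.c i₀ = none) :
    ∃ q, S.Cand q := by
  by_contra hno
  push Not at hno
  set K := closure (S.leaf x) with hK
  have hsub : K ⊆ closure D.U := closure_minimal (fun z hz => hz.1.mem_closure_U) isClosed_closure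
  have hxK : x ∈ K := subset_closure ⟨hx, fun i _ => rfl⟩
  have hKc : IsCompact K :=
    (D.bounded_U.isCompact_closure).of_isClosed_subset isClosed_closure hsub
  have hKW : K ⊆ D.W := hsub.trans D.closure_subset
  set ψ : (Fin n → ℂ) → EuclideanSpace ℂ (Option (Fin n)) := fun z =>
    WithLp.toLp 2 fun o => o.elim (D.gdet S.c z) fun i => D.gdet S.c z * z i with hψ
  have hψd : ∀ z ∈ D.W, DifferentiableAt ℂ ψ z := by
    intro z hz
    have hg := (analytic_gdet (D := D) S.c z hz).differentiableAt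
    refine differentiableAt_euclidean.2 fun o => ?_
    rcases o with _ | i
    · simpa [hψ] using hg
    · simpa [hψ] using hg.fun_mul ((differentiableAt_apply i z))
  obtain ⟨z, hzK, hmax⟩ := hKc.exists_isMaxOn ⟨x, hxK⟩ (f := fun z => ‖ψ z‖)
    (fun z hz => ((hψd z (hKW hz)).continuousAt.norm).continuousWithinAt)
  have hzW := hKW hzK
  have hg0 : D.gdet S.c z ≠ 0 := by
    intro h0
    have h1 : ψ z = 0 := by
      ext o; rcases o with _ | i <;> simp [hψ, h0]
    have h2 : ‖ψ x‖ ≤ ‖ψ z‖ := hmax hxK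
    rw [h1, norm_zero, norm_le_zero_iff] at h2
    have := congrArg (fun v : EuclideanSpace ℂ (Option (Fin n)) => v none) h2
    exact hx.1.2.1 (by simpa [hψ] using this)
  have hagz : ∀ i, S.c i ≠ none → D.Phi S.c z i = D.Phi S.c x i := by
    intro i hi
    have hc : ContinuousWithinAt (fun y => D.Phi S.c y i) (S.leaf x) z :=
      ((continuous_apply i).continuousAt.comp (continuousAt_Phi S.c hzW)).continuousWithinAt
    have := hc.mem_closure_image hzK
    have h2 : (fun y => D.Phi S.c y i) '' S.leaf x ⊆ {D.Phi S.c x i} := by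
      rintro _ ⟨y, hy, rfl⟩; exact hy.2 i hi
    exact closure_minimal h2 isClosed_singleton this
  have hzS : z ∈ S.surf := ⟨hzW, hg0, fun i j hij => by
    rw [f_eq_of_agree hij (hagz i (ne_none_of_some hij))]; exact hx.1.2.2 i j hij⟩
  have hzcl : z ∈ closure (S.leaf z) := by
    refine closure_mono (fun y hy => ?_) hzK
    exact ⟨hy.1, fun i hi => (hy.2 i hi).trans (hagz i hi).symm⟩
  have hzpos : z ∈ S.pos := by
    by_contra hp
    exact hno z ⟨hzS, hp, hzcl⟩
  obtain ⟨C, hzC, -, hCsub⟩ := exists_chart hzW hg0 (isOpen_pos.mem_nhds hzpos)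
  have hgz : S.Good z := good_of_mem_closure hzS hzpos hzcl
  set σ : ℂ → Fin n → ℂ := fun t => C.e.symm (D.Phi S.c z + t • Pi.single i₀ 1) with hσ
  have hline : Continuous fun t : ℂ => D.Phi S.c z + t • (Pi.single i₀ (1 : ℂ) : Fin n → ℂ) := by
    fun_prop
  have hev : ∀ᶠ t in 𝓝 (0 : ℂ), D.Phi S.c z + t • (Pi.single i₀ (1 : ℂ) : Fin n → ℂ) ∈ C.e.target :=
    hline.continuousAt.eventually_mem (by simpa using C.isOpen_target.mem_nhds (C.Phi_mem hzC))
  have hσ0 : σ 0 = z := by simp [hσ, C.symm_Phi hzC]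
  have hmem : ∀ᶠ t in 𝓝 (0 : ℂ), σ t ∈ K := hev.mono fun t ht => by
    refine subset_closure ⟨good_transport C hCsub hzC (C.symm_mem ht) (fun i hi => ?_) hgz,
      fun i hi => ?_⟩
    all_goals
      have hne : i ≠ i₀ := fun e => hi (e ▸ hi₀)
      rw [C.Phi_symm ht]
      simp [hne, hagz i hi]
  have hdiff : ∀ᶠ t in 𝓝 (0 : ℂ), DifferentiableAt ℂ (ψ ∘ σ) t := hev.mono fun t ht => by
    have h1 : DifferentiableAt ℂ σ t := by
      refine DifferentiableAt.comp (g := C.e.symm) t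
        ((C.diff_symm _ ht).differentiableAt (C.isOpen_target.mem_nhds ht)) ?_
      fun_prop
    exact (hψd _ (C.source_subset (C.symm_mem ht))).comp t h1
  have hlm : IsLocalMax (norm ∘ (ψ ∘ σ)) 0 := hmem.mono fun t ht => by
    simp only [comp_apply, hσ0]
    exact hmax ht
  have hconst := Complex.eventually_eq_of_isLocalMax_norm hdiff hlm
  obtain ⟨ε, hε, hε'⟩ := Metric.eventually_nhds_iff.1 (hconst.and hev)
  set t : ℂ := ((ε / 2 : ℝ) : ℂ) with ht
  obtain ⟨heq, htt⟩ := hε' (show dist t 0 < ε by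
    rw [ht, dist_zero_right, Complex.norm_real, Real.norm_eq_abs, abs_of_pos (half_pos hε)]
    linarith)
  simp only [comp_apply, hσ0] at heq
  have hg_eq : D.gdet S.c (σ t) = D.gdet S.c z := by
    simpa [hψ] using congrArg (fun v : EuclideanSpace ℂ (Option (Fin n)) => v none) heq
  have hzeq : σ t = z := by
    funext i
    have := congrArg (fun v : EuclideanSpace ℂ (Option (Fin n)) => v (some i)) heq
    simp only [hψ, Option.elim] at this
    rw [hg_eq] at this
    exact mul_left_cancel₀ hg0 this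
  have h5 : D.Phi S.c (σ t) i₀ = D.Phi S.c z i₀ := by rw [hzeq]
  rw [C.Phi_symm htt] at h5
  simp [ht, hε.ne'] at h5

end Stage

end

end Vale.Agent.P274
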