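import Vale.Agent.P274.Frontier
import Mathlib.LinearAlgebra.Matrix.NonsingularInverse

/-!
One step of the descent: a free coordinate of the frame is replaced by a function that crosses
a regular arc in the boundary of its planar set.
-/

open Filter Metric Set Function Topology Matrix

namespace Vale.Agent.P274

noncomputable section

variable {n m : ℕ} {D : Dom n m} {c : Fin n → Option (Fin m)}

theorem Phi_update_ne {i a : Fin n} (h : a ≠ i) (o : Option (Fin m)) (z : Fin n → ℂ) :
    D.Phi (Function.update c i o) z a = D.Phi c z a := by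
  simp [Dom.Phi, Dom.comp, Function.update_of_ne h]

/-- Dependence on a frame persists when the frame is enlarged. -/
theorem dep_update {i : Fin n} {j k : Fin m} (hi : c i = none) {q : Fin n → ℂ} (hq : q ∈ D.W)
    (hg : D.gdet c q ≠ 0) (hg' : D.gdet (Function.update c i (some k)) q ≠ 0) (hj : D.Dep c j) :
    D.Dep (Function.update c i (some k)) j := by
  set c' := Function.update c i (some k) with hc'
  intro a ha z hz
  have hai : a ≠ i := fun e => by simp [hc', e] at ha
  have hca : c a = none := by simpa [hc', Function.update_of_ne hai] using ha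
  refine (analytic_gdet _).eqOn_zero_of_preconnected_of_eventuallyEq_zero D.preconnected_W hq ?_ hz
  filter_upwards [D.isOpen_W.mem_nhds hq, (continuousAt_gdet c hq).eventually_ne hg,
    (continuousAt_gdet c' hq).eventually_ne hg'] with y hy hgy hgy'
  rw [Pi.zero_apply]
  have hsolve : ∀ (e : Fin n → Option (Fin m)), D.gdet e y ≠ 0 → ∀ v : Fin n → ℂ,
      ∃ x, fderiv ℂ (D.Phi e) y x = v := fun e he v => by
    refine ⟨(D.jac e y)⁻¹.mulVec v, ?_⟩
    rw [← jac_mulVec hy, mulVec_mulVec, mul_nonsing_inv _ (isUnit_iff_ne_zero.2 he), one_mulVec]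
  obtain ⟨x, hx⟩ := hsolve c' hgy' (Pi.single a 1)
  obtain ⟨xa, hxa⟩ := hsolve c hgy (Pi.single a 1)
  obtain ⟨xi, hxi⟩ := hsolve c hgy (Pi.single i 1)
  set β := fderiv ℂ (D.Phi c) y x i
  have hdiff : x - (xa + β • xi) = 0 := by
    refine eq_zero_of_mulVec_eq_zero hgy ?_
    rw [jac_mulVec hy, map_sub, map_add, map_smul, hxa, hxi]
    funext b
    by_cases hb : b = i
    · subst hb; simp [β, hai.symm]
    · have h1 : fderiv ℂ (D.Phi c) y x b = fderiv ℂ (D.Phi c') y x b := by
        have h2 : D.comp c' b = D.comp c b := by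
          funext u; simp [Dom.comp, hc', Function.update_of_ne hb]
        rw [← jac_mulVec hy, ← jac_mulVec hy]
        simp only [Dom.jac, mulVec, dotProduct, h2]
      simp [h1, hx, hb]
  rw [gdet_update_eq_zero_iff hy hgy' hx j, sub_eq_zero.1 hdiff, map_add, map_smul,
    (gdet_update_eq_zero_iff hy hgy hxa j).1 (hj a hca y hy),
    (gdet_update_eq_zero_iff hy hgy hxi j).1 (hj i hi y hy), smul_zero, add_zero]

/-- An arc in the boundary of a planar set, with a chosen side. -/
structure Side (V : Set ℂ) where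
  Q : Set ℂ
  ρ : ℂ → ℝ
  isOpen_Q : IsOpen Q
  contDiff_ρ : ContDiff ℝ 1 ρ
  regular_ρ : ∀ u ∈ Q, fderiv ℝ ρ u ≠ 0
  frontier_iff : ∀ u ∈ Q, (u ∈ frontier V ↔ ρ u = 0)

namespace Stage

/-- The next stage. -/
def next (S : Stage D) (i : Fin n) {k : Fin m} (B : Side (D.V k)) : Stage D where
  c := Function.update S.c i (some k)
  O := Function.update S.O i B.Q
  ρ := Function.update S.ρ i B.ρ
  l := (𝓝[>] (0 : ℝ)).bind fun t => S.l.map fun δ => Function.update δ i t
  isOpen_O := fun a j h => by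
    by_cases e : a = i
    · subst e; simpa using B.isOpen_Q
    · simp only [Function.update_of_ne e] at h ⊢; exact S.isOpen_O a j h
  contDiff_ρ := fun a j h => by
    by_cases e : a = i
    · subst e; simpa using B.contDiff_ρ
    · simp only [Function.update_of_ne e] at h ⊢; exact S.contDiff_ρ a j h
  regular_ρ := fun a j h => by
    by_cases e : a = i
    · subst e; simpa using B.regular_ρ
    · simp only [Function.update_of_ne e] at h ⊢; exact S.regular_ρ a j h
  frontier_iff := fun a j h => by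
    by_cases e : a = i
    · subst e
      simp only [Function.update_self, Option.some.injEq] at h ⊢
      subst h
      exact B.frontier_iff
    · simp only [Function.update_of_ne e] at h ⊢; exact S.frontier_iff a j h
  neBot := by
    have := S.neBot
    rw [← empty_mem_iff_bot.not.trans Filter.neBot_iff.symm]
    intro h
    have h2 : ∀ᶠ δ in (𝓝[>] (0 : ℝ)).bind fun t => S.l.map fun δ => Function.update δ i t, False :=
      mem_of_superset h (empty_subset _)
    rw [eventually_bind] at h2
    obtain ⟨t, ht⟩ := h2.exists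
    rw [eventually_map] at ht
    exact ht.exists.choose_spec
  tendsto_l := fun a j h => by
    rw [tendsto_iff_eventually]
    intro s hs
    rw [eventually_bind]
    by_cases e : a = i
    · subst e
      filter_upwards [hs] with t ht
      exact eventually_map.2 (Eventually.of_forall fun δ => by simpa using ht)
    · refine Eventually.of_forall fun t => eventually_map.2 ?_
      simp only [Function.update_of_ne e] at h ⊢
      exact (S.tendsto_l a j h).eventually hs

variable {S : Stage D} {i : Fin n} {k : Fin m}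

theorem surf_symm {c' : Fin n → Option (Fin m)} (C : Chart D c')
    (hc' : c' = Function.update S.c i (some k)) (hi : S.c i = none)
    (hsrc : ∀ z ∈ C.e.source, D.gdet S.c z ≠ 0 ∧ ∀ a j, S.c a = some j → D.f j z ∈ S.O a)
    {w : Fin n → ℂ} (hw : w ∈ C.e.target) (hρ : ∀ a j, S.c a = some j → S.ρ a (w a) = 0) :
    C.e.symm w ∈ S.surf := by
  have hz := C.symm_mem hw
  refine ⟨C.source_subset hz, (hsrc _ hz).1, fun a j haj => ⟨(hsrc _ hz).2 a j haj, ?_⟩⟩
  have hai : a ≠ i := fun e => by simp [e, hi] at haj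
  rw [← Phi_of_some haj, ← Phi_update_ne hai (some k), ← hc', C.Phi_symm hw]
  exact hρ a j haj

/-- Near a boundary point with the fewest active functions, all points on the chosen side of the
new arc are good. -/
theorem good_side {c' : Fin n → Option (Fin m)} (C : Chart D c')
    (hc' : c' = Function.update S.c i (some k)) (hi : S.c i = none)
    {q : Fin n → ℂ} (hctr : C.ctr = D.Phi c' q)
    (hsrc : ∀ z ∈ C.e.source, D.gdet S.c z ≠ 0 ∧ ∀ a j, S.c a = some j → D.f j z ∈ S.O a)
    (hact : ∀ z ∈ C.e.source, S.act z ⊆ S.act q)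
    (hmin : ∀ q', S.Cand q' → (S.act q).card ≤ (S.act q').card) (hk : k ∈ S.act q)
    {P : Set ℂ} (hPc : IsPreconnected P) (hPb : P ⊆ ball (C.ctr i) C.rad) (hPV : P ⊆ D.V k)
    {z₂ : Fin n → ℂ} (hz₂ : z₂ ∈ C.e.source) (hz₂L : z₂ ∈ S.leaf q) (hz₂P : D.f k z₂ ∈ P) :
    ∃ r > 0, ∀ w ∈ C.e.target, (∀ a, S.c a ≠ none → dist (w a) (C.ctr a) < r) →
      (∀ a j, S.c a = some j → S.ρ a (w a) = 0) → w i ∈ P → S.Good (C.e.symm w) := by
  classical
  set w₂ := D.Phi c' z₂ with hw₂
  have hw₂t : w₂ ∈ C.e.target := C.Phi_mem hz₂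
  set mix : (Fin n → ℂ) → Fin n → ℂ := fun v a => if S.c a = none then w₂ a else v a with hmix
  have hmixc : Continuous mix := by
    refine continuous_pi fun a => ?_
    by_cases h : S.c a = none <;> simp only [hmix, h, if_true, if_false] <;> fun_prop
  have hmix0 : mix C.ctr = w₂ := by
    funext a
    by_cases h : S.c a = none
    · simp [hmix, h]
    · have hai : a ≠ i := fun e => h (e ▸ hi)
      simp [hmix, h, hctr, hw₂, hc', Phi_update_ne hai, hz₂L.2 a h]
  obtain ⟨N₂, hN₂, hN₂G⟩ := mem_nhdsWithin_iff_exists_mem_nhds_inter.1 (good_eventually hz₂L.1)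
  have hev : ∀ᶠ v in 𝓝 C.ctr, mix v ∈ C.e.target ∧ C.e.symm (mix v) ∈ N₂ := by
    refine (hmixc.continuousAt.eventually_mem (hmix0 ▸ C.isOpen_target.mem_nhds hw₂t)).and ?_
    have h : ContinuousAt (fun v => C.e.symm (mix v)) C.ctr :=
      ContinuousAt.comp (g := C.e.symm)
        (hmix0 ▸ C.continuousOn_symm.continuousAt (C.isOpen_target.mem_nhds hw₂t))
        hmixc.continuousAt
    refine h.eventually_mem ?_
    rw [hmix0, hw₂, C.symm_Phi hz₂]
    exact hN₂
  obtain ⟨r, hr, hrev⟩ := Metric.eventually_nhds_iff.1 hev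
  refine ⟨r, hr, fun w hw hwR hwρ hwi => ?_⟩
  set v : Fin n → ℂ := fun a => if S.c a = none then C.ctr a else w a with hv
  obtain ⟨hm1, hm2⟩ := hrev (show dist v C.ctr < r by
    rw [dist_pi_lt_iff hr]
    intro a
    by_cases h : S.c a = none
    · simp [hv, h, hr]
    · simpa [hv, h] using hwR a h)
  set s : Fin n → Set ℂ := fun a =>
    if a = i then P else if S.c a = none then ball (C.ctr a) C.rad else {w a} with hs
  set T : Set (Fin n → ℂ) := univ.pi s with hT
  have htar : ∀ p : Fin n → ℂ, p ∈ C.e.target ↔ ∀ a, p a ∈ ball (C.ctr a) C.rad := fun p => by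
    rw [C.target_eq, ball_pi _ C.rad_pos]; simp
  have hTt : T ⊆ C.e.target := by
    intro p hp
    rw [htar]
    intro a
    have := hp a trivial
    by_cases hai : a = i
    · subst hai; simp only [hs, if_true] at this; exact hPb this
    · by_cases h : S.c a = none
      · simpa [hs, hai, h] using this
      · simp only [hs, hai, h, if_false, mem_singleton_iff] at this
        rw [this]; exact (htar w).1 hw a
  have hTR : ∀ p ∈ T, ∀ a, S.c a ≠ none → p a = w a := by
    intro p hp a h
    have hai : a ≠ i := fun e => h (e ▸ hi)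
    simpa [hs, hai, h] using hp a trivial
  have hTρ : ∀ p ∈ T, C.e.symm p ∈ S.surf := fun p hp =>
    surf_symm C hc' hi hsrc (hTt hp) fun a j haj => by
      rw [hTR p hp a (ne_none_of_some haj)]; exact hwρ a j haj
  have hPhi : ∀ p ∈ T, ∀ a, S.c a ≠ none → D.Phi S.c (C.e.symm p) a = w a := by
    intro p hp a h
    have hai : a ≠ i := fun e => h (e ▸ hi)
    rw [← Phi_update_ne hai (some k), ← hc', C.Phi_symm (hTt hp), hTR p hp a h]
  have hTc : IsPreconnected T := isPreconnected_univ_pi fun a => by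
    simp only [hs]
    split_ifs
    exacts [hPc, (convex_ball _ _).isPreconnected, isPreconnected_singleton]
  have hmemT : mix v ∈ T := by
    intro a _
    by_cases hai : a = i
    · subst hai
      simpa [hs, hmix, hi, hw₂, Phi_of_some (show c' a = some k by simp [hc'])] using hz₂P
    · by_cases h : S.c a = none
      · simpa [hs, hai, h, hmix] using (htar w₂).1 hw₂t a
      · simp [hs, hai, h, hmix, hv]
  have hwT : w ∈ T := by
    intro a _
    by_cases hai : a = i
    · subst hai; simpa [hs] using hwi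
    · by_cases h : S.c a = none
      · simpa [hs, hai, h] using (htar w).1 hw a
      · simp [hs, hai, h]
  by_contra hno
  obtain ⟨t, ht, -, htC⟩ := exit (S := S) hTc (C.continuousOn_symm.mono hTt) hTρ
    (fun p hp p' hp' a h => (hPhi p hp a h).trans (hPhi p' hp' a h).symm)
    hmemT (hN₂G ⟨hm2, hTρ _ hmemT⟩) hwT hno
  have hsub := hact _ (C.symm_mem (hTt ht))
  have hkn : k ∉ S.act (C.e.symm t) := fun h => (S.mem_act.1 h).2 <| by
    rw [← Phi_of_some (D := D) (c := c') (i := i) (j := k) (by simp [hc']), C.Phi_symm (hTt ht)]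
    have := ht i trivial
    simp only [hs, if_true] at this
    exact hPV this
  exact (hmin _ htC).not_gt (Finset.card_lt_card ((Finset.ssubset_iff_of_subset hsub).2 ⟨k, hk, hkn⟩))

/-- Filling at the next stage. -/
theorem fill_next {c' : Fin n → Option (Fin m)} (C : Chart D c')
    (hc' : c' = Function.update S.c i (some k)) (hi : S.c i = none)
    (B : Side (D.V k)) (hQ : B.Q ⊆ ball (C.ctr i) C.rad) {r : ℝ}
    (hgood : ∀ w ∈ C.e.target, (∀ a, S.c a ≠ none → dist (w a) (C.ctr a) < r) →
      (∀ a j, S.c a = some j → S.ρ a (w a) = 0) → w i ∈ B.Q ∩ {v | 0 < B.ρ v} →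
      S.Good (C.e.symm w))
    {z : Fin n → ℂ} (hz : z ∈ C.e.source) (hzS : z ∈ (S.next i B).surf)
    (hzR : ∀ a, S.c a ≠ none → dist (D.Phi c' z a) (C.ctr a) < r) :
    (S.next i B).Fill z := by
  classical
  set w₀ := D.Phi c' z with hw₀
  have hne : ∀ a, S.c a ≠ none → a ≠ i := fun a h e => h (e ▸ hi)
  have hci : c' i = some k := by simp [hc']
  have hcR : ∀ a j, S.c a = some j → c' a = some j := fun a j h => by
    simp [hc', Function.update_of_ne (hne a (ne_none_of_some h)), h]
  obtain ⟨hiQ, hiρ⟩ : w₀ i ∈ B.Q ∧ B.ρ (w₀ i) = 0 := by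
    have := hzS.2.2 i k (by simp [next])
    rw [hw₀, Phi_of_some hci]
    simpa [next] using this
  have hρ₀ : ∀ a j, S.c a = some j → S.ρ a (w₀ a) = 0 := fun a j h => by
    have := (hzS.2.2 a j (by simp [next, Function.update_of_ne (hne a (ne_none_of_some h)), h])).2
    rw [hw₀, Phi_of_some (hcR a j h)]
    simpa [next, Function.update_of_ne (hne a (ne_none_of_some h))] using this
  have htar : ∀ p : Fin n → ℂ, p ∈ C.e.target ↔ ∀ a, p a ∈ ball (C.ctr a) C.rad := fun p => by
    rw [C.target_eq, ball_pi _ C.rad_pos]; simp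
  obtain ⟨η, hη, hηsub⟩ : ∃ η > 0, closedBall w₀ η ⊆ C.e.target :=
    Metric.nhds_basis_closedBall.mem_iff.1 (C.isOpen_target.mem_nhds (C.Phi_mem hz))
  intro L hL hLpos
  refine ⟨C.e.source ∩ {y | D.Phi c' y ∈ ball w₀ η}, inter_mem (C.e.open_source.mem_nhds hz)
    ((continuousAt_Phi c' (C.source_subset hz)).preimage_mem_nhds (ball_mem_nhds _ hη)), ?_⟩
  rw [show (S.next i B).l = (𝓝[>] (0 : ℝ)).bind (fun t => S.l.map fun δ => Function.update δ i t)
    from rfl, eventually_bind]
  filter_upwards [eventually_pos_of_compact (B.contDiff_ρ.differentiable (by norm_num) (w₀ i)) hiρ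
    (B.regular_ρ _ hiQ) hL hLpos (B.isOpen_Q.mem_nhds hiQ)] with t ht
  rw [eventually_map]
  set s : Fin n → Set ℂ := fun a =>
    if a = i then (fun p => w₀ i + nrm B.ρ (w₀ i) * (t : ℂ) * p) '' L
    else if S.c a = none then closedBall (w₀ a) η else {w₀ a} with hs
  set W' : Set (Fin n → ℂ) := univ.pi s with hW'
  have hWc : IsCompact W' := isCompact_univ_pi fun a => by
    simp only [hs]
    split_ifs
    exacts [hL.image (by fun_prop), isCompact_closedBall _ _, isCompact_singleton]
  have hWR : ∀ p ∈ W', ∀ a, S.c a ≠ none → p a = w₀ a := fun p hp a h => by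
    simpa [hs, hne a h, h] using hp a trivial
  have hWi : ∀ p ∈ W', p i ∈ B.Q ∩ {v | 0 < B.ρ v} := fun p hp => by
    have := hp i trivial
    simp only [hs, if_true] at this
    obtain ⟨p', hp', he⟩ := this
    rw [← he]
    exact ht p' hp'
  have hWt : W' ⊆ C.e.target := by
    intro p hp
    rw [htar]
    intro a
    by_cases hai : a = i
    · subst hai; exact hQ (hWi p hp).1
    · by_cases h : S.c a = none
      · have h1 : p a ∈ closedBall (w₀ a) η := by simpa [hs, hai, h] using hp a trivial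
        have h2 : Function.update w₀ a (p a) ∈ closedBall w₀ η := by
          rw [mem_closedBall, dist_pi_le_iff hη.le]
          intro b
          by_cases hb : b = a
          · subst hb; simpa using h1
          · simp [hb, hη.le]
        simpa using (htar _).1 (hηsub h2) a
      · rw [hWR p hp a h]; exact (htar _).1 (C.Phi_mem hz) a
  have hfill : ∀ p ∈ W', S.Fill (C.e.symm p) := fun p hp => by
    have hg := hgood p (hWt hp) (fun a h => by rw [hWR p hp a h]; exact hzR a h)
      (fun a j h => by rw [hWR p hp a (ne_none_of_some h)]; exact hρ₀ a j h) (hWi p hp)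
    exact hg.2.2.self_of_nhdsWithin hg.1
  have hloc : ∀ p ∈ W', ∃ N ∈ 𝓝 (C.e.symm p), ∀ᶠ δ in S.l, ∀ y ∈ N,
      (∀ a j, S.c a = some j → ∃ x ∈ L,
        D.f j y = D.f j (C.e.symm p) + nrm (S.ρ a) (D.f j (C.e.symm p)) * (δ a : ℂ) * x) →
      y ∈ D.U := fun p hp => hfill p hp L hL hLpos
  choose! N hN hNev using hloc
  obtain ⟨F, hFW, hFcov⟩ := hWc.elim_nhds_subcover
    (fun p => interior (C.e.target ∩ C.e.symm ⁻¹' N p)) fun p hp =>
      interior_mem_nhds.2 (inter_mem (C.isOpen_target.mem_nhds (hWt hp))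
        ((C.continuousOn_symm.continuousAt
          (C.isOpen_target.mem_nhds (hWt hp))).preimage_mem_nhds (hN p hp)))
  obtain ⟨η', hη', hthick⟩ := hWc.exists_thickening_subset_open
    (isOpen_biUnion fun p _ => isOpen_interior) hFcov
  obtain ⟨M, hM⟩ := hL.isBounded.exists_norm_le
  have hsmall : ∀ᶠ δ in S.l, ∀ a j, S.c a = some j →
      ∀ x ∈ L, ‖nrm (S.ρ a) (w₀ a) * (δ a : ℂ) * x‖ < η' := by
    refine eventually_all.2 fun a => ?_
    rcases h : S.c a with _ | j
    · simp
    · have ht0 : Tendsto (fun δ : Fin n → ℝ => ‖nrm (S.ρ a) (w₀ a)‖ * |δ a| * (|M| + 1)) S.l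
          (𝓝 0) := by
        have := ((((S.tendsto_l a j h).mono_right nhdsWithin_le_nhds).abs).const_mul
          ‖nrm (S.ρ a) (w₀ a)‖).mul_const (|M| + 1)
        simpa using this
      filter_upwards [ht0.eventually (Iio_mem_nhds hη')] with δ hδ j' _ x hx
      rw [norm_mul, norm_mul, Complex.norm_real, Real.norm_eq_abs]
      refine lt_of_le_of_lt ?_ hδ
      gcongr
      linarith [hM x hx, le_abs_self M]
  filter_upwards [(eventually_all_finset F).2 fun p hp => hNev p (hFW p hp), hsmall] with δ hδ hδs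
  rintro y ⟨hys, hyN⟩ hlift
  set p₀ : Fin n → ℂ := fun a => if S.c a = none then D.Phi c' y a else w₀ a with hp₀
  have hRval : ∀ a j, S.c a = some j → ∃ x ∈ L,
      D.f j y = w₀ a + nrm (S.ρ a) (w₀ a) * (δ a : ℂ) * x := by
    intro a j haj
    obtain ⟨x, hx, he⟩ := hlift a j (by simpa [next, hc'] using hcR a j haj)
    refine ⟨x, hx, ?_⟩
    rw [he, hw₀, Phi_of_some (hcR a j haj)]
    simp [next, Function.update_of_ne (hne a (ne_none_of_some haj))]
  have hp₀W : p₀ ∈ W' := by
    intro a _
    by_cases hai : a = i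
    · subst hai
      obtain ⟨x, hx, he⟩ := hlift a k (by simp [next])
      simp only [hs, if_true, hp₀, hi]
      refine ⟨x, hx, ?_⟩
      rw [hw₀, Phi_of_some hci, Phi_of_some hci, he]
      simp [next]
    · by_cases h : S.c a = none
      · simp only [hs, hai, h, if_true, if_false, hp₀, mem_closedBall]
        exact (dist_le_pi_dist _ _ a).trans (mem_ball.1 hyN).le
      · simp [hs, hai, h, hp₀]
  have hdist : dist (D.Phi c' y) p₀ < η' := by
    rw [dist_pi_lt_iff hη']
    intro a
    rcases h : S.c a with _ | j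
    · simp [hp₀, h, hη']
    · obtain ⟨x, hx, he⟩ := hRval a j h
      simp only [hp₀, h, reduceCtorEq, if_false, Phi_of_some (hcR a j h), he, dist_self_add_left]
      exact hδs a j h x hx
  obtain ⟨p, hpF, hp⟩ := mem_iUnion₂.1 (hthick (mem_thickening_iff.2 ⟨p₀, hp₀W, hdist⟩))
  have hyNp : y ∈ N p := by
    have h1 : C.e.symm (D.Phi c' y) ∈ N p := (interior_subset hp).2
    rwa [C.symm_Phi hys] at h1
  refine hδ p hpF y hyNp fun a j haj => ?_
  obtain ⟨x, hx, he⟩ := hRval a j haj
  refine ⟨x, hx, ?_⟩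
  have hfp : D.f j (C.e.symm p) = w₀ a := by
    rw [← Phi_of_some (D := D) (hcR a j haj), C.Phi_symm (hWt (hFW p hpF)),
      hWR p (hFW p hpF) a (ne_none_of_some haj)]
  rw [hfp]
  exact he

/-- Points at which all independent functions are in their sets are dense enough in the surface. -/
theorem exists_pos (S : Stage D) (C : Chart D S.c) {Ω : Set (Fin n → ℂ)} (hΩ : IsOpen Ω)
    (hΩt : Ω ⊆ C.e.target) {w₀ : Fin n → ℂ} (hw₀ : w₀ ∈ Ω)
    (hw₀S : ∀ a j, S.c a = some j → w₀ a ∈ S.O a ∧ S.ρ a (w₀ a) = 0)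
    (hcl : ∀ w ∈ Ω, (∀ a j, S.c a = some j → w a ∈ S.O a ∧ S.ρ a (w a) = 0) →
      ∀ j, ¬ D.Dep S.c j → D.f j (C.e.symm w) ∈ closure (D.V j)) :
    ∃ w ∈ Ω, (∀ a j, S.c a = some j → w a ∈ S.O a ∧ S.ρ a (w a) = 0) ∧
      C.e.symm w ∈ S.pos := by
  classical
  suffices h : ∀ F : Finset (Fin m), ∃ w ∈ Ω,
      (∀ a j, S.c a = some j → w a ∈ S.O a ∧ S.ρ a (w a) = 0) ∧
      ∀ j ∈ F, ¬ D.Dep S.c j → D.f j (C.e.symm w) ∈ D.V j by
    obtain ⟨w, hw, hwS, hwV⟩ := h Finset.univ
    exact ⟨w, hw, hwS, C.source_subset (C.symm_mem (hΩt hw)), fun j => hwV j (Finset.mem_univ _)⟩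
  intro F
  induction F using Finset.induction_on with
  | empty => exact ⟨w₀, hw₀, hw₀S, by simp⟩
  | @insert j F hjF ih =>
    obtain ⟨w₁, hw₁, hw₁S, hw₁V⟩ := ih
    by_cases hdep : D.Dep S.c j
    · refine ⟨w₁, hw₁, hw₁S, fun j' hj' hn => ?_⟩
      rcases Finset.mem_insert.1 hj' with rfl | h
      exacts [absurd hdep hn, hw₁V j' h hn]
    have hev : ∀ᶠ w in 𝓝 w₁, w ∈ Ω ∧ (∀ a j', S.c a = some j' → w a ∈ S.O a) ∧
        ∀ j' ∈ F, ¬ D.Dep S.c j' → D.f j' (C.e.symm w) ∈ D.V j' := by
      refine (hΩ.eventually_mem hw₁).and (Eventually.and ?_ ?_)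
      · refine eventually_all.2 fun a => eventually_all.2 fun j' => ?_
        by_cases h : S.c a = some j'
        · exact ((continuous_apply a).continuousAt.eventually_mem
            ((S.isOpen_O a j' h).mem_nhds (hw₁S a j' h).1)).mono fun w hw _ => hw
        · exact Eventually.of_forall fun w h' => absurd h' h
      · refine (eventually_all_finset F).2 fun j' hj' => ?_
        by_cases h : D.Dep S.c j'
        · exact Eventually.of_forall fun w h' => absurd h h'
        · exact (((C.diff_f j').continuousOn.continuousAt (C.isOpen_target.mem_nhds (hΩt hw₁))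
            ).eventually_mem ((D.isOpen_V j').mem_nhds (hw₁V j' hj' h))).mono fun w hw _ => hw
    obtain ⟨R, hR, hRev⟩ := Metric.eventually_nhds_iff.1 hev
    by_contra hno
    push Not at hno
    have hfr : ∀ w ∈ ball w₁ R, (∀ a j', S.c a = some j' → S.ρ a (w a) = 0) →
        D.f j (C.e.symm w) ∈ frontier (D.V j) := by
      intro w hw hρ
      obtain ⟨hwΩ, hwO, hwV⟩ := hRev hw
      obtain ⟨j', hj', hn, hV⟩ := hno w hwΩ fun a j' h => ⟨hwO a j' h, hρ a j' h⟩
      rcases Finset.mem_insert.1 hj' with rfl | h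
      · rw [frontier, (D.isOpen_V j').interior_eq]
        exact ⟨hcl w hwΩ (fun a j'' h => ⟨hwO a j'' h, hρ a j'' h⟩) j' hn, hV⟩
      · exact absurd (hwV j' h hn) hV
    have hball : ball w₁ R ⊆ C.e.target := fun w hw => hΩt (hRev hw).1
    refine hdep (C.dep_of_forall isOpen_ball (nonempty_ball.2 hR) hball fun a ha w hw => ?_)
    refine (C.gdet_update_iff (hball hw) a j).1 ?_
    set A : Fin n → Set ℂ :=
      fun b => if S.c b = none then univ else {t | S.ρ b t = 0} with hA
    refine eq_zero_of_eq_zero_on_prod hR ((C.diff_gdet _).mono hball) A (fun b => ?_) ?_ w hw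
    · simp only [hA]
      rcases h : S.c b with _ | j'
      · simpa [h] using (Eventually.of_forall (f := 𝓝[≠] (w₁ b)) (p := fun _ => True)
          fun _ => trivial).frequently
      · simpa [h] using frequently_zero (S.contDiff_ρ b j' h) (hw₁S b j' h).2
          (S.regular_ρ b j' h _ (hw₁S b j' h).1)
    intro v hv hvA
    refine (C.gdet_update_iff (hball hv) a j).2 ?_
    have hvρ : ∀ b j', S.c b = some j' → S.ρ b (v b) = 0 := fun b j' h => by
      simpa [hA, h] using hvA b
    have hd : HasFDerivAt (fun u => D.f j (C.e.symm u))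
        (fderiv ℂ (fun u => D.f j (C.e.symm u)) v) v :=
      ((C.diff_f j v (hball hv)).differentiableAt (C.isOpen_target.mem_nhds (hball hv))).hasFDerivAt
    set e : Fin n → ℂ := Pi.single a 1 with he
    have hl : HasDerivAt (fun t : ℂ => v + t • e) e 0 := by
      simpa using ((hasDerivAt_id (0 : ℂ)).smul_const e).const_add v
    have hh := hd.comp_hasDerivAt_of_eq (0 : ℂ) hl (by simp)
    have hlc : Continuous fun t : ℂ => v + t • e := by fun_prop
    have hinb : ∀ᶠ t in 𝓝 (0 : ℂ), v + t • e ∈ ball w₁ R :=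
      hlc.continuousAt.eventually_mem (by simpa using isOpen_ball.mem_nhds hv)
    have hval : ∀ᶠ t in 𝓝 (0 : ℂ), D.f j (C.e.symm (v + t • e)) ∈ frontier (D.V j) :=
      hinb.mono fun t ht => hfr _ ht fun b j' h => by
        have : b ≠ a := fun e' => by simp [e', ha] at h
        simpa [he, this] using hvρ b j' h
    have hto : IsOpen {t : ℂ | v + t • e ∈ C.e.target} := C.isOpen_target.preimage hlc
    have han : AnalyticAt ℂ (fun t : ℂ => D.f j (C.e.symm (v + t • e))) 0 :=
      ((C.diff_f j).comp (f := fun t : ℂ => v + t • e) (Differentiable.differentiableOn (by fun_prop))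
        fun t ht => ht).analyticAt (hto.mem_nhds (by simpa using hball hv))
    rcases han.eventually_constant_or_nhds_le_map_nhds with h | h
    · exact hh.unique ((hasDerivAt_const (0 : ℂ) _).congr_of_eventuallyEq h)
    · exfalso
      have h2 : frontier (D.V j) ∈ 𝓝 (D.f j (C.e.symm (v + (0 : ℂ) • e))) := h (mem_map.2 hval)
      have h3 := mem_interior_iff_mem_nhds.2 h2
      rw [← frontier_compl, interior_frontier (D.isOpen_V j).isClosed_compl] at h3
      exact h3

/-- The descent step. -/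
theorem exists_step (hP : D.NoPuncture) (S : Stage D) {x : Fin n → ℂ} (hx : S.Good x) {i₀ : Fin n}
    (hi₀ : S.c i₀ = none) :
    ∃ (S' : Stage D) (x' : Fin n → ℂ), S'.Good x' ∧
      (Finset.univ.filter fun a => S'.c a = none).card <
        (Finset.univ.filter fun a => S.c a = none).card := by
  classical
  obtain ⟨q, k, i, hqC, hmin, hk, hfr, hbad, hi, hg'⟩ := exists_regular hP hx hi₀
  set c' := Function.update S.c i (some k) with hc'
  have hqW := hqC.1.1
  have hci : c' i = some k := by simp [hc']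
  obtain ⟨O₀, ρ₀, hO₀, hbO₀, hρ₀, hreg₀, hiff₀⟩ := D.regular_V k _ hfr hbad
  have hnb : ∀ᶠ z in 𝓝 q, (D.gdet S.c z ≠ 0 ∧ ∀ a j, S.c a = some j → D.f j z ∈ S.O a) ∧
      S.act z ⊆ S.act q := by
    refine (((continuousAt_gdet S.c hqW).eventually_ne hqC.1.2.1).and ?_).and (act_mono hqW)
    refine eventually_all.2 fun a => eventually_all.2 fun j => ?_
    by_cases h : S.c a = some j
    · exact ((continuousAt_f j hqW).eventually_mem
        ((S.isOpen_O a j h).mem_nhds (hqC.1.2.2 a j h).1)).mono fun z hz _ => hz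
    · exact Eventually.of_forall fun z h' => absurd h' h
  obtain ⟨C, hqS, hctr, hCsub⟩ := exists_chart (c := c') hqW hg' hnb
  set b := D.f k q with hb
  have hctri : C.ctr i = b := by rw [hctr, Phi_of_some hci]
  have hρb : ρ₀ b = 0 := (hiff₀ b hbO₀).1 hfr
  obtain ⟨Q, hQo, hbQ, hQsub, hQp, hQn, hQcl, -⟩ := exists_box hρ₀ hρb (hreg₀ b hbO₀)
    (inter_mem (hO₀.mem_nhds hbO₀) (ball_mem_nhds b C.rad_pos))
  obtain ⟨z₂, ⟨hz₂S, hz₂Q⟩, hz₂L⟩ := mem_closure_iff_nhds.1 hqC.2.2 _
    (inter_mem (C.e.open_source.mem_nhds hqS)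
      ((continuousAt_f k hqW).preimage_mem_nhds (hQo.mem_nhds hbQ)))
  have hv₂V : D.f k z₂ ∈ D.V k := hz₂L.1.2.1.2 k (S.mem_act.1 hk).1
  have hv₂0 : ρ₀ (D.f k z₂) ≠ 0 := fun h => by
    have := (hiff₀ _ (hQsub hz₂Q).1).2 h
    rw [frontier, (D.isOpen_V k).interior_eq] at this
    exact this.2 hv₂V
  obtain ⟨ρ, hρc, hρreg, hρiff, hρP, hρcl, hρpos⟩ : ∃ ρ : ℂ → ℝ, ContDiff ℝ 1 ρ ∧
      (∀ u ∈ Q, fderiv ℝ ρ u ≠ 0) ∧ (∀ u ∈ Q, (u ∈ frontier (D.V k) ↔ ρ u = 0)) ∧
      IsPreconnected (Q ∩ {v | 0 < ρ v}) ∧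
      (∀ v ∈ Q, ρ v = 0 → v ∈ closure (Q ∩ {w | 0 < ρ w})) ∧ 0 < ρ (D.f k z₂) := by
    rcases hv₂0.lt_or_gt with h | h
    · refine ⟨fun v => -ρ₀ v, hρ₀.neg, fun u hu => ?_, fun u hu => ?_, ?_, fun v hv h0 => ?_, ?_⟩
      · rw [fderiv_fun_neg, neg_ne_zero]; exact hreg₀ u (hQsub hu).1
      · rw [neg_eq_zero]; exact hiff₀ u (hQsub hu).1
      · simpa using hQn
      · simpa using (hQcl v hv (by simpa using h0)).2
      · simpa using h
    · exact ⟨ρ₀, hρ₀, fun u hu => hreg₀ u (hQsub hu).1, fun u hu => hiff₀ u (hQsub hu).1, hQp,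
        fun v hv h0 => (hQcl v hv h0).1, h⟩
  set P := Q ∩ {v | 0 < ρ v} with hPdef
  have hPV : P ⊆ D.V k := by
    refine hρP.subset_of_closure_inter_subset (D.isOpen_V k) ⟨_, ⟨hz₂Q, hρpos⟩, hv₂V⟩ ?_
    rintro v ⟨hv, hvP⟩
    by_contra hvV
    have : v ∈ frontier (D.V k) := by
      rw [frontier, (D.isOpen_V k).interior_eq]; exact ⟨hv, hvV⟩
    exact (hvP.2 : 0 < ρ v).ne' ((hρiff v hvP.1).1 this)
  set B : Side (D.V k) := ⟨Q, ρ, hQo, hρc, hρreg, hρiff⟩
  have hQball : Q ⊆ ball (C.ctr i) C.rad := fun v hv => hctri ▸ (hQsub hv).2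
  obtain ⟨r, hr, hgood⟩ := good_side C hc' hi hctr (fun z hz => (hCsub hz).1)
    (fun z hz => (hCsub hz).2) hmin hk hρP (inter_subset_left.trans hQball) hPV hz₂S hz₂L
    ⟨hz₂Q, hρpos⟩
  set Ω : Set (Fin n → ℂ) :=
    C.e.target ∩ {w | ∀ a, S.c a ≠ none → dist (w a) (C.ctr a) < r} with hΩ
  have hΩo : IsOpen Ω := by
    refine C.isOpen_target.inter ?_
    simp only [ofPred_forall]
    refine isOpen_iInter_of_finite fun a => isOpen_iInter_of_finite fun _ => ?_
    exact isOpen_lt (by fun_prop) continuous_const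
  have hne : ∀ a, S.c a ≠ none → a ≠ i := fun a h e => h (e ▸ hi)
  have hctrS : ∀ a j, (S.next i B).c a = some j →
      C.ctr a ∈ (S.next i B).O a ∧ (S.next i B).ρ a (C.ctr a) = 0 := by
    intro a j h
    by_cases hai : a = i
    · subst hai
      simp only [next, Function.update_self, hctri]
      exact ⟨hbQ, (hρiff b hbQ).1 hfr⟩
    · simp only [next, Function.update_of_ne hai] at h ⊢
      rw [hctr, Phi_update_ne hai, Phi_of_some h]
      exact hqC.1.2.2 a j h
  have hcl : ∀ w ∈ Ω, (∀ a j, (S.next i B).c a = some j →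
      w a ∈ (S.next i B).O a ∧ (S.next i B).ρ a (w a) = 0) →
      ∀ j, ¬ D.Dep (S.next i B).c j → D.f j (C.e.symm w) ∈ closure (D.V j) := by
    rintro w ⟨hwt, hwR⟩ hwS j hj
    have hj0 : ¬ D.Dep S.c j := fun h => hj (dep_update hi hqW hqC.1.2.1 hg' h)
    obtain ⟨hwQ, hw0⟩ : w i ∈ Q ∧ ρ (w i) = 0 := by
      simpa [next, B] using hwS i k (by simp [next])
    set g : ℂ → ℂ := fun v => D.f j (C.e.symm (Function.update w i v)) with hg
    have hupd : Continuous fun v : ℂ => Function.update w i v :=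
      continuous_const.update i continuous_id
    have hgc : ContinuousAt g (w i) := by
      refine ContinuousAt.comp (g := fun u => D.f j (C.e.symm u)) ?_ hupd.continuousAt
      rw [Function.update_eq_self]
      exact (C.diff_f j).continuousOn.continuousAt (C.isOpen_target.mem_nhds hwt)
    have hsub : g '' P ⊆ D.V j := by
      rintro _ ⟨v, hv, rfl⟩
      have htt : Function.update w i v ∈ C.e.target := by
        rw [C.target_eq, ball_pi _ C.rad_pos] at hwt ⊢
        intro a _
        by_cases hai : a = i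
        · subst hai; simpa using hQball hv.1
        · simpa [hai] using hwt a trivial
      refine (hgood _ htt (fun a h => by simpa [hne a h] using hwR a h) (fun a j' h => ?_)
        (by simpa using hv)).2.1.2 j hj0
      have hai := hne a (ne_none_of_some h)
      have := hwS a j' (by simp [next, Function.update_of_ne hai, h])
      simpa [next, Function.update_of_ne hai] using this.2
    have := closure_mono hsub (hgc.continuousWithinAt.mem_closure_image (hρcl _ hwQ hw0))
    simpa [hg] using this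
  obtain ⟨w, hwΩ, hwS, hwpos⟩ := exists_pos (S.next i B) C hΩo inter_subset_left
    (w₀ := C.ctr) ⟨C.target_eq ▸ mem_ball_self C.rad_pos, fun a _ => by simpa using hr⟩ hctrS hcl
  refine ⟨S.next i B, C.e.symm w, ⟨?_, hwpos, ?_⟩, ?_⟩
  · refine ⟨C.source_subset (C.symm_mem hwΩ.1), C.gdet_ne _ (C.symm_mem hwΩ.1), fun a j h => ?_⟩
    rw [← Phi_of_some (D := D) h, show (S.next i B).c = c' from rfl, C.Phi_symm hwΩ.1]
    exact hwS a j h
  · rw [eventually_nhdsWithin_iff]
    have h1 : ∀ᶠ y in 𝓝 (C.e.symm w), D.Phi c' y ∈ Ω := by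
      refine (continuousAt_Phi c' (C.source_subset (C.symm_mem hwΩ.1))).eventually_mem ?_
      rw [C.Phi_symm hwΩ.1]
      exact hΩo.mem_nhds hwΩ
    filter_upwards [C.e.open_source.mem_nhds (C.symm_mem hwΩ.1), h1] with y hy hyΩ hyS
    exact fill_next C hc' hi B hQball hgood hy hyS hyΩ.2
  · refine Finset.card_lt_card ((Finset.ssubset_iff_of_subset ?_).2
      ⟨i, by simp [hi], fun h => absurd (Finset.mem_filter.1 h).2 (by simp [next])⟩)
    intro a ha
    rw [Finset.mem_filter] at ha ⊢
    refine ⟨Finset.mem_univ _, ?_⟩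
    have h := ha.2
    by_cases hai : a = i
    · simp [next, hai] at h
    · simpa [next, Function.update_of_ne hai] using h

end Stage

/-- The initial stage: no function in the frame. -/
def Dom.start (D : Dom n m) : Stage D where
  c := fun _ => none
  O := fun _ => univ
  ρ := fun _ _ => 0
  l := pure 1
  isOpen_O := fun _ _ _ => isOpen_univ
  contDiff_ρ := fun _ _ h => by simp at h
  regular_ρ := fun _ _ h => by simp at h
  frontier_iff := fun _ _ h => by simp at h
  neBot := inferInstance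
  tendsto_l := fun _ _ h => by simp at h

theorem gdet_none (z : Fin n → ℂ) : D.gdet (fun _ => none) z = 1 := by
  have : D.jac (fun _ => none) z = 1 := by
    ext a b
    rw [Dom.jac, comp_of_none rfl]
    have : fderiv ℂ (fun u : Fin n → ℂ => u a) z = ContinuousLinearMap.proj a := by
      exact (hasFDerivAt_apply a z).fderiv
    rw [this]
    simp [Matrix.one_apply, Pi.single_apply]
  rw [Dom.gdet, this, Matrix.det_one]

theorem good_start {x : Fin n → ℂ} (hx : x ∈ D.U) : D.start.Good x := by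
  have hW : ∀ z ∈ D.U, z ∈ D.W := fun z hz => D.closure_subset (subset_closure hz)
  refine ⟨⟨hW x hx, by rw [show D.start.c = fun _ => none from rfl, gdet_none]; exact one_ne_zero,
    fun a j h => by simp [Dom.start] at h⟩, ⟨hW x hx, fun j _ => D.maps x hx j⟩, ?_⟩
  filter_upwards [nhdsWithin_le_nhds (D.isOpen_U.mem_nhds hx)] with z hz L _ _
  exact ⟨D.U, D.isOpen_U.mem_nhds hz, Eventually.of_forall fun δ y hy _ => hy⟩

/-- A corner: a stage with a full frame and a good point. -/
theorem exists_full (hP : D.NoPuncture) :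
    ∃ (S : Stage D) (x : Fin n → ℂ), S.Good x ∧ ∀ a, S.c a ≠ none := by
  classical
  obtain ⟨x₀, hx₀⟩ := D.nonempty_U
  suffices h : ∀ N, ∀ (S : Stage D) (x : Fin n → ℂ), S.Good x →
      (Finset.univ.filter fun a => S.c a = none).card ≤ N →
      ∃ (S : Stage D) (x : Fin n → ℂ), S.Good x ∧ ∀ a, S.c a ≠ none from
    h _ D.start x₀ (good_start hx₀) le_rfl
  intro N
  induction N with
  | zero =>
    intro S x hx h
    refine ⟨S, x, hx, fun a ha => ?_⟩
    have := Finset.card_eq_zero.1 (Nat.le_zero.1 h)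
    exact Finset.notMem_empty a (this ▸ Finset.mem_filter.2 ⟨Finset.mem_univ a, ha⟩)
  | succ N ih =>
    intro S x hx h
    by_cases hfull : ∀ a, S.c a ≠ none
    · exact ⟨S, x, hx, hfull⟩
    push Not at hfull
    obtain ⟨a, ha⟩ := hfull
    obtain ⟨S', x', hx', hlt⟩ := Stage.exists_step hP S hx ha
    exact ih S' x' hx' (by omega)

end

end Vale.Agent.P274
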